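import Mathlib

/-!
# P022D, assembly: actions through directed families of correspondences
-/

set_option linter.all false

noncomputable section

namespace Vale.Agent.P022D.As

variable {P B : Type} [CommRing P] [CommRing B]

/-- a directed family of correspondences which are defined on all of `P` -/
structure Dir (G : Set (Subring (P × B))) : Prop where
  sur : ∀ Γ ∈ G, ∀ f, ∃ t, (f, t) ∈ Γ
  dir : ∀ Γ ∈ G, ∀ Γ' ∈ G, ∃ Γ'' ∈ G, Γ'' ≤ Γ ∧ Γ'' ≤ Γ'

/-- `v` is killed by the kernel of the correspondence -/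
def Ad (Γ : Subring (P × B)) {V : Type} [AddCommGroup V] [Module B V] (v : V) : Prop :=
  ∀ t, ((0 : P), t) ∈ Γ → t • v = 0

/-- the actions of `P` and `B` are compatible -/
def Cmp (G : Set (Subring (P × B))) (V : Type) [AddCommGroup V] [Module B V] [Module P V] :
    Prop := ∀ v : V, ∃ Γ ∈ G, ∀ f t, (f, t) ∈ Γ → f • v = t • v

variable {G : Set (Subring (P × B))} {V V' : Type} [AddCommGroup V] [Module B V]
  [AddCommGroup V'] [Module B V']

theorem Ad.eq {Γ : Subring (P × B)} {v : V} (h : Ad Γ v) {f : P} {t t' : B} (a : (f, t) ∈ Γ)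
    (b : (f, t') ∈ Γ) : t • v = t' • v := by
  have := h (t - t') (by simpa using Γ.sub_mem a b)
  rwa [sub_smul, sub_eq_zero] at this

theorem Ad.mono {Γ Γ' : Subring (P × B)} {v : V} (h : Ad Γ v) (e : Γ' ≤ Γ) : Ad Γ' v :=
  fun t ht => h t (e ht)

theorem Ad.smul {Γ : Subring (P × B)} {v : V} (h : Ad Γ v) (b : B) : Ad Γ (b • v) :=
  fun t ht => by rw [smul_comm, h t ht, smul_zero]

theorem Dir.eq (hG : Dir G) {Γ Γ' : Subring (P × B)} (h : Γ ∈ G) (h' : Γ' ∈ G) {v : V}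
    (a : Ad Γ v) (a' : Ad Γ' v) {f : P} {t t' : B} (b : (f, t) ∈ Γ) (b' : (f, t') ∈ Γ') :
    t • v = t' • v := by
  obtain ⟨Γ'', k, e, e'⟩ := hG.dir Γ h Γ' h'
  obtain ⟨s, hs⟩ := hG.sur _ k f
  rw [a.eq b (e hs), a'.eq b' (e' hs)]

/-- **the action** -/
theorem Dir.exists_mod (hG : Dir G) (h : ∀ v : V, ∃ Γ ∈ G, Ad Γ v) :
    ∃ _ : Module P V, Cmp G V := by
  choose Γ h1 h2 using h
  choose l hl using fun (v : V) f => hG.sur _ (h1 v) f
  have key : ∀ Γ' ∈ G, ∀ v : V, Ad Γ' v → ∀ f t, (f, t) ∈ Γ' → l v f • v = t • v :=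
    fun Γ' a v b f t c => hG.eq (h1 v) a (h2 v) b (hl v f) c
  let _ : SMul P V := ⟨fun f v => l v f • v⟩
  have sm : ∀ (f : P) (v : V), f • v = l v f • v := fun _ _ => rfl
  refine ⟨Module.ofMinimalAxioms (fun f v w => ?_) (fun f g v => ?_) (fun f g v => ?_)
    (fun v => ?_), fun v => ⟨Γ v, h1 v, key _ (h1 v) v (h2 v)⟩⟩
  · obtain ⟨Γ', k, e, e'⟩ := hG.dir _ (h1 v) _ (h1 w)
    obtain ⟨s, hs⟩ := hG.sur _ k f
    have a := (h2 v).mono e
    have b := (h2 w).mono e'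
    rw [sm, sm, sm, key _ k v a f s hs, key _ k w b f s hs,
      key _ k (v + w) (fun t ht => by rw [smul_add, a t ht, b t ht, add_zero]) f s hs, smul_add]
  · rw [sm, sm, sm, key _ (h1 v) v (h2 v) (f + g) (l v f + l v g)
      ((Γ v).add_mem (hl v f) (hl v g)), add_smul]
  · rw [sm, sm, sm, key _ (h1 v) v (h2 v) (f * g) (l v f * l v g)
      ((Γ v).mul_mem (hl v f) (hl v g)), key _ (h1 v) _ ((h2 v).smul _) f _ (hl v f), mul_smul]
  · rw [sm, key _ (h1 v) v (h2 v) 1 1 (Γ v).one_mem, one_smul]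

variable [Module P V] [Module P V']

/-- the formula holds for every adapted correspondence -/
theorem Cmp.eq (hG : Dir G) (h : Cmp G V) {Γ : Subring (P × B)} (k : Γ ∈ G) {v : V} (a : Ad Γ v)
    {f : P} {t : B} (b : (f, t) ∈ Γ) : f • v = t • v := by
  obtain ⟨Γ', k', e⟩ := h v
  obtain ⟨s, hs⟩ := hG.sur _ k' f
  rw [e f s hs]
  exact hG.eq k' k (fun t ht => by rw [← e 0 t ht, zero_smul]) a hs b

theorem Cmp.all (h : Cmp G V) {f : P} {t : B} (b : ∀ Γ ∈ G, (f, t) ∈ Γ) (v : V) :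
    f • v = t • v := by
  obtain ⟨Γ, k, e⟩ := h v
  exact e f t (b Γ k)

theorem Cmp.both (hG : Dir G) (h : Cmp G V) (h' : Cmp G V') (f : P) (v : V) (v' : V') :
    ∃ Γ ∈ G, ∃ t, (f, t) ∈ Γ ∧ f • v = t • v ∧ f • v' = t • v' := by
  obtain ⟨Γ, k, e⟩ := h v
  obtain ⟨Γ', k', e'⟩ := h' v'
  obtain ⟨Γ'', k'', a, a'⟩ := hG.dir Γ k Γ' k'
  obtain ⟨s, hs⟩ := hG.sur _ k'' f
  exact ⟨_, k'', s, hs, e f s (a hs), e' f s (a' hs)⟩

/-- linear maps are linear for the new action -/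
def Cmp.lin (hG : Dir G) (h : Cmp G V) (h' : Cmp G V') (φ : V →ₗ[B] V') : V →ₗ[P] V' where
  toFun := φ
  map_add' := φ.map_add
  map_smul' f v := by
    obtain ⟨_, _, t, _, a, b⟩ := h.both hG h' f v (φ v)
    rw [RingHom.id_apply, a, b, φ.map_smul]

theorem Cmp.lin_apply (hG : Dir G) (h : Cmp G V) (h' : Cmp G V') (φ : V →ₗ[B] V') (v : V) :
    h.lin hG h' φ v = φ v := rfl

theorem Cmp.fin (hG : Dir G) (hne : G.Nonempty) (h : Cmp G V) (s : Finset V) :
    ∃ Γ ∈ G, ∀ v ∈ s, ∀ f t, (f, t) ∈ Γ → f • v = t • v := by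
  classical
  induction s using Finset.induction_on with
  | empty => exact ⟨_, hne.choose_spec, by simp⟩
  | insert w s _ ih =>
    obtain ⟨Γ, k, e⟩ := ih
    obtain ⟨Γ', k', e'⟩ := h w
    obtain ⟨Γ'', k'', a, a'⟩ := hG.dir Γ k Γ' k'
    refine ⟨_, k'', fun v hv f t b => ?_⟩
    rcases Finset.mem_insert.1 hv with rfl | hv
    exacts [e' f t (a' b), e v hv f t (a b)]

theorem Cmp.pi (hG : Dir G) (hne : G.Nonempty) (h : Cmp G V) (ι : Type) [Finite ι] :
    Cmp G (ι → V) := fun v => by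
  obtain ⟨Γ, k, e⟩ := h.fin hG hne (Set.finite_range v).toFinset
  exact ⟨Γ, k, fun f t b => funext fun i => e _ (by simp) f t b⟩

/-- the correspondence given by two maps to one ring -/
def gr {A : Type} [CommRing A] (Φ : P →+* A) (φ : B →+* A) : Subring (P × B) :=
  RingHom.eqLocus (Φ.comp (RingHom.fst P B)) (φ.comp (RingHom.snd P B))

theorem mem_gr {A : Type} [CommRing A] {Φ : P →+* A} {φ : B →+* A} {f : P} {t : B} :
    (f, t) ∈ gr Φ φ ↔ Φ f = φ t := Iff.rfl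

end Vale.Agent.P022D.As
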