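import Vale.Agent.P022D.As.Chart
import Vale.Agent.P022D.Loc.Cls

/-!
# P022D, assembly: the point of the power series ring given by the representation
-/

set_option linter.all false

noncomputable section

namespace Vale.Agent.P022D.As

open IsLocalRing NumberField
open Vale.Agent.P022 Vale.Agent.P022.C Vale.Agent.P022D.R
open Vale.Agent.P027M.S (Inert mx)
open Vale.Agent.P022D.Sel (M2 Dh)
open Vale.Agent.P022D.Core (io y1)
open Vale.Agent.P022D.Loc (Pl)

variable {O F : Type} [CommRing O] [Field F] {S : Dat O F}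

theorem h10_of_dh {H : Subgroup GQ} (h : Dh S.rb H) : mx S.rb S.g1 1 0 ≠ 0 := by
  have h1 : S.g1 ∉ H := fun k => S.n01 (h.dg _ k).1
  have h2 : (mx S.rb S.g1).det ≠ 0 := ((Matrix.isUnit_iff_isUnit_det _).1 (S.rb S.g1).isUnit).ne_zero
  intro e
  rw [Matrix.det_fin_two, (h.ad _ h1).1, e, zero_mul, mul_zero, sub_zero] at h2
  exact h2 rfl

/-- `X` is the unframed object which belongs to `r` modulo `I` -/
structure PtO (r : GQ →* M2 O) (I : Ideal O) (X : Obj S (O ⧸ I)) : Prop where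
  ι : ∀ c, X.ι c = Ideal.Quotient.mk I c
  t : ∀ g, (X.ρ g).trace = Ideal.Quotient.mk I (r g).trace
  d : ∀ g, (X.ρ g).det = Ideal.Quotient.mk I (r g).det
  α : ∀ l, X.α l = 1
  one : ∀ u, r u = 1 → X.ρ u = 1

/-- the symbols of the point -/
def hkO (r : GQ →* M2 O) (lift : ∀ g, (r g).map S.red = mx S.rb g) {H : Subgroup GQ}
    (dh : Dh S.rb H) (lam : S.red S.lam = mx S.rb S.g1 0 1) (a : ℕ) : Hk S a O where
  ι := RingHom.id O
  π := S.red
  t g := (r g).trace
  d g := (r g).det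
  al _ := 1
  y _ := 0
  alg _ := rfl
  ht g := by rw [← lift g]; exact AddMonoidHom.map_trace S.red (r g)
  hd g := by rw [← lift g]; exact S.red.map_det _
  one _ := map_one' _
  off _ _ := rfl
  fr := rfl
  hy _ := map_zero _
  h10 := h10_of_dh dh
  lam := lam
  opn := dh.opn

theorem PtO.pi {r : GQ →* M2 O} {I : Ideal O} {X : Obj S (O ⧸ I)} (h : PtO r I X) (c : O) :
    X.π (Ideal.Quotient.mk I c) = S.red c := by rw [← h.ι, X.alg]

/-- the point gives a chart for every ring of symbols with an evaluation -/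
theorem PtO.ct {r : GQ →* M2 O} {I : Ideal O} {X : Obj S (O ⧸ I)} (h : PtO r I X) {a : ℕ}
    {B : Type} [CommRing B] (H : Hk S a B) (e : B →+* O) (h1 : ∀ c, e (H.ι c) = c)
    (h2 : ∀ g, e (H.t g) = (r g).trace) (h3 : ∀ g, e (H.d g) = (r g).det)
    (h4 : ∀ l, (H.al l).map e = 1) (h5 : ∀ b, S.red (e b) = H.π b) :
    Ct H X ((Ideal.Quotient.mk I).comp e) where
  ι c := by rw [RingHom.comp_apply, h1, h.ι]
  t g := by rw [RingHom.comp_apply, h2, h.t]
  d g := by rw [RingHom.comp_apply, h3, h.d]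
  al l := by
    rw [h.α, RingHom.coe_comp, ← Matrix.map_map, h4, map_one']
  π b := by rw [RingHom.comp_apply, h.pi, h5]

theorem PtO.unr {r : GQ →* M2 O} {I : Ideal O} {X : Obj S (O ⧸ I)} (h : PtO r I X)
    (hu : ∀ l : ℕ, l.Prime → l ∉ S.T → ∀ P : Ideal (𝓞 Qb), P.IsPrime → (l : 𝓞 Qb) ∈ P →
      ∀ s, Inert P s → r s = 1) (Q : Finset ℕ) : Unr X Q :=
  fun l a b _ P c d s e => h.one s (hu l a b P c d s e)

theorem PtO.hom {r : GQ →* M2 O} (lift : ∀ g, (r g).map S.red = mx S.rb g) {H : Subgroup GQ}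
    (dh : Dh S.rb H) (lam : S.red S.lam = mx S.rb S.g1 0 1) {I J : Ideal O} {X : Obj S (O ⧸ I)}
    {Y : Obj S (O ⧸ J)} (h : PtO r I X) (k : PtO r J Y) (e : I ≤ J) :
    Hom X Y (Ideal.Quotient.factor e) := by
  have a := h.ct (hkO r lift dh lam 0) (RingHom.id O) (fun _ => rfl) (fun _ => rfl) (fun _ => rfl)
    (fun _ => map_one' _) fun _ => rfl
  have b := k.ct (hkO r lift dh lam 0) (RingHom.id O) (fun _ => rfl) (fun _ => rfl) (fun _ => rfl)
    (fun _ => map_one' _) fun _ => rfl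
  refine a.hom b fun x => ?_
  obtain ⟨x, rfl⟩ := Ideal.Quotient.mk_surjective x
  exact (k.pi x).trans (h.pi x).symm

variable [IsLocalRing O]

theorem fin_quot [IsNoetherianRing O] [Finite F]
    (ker : ∀ c, S.red c = 0 ↔ c ∈ maximalIdeal O) (k : ℕ) : Finite (O ⧸ maximalIdeal O ^ k) := by
  have : Finite (O ⧸ maximalIdeal O) := by
    refine Finite.of_injective (Ideal.Quotient.lift _ S.red fun c hc => (ker c).2 hc)
      ((injective_iff_map_eq_zero _).2 fun a ha => ?_)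
    obtain ⟨a, rfl⟩ := Ideal.Quotient.mk_surjective a
    exact Ideal.Quotient.eq_zero_iff_mem.2 ((ker a).1 ha)
  exact Ideal.finite_quotient_pow (IsNoetherian.noetherian _) k

theorem exists_ptO [IsNoetherianRing O] [Finite F] (r : GQ →* M2 O)
    (ker : ∀ c, S.red c = 0 ↔ c ∈ maximalIdeal O) (lift : ∀ g, (r g).map S.red = mx S.rb g)
    {H : Subgroup GQ} (dh : Dh S.rb H) (lam : S.red S.lam = mx S.rb S.g1 0 1)
    (cont : ∀ k : ℕ, IsOpen {g : GQ | (r g).map (Ideal.Quotient.mk (maximalIdeal O ^ k)) = 1})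
    (k : ℕ) : ∃ X : Obj S (O ⧸ maximalIdeal O ^ (k + 1)), PtO r _ X := by
  have := fin_quot ker (k + 1)
  have hT : Tf (hkO r lift dh lam 0) (maximalIdeal O ^ (k + 1)) := by
    have := tf_of_rep (H := hkO r lift dh lam 0) (Ideal.Quotient.mk (maximalIdeal O ^ (k + 1)))
      ((Ideal.Quotient.mk (maximalIdeal O ^ (k + 1))).mapMatrix.toMonoidHom.comp r)
      (fun g => AddMonoidHom.map_trace (Ideal.Quotient.mk (maximalIdeal O ^ (k + 1))) (r g))
      (fun g => (Ideal.Quotient.mk (maximalIdeal O ^ (k + 1))).map_det _) (cont (k + 1))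
    rwa [Ideal.mk_ker] at this
  obtain ⟨X, a, b⟩ := exists_ct (H := hkO r lift dh lam 0) (maximalIdeal O ^ (k + 1))
    (fun c hc => (ker c).2 (Ideal.pow_le_self (Nat.succ_ne_zero k) hc))
    (fun b hb => (notMem_maximalIdeal.1 fun e => hb ((ker b).2 e)).map _) hT
  refine ⟨X, fun c => (a.ι c).symm, fun g => (a.t g).symm, fun g => (a.d g).symm,
    fun l => (a.al l).symm.trans (map_one' _), fun u hu => b u fun g => ?_⟩
  change (r (g * u)).trace - (r g).trace ∈ _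
  rw [map_mul, hu, mul_one, sub_self]
  exact Ideal.zero_mem _

theorem PtO.cnd {L : Pl O} (hL : L.Ok S) {I : Ideal O} {X : Obj S (O ⧸ I)} (h : PtO L.r I X) :
    L.Cl S _ X :=
  Loc.cnd_of_cls hL X (fun g _ => by rw [h.t, h.ι]) fun g _ => by rw [h.d, h.ι]

theorem eq_of_mk [IsHausdorff (maximalIdeal O) O] {a b : O}
    (h : ∀ k : ℕ, Ideal.Quotient.mk (maximalIdeal O ^ (k + 1)) a = Ideal.Quotient.mk _ b) :
    a = b := by
  refine sub_eq_zero.1 (IsHausdorff.haus' (I := maximalIdeal O) _ fun n => ?_)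
  rw [SModEq.zero, smul_eq_mul, Ideal.mul_top]
  exact Ideal.pow_le_pow_right (Nat.le_succ n) (Ideal.Quotient.eq.1 (h n))

/-- **the point** -/
theorem exists_x [IsAdicComplete (maximalIdeal O) O] {τ : Type} [Finite τ] {g : ℕ} {C : Cl S}
    {κ : Crd S τ} {Φ : Fam S τ g} (hU : Univ C κ Φ) (r : GQ →* M2 O)
    (ker : ∀ c, S.red c = 0 ↔ c ∈ maximalIdeal O) (lift : ∀ g, (r g).map S.red = mx S.rb g)
    {H : Subgroup GQ} (dh : Dh S.rb H) (lam : S.red S.lam = mx S.rb S.g1 0 1)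
    (X : ∀ k : ℕ, Obj S (O ⧸ maximalIdeal O ^ (k + 1))) (hX : ∀ k, PtO r _ (X k))
    (hC : ∀ k, C _ (X k)) (a : ℕ) :
    ∃ x : MvPowerSeries ((τ ⊕ Fin g) ⊕ Fin a) O →+* O,
      (∀ k f, Ideal.Quotient.mk _ (x f) = ext (Φ _ (X k)) (fun _ : Fin a => 0) f) ∧
      (∀ k f, Ideal.Quotient.mk _ (x (io O _ a f)) = Φ _ (X k) f) ∧
      (∀ o, x (MvPowerSeries.C o) = o) ∧ (∀ i, x (y1 O _ i) = 0) ∧
      (∀ f, S.red (x f) = S.red (MvPowerSeries.constantCoeff f)) ∧
      ∀ u, IsUnit (x u) → IsUnit u := by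
  have ct : ∀ k, Ct (hkO r lift dh lam a) (X k) ((Ideal.Quotient.mk _).comp (RingHom.id O)) :=
    fun k => (hX k).ct _ (RingHom.id O) (fun _ => rfl) (fun _ => rfl) (fun _ => rfl)
      (fun _ => map_one' _) fun _ => rfl
  let f : ∀ k : ℕ, MvPowerSeries ((τ ⊕ Fin g) ⊕ Fin a) O →+* O ⧸ maximalIdeal O ^ (k + 1) :=
    fun k => (hkO r lift dh lam a).ev Φ (X k) ((Ideal.Quotient.mk _).comp (RingHom.id O))
  have ha : StrictMono fun k : ℕ => k + 1 := strictMono_nat_of_lt_succ fun n => Nat.lt_succ_self _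
  have hf : ∀ {m : ℕ}, (Ideal.Quotient.factorPow (maximalIdeal O)
      (ha.monotone m.le_succ)).comp (f (m + 1)) = f m := fun {m} => RingHom.ext fun u =>
    ev_nat hU (hC (m + 1)) (ct (m + 1)) (hC m)
      ((hX (m + 1)).hom lift dh lam (hX m) (Ideal.pow_le_pow_right (Nat.le_succ _))) u
  let x := IsAdicComplete.StrictMono.liftRingHom (maximalIdeal O) ha f hf
  have hx : ∀ k u, Ideal.Quotient.mk _ (x u) = f k u := fun k u =>
    IsAdicComplete.StrictMono.mk_liftRingHom (maximalIdeal O) ha f hf u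
  have hr : ∀ u, S.red (x u) = S.red (MvPowerSeries.constantCoeff u) := fun u => by
    rw [← (hX 0).pi, hx]
    exact ev_res hU (hC 0) (ct 0) u
  refine ⟨x, fun k u => hx k u, fun k u => (hx k _).trans (ev_io hU (hC k) (ct k) u),
    fun o => eq_of_mk fun k => (hx k _).trans (ev_cst hU (hC k) (ct k) o),
    fun i => eq_of_mk fun k => (hx k _).trans (ev_y hU (hC k) (ct k) i), hr, fun u hu => ?_⟩
  rw [MvPowerSeries.isUnit_iff_constantCoeff, ← notMem_maximalIdeal, ← ker, ← hr, ker]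
  exact notMem_maximalIdeal.2 hu

/-- the frame entries which are free -/
theorem exists_eps (T : Finset ℕ) (l0 : ℕ) (h : l0 ∈ T) :
    ∃ (a : ℕ) (ε : Fin a → ℕ × Fin 2 × Fin 2), a + 1 = 4 * T.card ∧ Function.Injective ε ∧
      ∀ v, v ∈ Set.range ε ↔ v.1 ∈ T ∧ v ≠ (l0, 0, 0) := by
  classical
  let s : Finset (ℕ × Fin 2 × Fin 2) := (T ×ˢ Finset.univ).erase (l0, 0, 0)
  have hm : ((l0, 0, 0) : ℕ × Fin 2 × Fin 2) ∈ T ×ˢ (Finset.univ : Finset (Fin 2 × Fin 2)) :=
    Finset.mem_product.2 ⟨h, Finset.mem_univ _⟩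
  refine ⟨s.card, fun i => s.equivFin.symm i, ?_,
    Subtype.val_injective.comp s.equivFin.symm.injective, fun v => ?_⟩
  · rw [Finset.card_erase_add_one hm, Finset.card_product, mul_comm]
    rfl
  · have e : v ∈ s ↔ v.1 ∈ T ∧ v ≠ (l0, 0, 0) := by
      simp only [s, Finset.mem_erase, Finset.mem_product, Finset.mem_univ, and_true]
      exact and_comm
    rw [← e]
    exact ⟨by rintro ⟨i, rfl⟩; exact (s.equivFin.symm i).2,
      fun k => ⟨s.equivFin ⟨v, k⟩, by simp⟩⟩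

end Vale.Agent.P022D.As
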