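import Vale.Agent.P022D.As.Defs2
import Vale.Agent.P022D.As.Pt

/-!
# P022D, assembly: universal lifts of the symbols
-/

set_option linter.all false

noncomputable section

namespace Vale.Agent.P022D.As

open IsLocalRing NumberField
open Vale.Agent.P022 Vale.Agent.P022D.R
open Vale.Agent.P027M.S (Inert mx)
open Vale.Agent.P022D.Sel (M2 Dh)
open Vale.Agent.P022D.Core (io y1)

variable {O F : Type} [CommRing O] [Field F] {S : Dat O F}

/-- the values of the symbols on an object -/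
def tv {A : Type} [CommRing A] (X : Obj S A) : Tg O →+* A :=
  MvPolynomial.eval₂Hom X.ι
    (Sum.elim (fun g => (X.ρ g).trace) (Sum.elim (fun g => (X.ρ g).det) fun _ => 0))

section
variable {A : Type} [CommRing A] (X : Obj S A)

theorem tv_c (c : O) : tv X (cc c) = X.ι c := MvPolynomial.eval₂Hom_C _ _ c
theorem tv_t (g : GQ) : tv X (tt g) = (X.ρ g).trace := MvPolynomial.eval₂Hom_X' _ _ _
theorem tv_d (g : GQ) : tv X (dd g) = (X.ρ g).det := MvPolynomial.eval₂Hom_X' _ _ _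
theorem tv_y (i : ℕ) : tv X (yy i) = 0 := MvPolynomial.eval₂Hom_X' _ _ _

end

theorem ev0_c (r : GQ →* M2 O) (c : O) : ev0 r (cc c) = c := MvPolynomial.eval₂Hom_C _ _ c
theorem ev0_t (r : GQ →* M2 O) (g : GQ) : ev0 r (tt g) = (r g).trace :=
  MvPolynomial.eval₂Hom_X' _ _ _
theorem ev0_d (r : GQ →* M2 O) (g : GQ) : ev0 r (dd g) = (r g).det :=
  MvPolynomial.eval₂Hom_X' _ _ _
theorem ev0_y (r : GQ →* M2 O) (i : ℕ) : ev0 r (yy i) = 0 := MvPolynomial.eval₂Hom_X' _ _ _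

theorem tg_ext {A : Type} [CommRing A] {f g : Tg O →+* A} (hc : ∀ c, f (cc c) = g (cc c))
    (ht : ∀ s, f (tt s) = g (tt s)) (hd : ∀ s, f (dd s) = g (dd s))
    (hy : ∀ i, f (yy i) = g (yy i)) : f = g :=
  MvPolynomial.ringHom_ext hc fun v => by
    rcases v with s | s | i
    exacts [ht s, hd s, hy i]

theorem PtO.tv {r : GQ →* M2 O} {I : Ideal O} {X : Obj S (O ⧸ I)} (h : PtO r I X) (p : Tg O) :
    tv X p = Ideal.Quotient.mk I (ev0 r p) :=
  congrArg (fun f : Tg O →+* O ⧸ I => f p) (tg_ext (f := As.tv X)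
    (g := (Ideal.Quotient.mk I).comp (ev0 r))
    (fun c => by rw [tv_c, RingHom.comp_apply, ev0_c, h.ι])
    (fun s => by rw [tv_t, RingHom.comp_apply, ev0_t, h.t])
    (fun s => by rw [tv_d, RingHom.comp_apply, ev0_d, h.d])
    fun i => by rw [tv_y, RingHom.comp_apply, ev0_y, map_zero])

variable {τ : Type} {g : ℕ} {C : Cl S} {κ : Crd S τ} {Φ : Fam S τ g}

theorem exists_mu (hU : Univ C κ Φ) : ∃ μ : Tg O →+* PS O τ g,
    (∀ c, μ (cc c) = MvPowerSeries.C c) ∧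
    ∀ (A : Type) [CommRing A] (X : Obj S A), C A X → ∀ p, Φ A X (μ p) = tv X p := by
  let e : GQ → Fin 2 → Fin 2 → W O := fun s i j => MvPolynomial.X (Sum.inl s, i, j)
  choose ft ht using fun s => hU.gen (e s 0 0 + e s 1 1)
  choose fd hd using fun s => hU.gen (e s 0 0 * e s 1 1 - e s 0 1 * e s 1 0)
  let μ : Tg O →+* PS O τ g :=
    MvPolynomial.eval₂Hom MvPowerSeries.C (Sum.elim ft (Sum.elim fd fun _ => 0))
  have m1 : ∀ c, μ (cc c) = MvPowerSeries.C c := fun c => MvPolynomial.eval₂Hom_C _ _ c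
  have m2 : ∀ s, μ (tt s) = ft s := fun s => MvPolynomial.eval₂Hom_X' _ _ _
  have m3 : ∀ s, μ (dd s) = fd s := fun s => MvPolynomial.eval₂Hom_X' _ _ _
  have m4 : ∀ s, μ (yy s) = 0 := fun s => MvPolynomial.eval₂Hom_X' _ _ _
  refine ⟨μ, m1, fun A _ X c p => congrArg (fun f : Tg O →+* A => f p)
    (tg_ext (f := (Φ A X).comp μ) (g := tv X) (fun o => ?_) (fun s => ?_) (fun s => ?_)
      fun i => ?_)⟩
  · rw [RingHom.comp_apply, m1, hU.cst A X c, tv_c]
  · rw [RingHom.comp_apply, m2, ht s A X c, tv_t, map_add, ev_X, ev_X, Matrix.trace_fin_two]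
    rfl
  · rw [RingHom.comp_apply, m3, hd s A X c, tv_d, map_sub, map_mul, map_mul, ev_X, ev_X, ev_X,
      ev_X, Matrix.det_fin_two]
    rfl
  · rw [RingHom.comp_apply, m4, map_zero, tv_y]

theorem exists_w (hU : Univ C κ Φ) {a : ℕ} (ε : Fin a → ℕ × Fin 2 × Fin 2) :
    ∃ w : Fin a → PS O τ g, ∀ (A : Type) [CommRing A] (X : Obj S A), C A X →
      ∀ j, Φ A X (w j) = (X.α (ε j).1 - 1) (ε j).2.1 (ε j).2.2 := by
  choose w hw using fun j => hU.gen (MvPolynomial.X (Sum.inr (Sum.inl (ε j).1), (ε j).2.1,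
    (ε j).2.2) - (1 : M2 (W O)) (ε j).2.1 (ε j).2.2)
  refine ⟨w, fun A _ X c j => ?_⟩
  rw [hw j A X c, map_sub, ev_X, Matrix.sub_apply, ← map_one' X.ev]
  rfl

theorem exists_y2 [IsLocalRing O] {σ : Type} {r : ℕ} (u : Core.PS O (σ ⊕ Fin r)) (i : Fin r) :
    ∃ y, (1 + y1 O σ i) * (2 + y) = u := by
  have h : IsUnit (1 + y1 O σ i) := by
    rw [MvPowerSeries.isUnit_iff_constantCoeff, map_add, map_one, y1,
      MvPowerSeries.constantCoeff_X, add_zero]
    exact isUnit_one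
  obtain ⟨v, hv⟩ := h.exists_right_inv
  exact ⟨v * u - 2, by linear_combination u * hv⟩

end Vale.Agent.P022D.As
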