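import Vale.Agent.P022D.As.Chart

/-!
# P022D, assembly: modules with a pseudo-character, and modules with frames
-/

set_option linter.all false

noncomputable section

namespace Vale.Agent.P022D.As

open Vale.Agent.P022 Vale.Agent.P022.C Vale.Agent.P022D.R
open Vale.Agent.P027M.S (Inert mx)
open Vale.Agent.P022D.Sel (M2)
open Ideal (torsionOf mem_torsionOf_iff)

variable {O F : Type} [CommRing O] [Field F] {S : Dat O F} {r : ℕ}

section gv

variable {B : Type} [CommRing B] (H : Hk S r B) (V : Type) [AddCommGroup V] [Module B V]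

/-- a module on which the symbols form a continuous pseudo-character -/
structure Gv : Prop where
  fin : ∀ w : V, (Set.range fun b : B => b • w).Finite
  nil : ∀ (w : V) b, H.π b = 0 → b ∈ (torsionOf B V w).radical
  tf : ∀ w : V, Tf H (torsionOf B V w)

variable {H V}

theorem Hk.surj (H : Hk S r B) : Function.Surjective H.π := fun a => by
  obtain ⟨c, rfl⟩ := S.surj a
  exact ⟨_, H.alg c⟩

theorem Gv.unit (h : Gv H V) (w : V) (b : B) (hb : H.π b ≠ 0) :
    IsUnit (Ideal.Quotient.mk (torsionOf B V w) b) := by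
  obtain ⟨c, hc⟩ := H.surj (H.π b)⁻¹
  obtain ⟨k, hk⟩ := h.nil w (b * c - 1) (by
    rw [map_sub, map_mul, hc, mul_inv_cancel₀ hb, map_one, sub_self])
  have h1 : IsNilpotent (Ideal.Quotient.mk (torsionOf B V w) (b * c - 1)) :=
    ⟨k, by rw [← map_pow]; exact Ideal.Quotient.eq_zero_iff_mem.2 hk⟩
  have h2 := h1.isUnit_add_one
  rw [map_sub, map_one, sub_add_cancel, map_mul] at h2
  exact isUnit_of_mul_isUnit_left h2

/-- the object of a non zero element -/
theorem Gv.ct (h : Gv H V) {w : V} (hw : w ≠ 0) :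
    ∃ X : Obj S (B ⧸ torsionOf B V w), Ct H X (Ideal.Quotient.mk _) ∧
      ∀ u, (∀ g, H.t (g * u) • w = H.t g • w) → X.ρ u = 1 := by
  have : Finite (B ⧸ torsionOf B V w) := by
    have := (h.fin w).to_subtype
    refine Finite.of_injective (β := Set.range fun b : B => b • w)
      (fun x => ⟨x.out • w, _, rfl⟩) fun x y e => ?_
    rw [← Ideal.Quotient.mk_out x, ← Ideal.Quotient.mk_out y, Ideal.Quotient.eq,
      mem_torsionOf_iff, sub_smul, sub_eq_zero]
    exact congrArg Subtype.val e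
  obtain ⟨X, a, b⟩ := exists_ct (H := H) (torsionOf B V w) (fun b hb => by
    by_contra k
    have := h.unit w b k
    rw [Ideal.Quotient.eq_zero_iff_mem.2 hb, isUnit_zero_iff, eq_comm, ← map_one
      (Ideal.Quotient.mk _), Ideal.Quotient.eq_zero_iff_mem, mem_torsionOf_iff, one_smul] at this
    exact hw this) (h.unit w) (h.tf w)
  exact ⟨X, a, fun u k => b u fun g => by rw [mem_torsionOf_iff, sub_smul, k, sub_self]⟩

variable {τ : Type} [Finite τ] {g : ℕ} {C : Cl S} {κ : Crd S τ} {Φ : Fam S τ g}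

/-- the residual chart -/
theorem G_ne (H : Hk S r B) (Φ : Fam S τ g) (hC : Closed C) {A : Type} [CommRing A] {X : Obj S A}
    (c : C A X) : (H.G C Φ).Nonempty := by
  let Y := X.map X.π (RingHom.id F) X.finF (fun b hb => IsUnit.mk0 b hb) fun _ => rfl
  have e : ∀ g, Y.ρ g = mx S.rb g := X.res
  exact ⟨_, F, _, Y, H.π, hC.push _ _ X Y _ (hom_map ..) c, ⟨fun c => (H.alg c).trans (X.alg c).symm,
    fun g => by rw [e, H.ht], fun g => by rw [e, H.hd], fun l => (H.one l).trans (X.one l).symm,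
    fun _ => rfl⟩, H.surj, rfl⟩

variable (H V) in
/-- the objects of the elements belong to the class `C` -/
def In (C : Cl S) : Prop := ∀ w : V, ∀ X : Obj S (B ⧸ torsionOf B V w),
  Ct H X (Ideal.Quotient.mk _) → (∀ u, (∀ g, H.t (g * u) • w = H.t g • w) → X.ρ u = 1) → C _ X

theorem Gv.ad (h : Gv H V) (hi : In H V C) (hne : (H.G C Φ).Nonempty) (w : V) :
    ∃ Γ ∈ H.G C Φ, Ad Γ w := by
  by_cases hw : w = 0
  · exact ⟨_, hne.choose_spec, fun t _ => by rw [hw, smul_zero]⟩
  · obtain ⟨X, a, b⟩ := h.ct hw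
    refine ⟨_, ⟨_, _, X, _, hi w X a b, a, Ideal.Quotient.mk_surjective, rfl⟩, fun t ht => ?_⟩
    rw [mem_gr, map_zero, eq_comm, Ideal.Quotient.eq_zero_iff_mem] at ht
    exact ht

/-- the action on one element is computed in its own object -/
theorem Gv.own [Module (MvPowerSeries ((τ ⊕ Fin g) ⊕ Fin r) O) V] (h : Gv H V) (hi : In H V C)
    (hG : Dir (H.G C Φ)) (hc : Cmp (H.G C Φ) V) {w : V} (hw : w ≠ 0) :
    ∃ X : Obj S (B ⧸ torsionOf B V w), C _ X ∧ Ct H X (Ideal.Quotient.mk _) ∧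
      (∀ u, (∀ g, H.t (g * u) • w = H.t g • w) → X.ρ u = 1) ∧
      ∀ f t, H.ev Φ X (Ideal.Quotient.mk _) f = Ideal.Quotient.mk _ t → f • w = t • w := by
  obtain ⟨X, a, b⟩ := h.ct hw
  refine ⟨X, hi w X a b, a, b, fun f t e => hc.eq hG
    ⟨_, _, X, _, hi w X a b, a, Ideal.Quotient.mk_surjective, rfl⟩ (fun t ht => ?_) e⟩
  rw [mem_gr, map_zero, eq_comm, Ideal.Quotient.eq_zero_iff_mem] at ht
  exact ht

end gv

section norm

theorem pow_two_pow {R : Type} [CommRing R] (h : (2 : R) = 0) (x : R) (n : ℕ) :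
    (x - 1) ^ 2 ^ n = x ^ 2 ^ n - 1 := by
  induction n with
  | zero => simp
  | succ n ih =>
    rw [pow_succ, pow_mul, pow_mul, ih]
    linear_combination (1 - x ^ 2 ^ n) * h

theorem pow_geom {R : Type} [CommRing R] (h : (2 : R) = 0) (x : R) (n : ℕ) :
    (x - 1) ^ (2 ^ n - 1) = ∑ k ∈ Finset.range (2 ^ n), x ^ k := by
  induction n with
  | zero => simp
  | succ n ih =>
    have e : 2 ^ (n + 1) - 1 = 2 ^ n - 1 + 2 ^ n := by
      have := Nat.one_le_two_pow (n := n)
      omega
    rw [e, pow_add, ih, pow_two_pow h, pow_succ, mul_two, Finset.sum_range_add]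
    simp only [pow_add, ← Finset.mul_sum]
    linear_combination (-∑ k ∈ Finset.range (2 ^ n), x ^ k) * h

/-- groups of exponent `2 ^ n` with a basis -/
abbrev Gp (ι : Type) (n : ℕ) : Type := Multiplicative (ι → ZMod (2 ^ n))

open Classical in
/-- the basis -/
def ge {ι : Type} (n : ℕ) (i : ι) : Gp ι n := Multiplicative.ofAdd (Pi.single i 1)

theorem gp_pow {ι : Type} {n : ℕ} (γ : Gp ι n) : γ ^ 2 ^ n = 1 := by
  apply Multiplicative.toAdd.injective
  funext i
  rw [toAdd_pow, Pi.smul_apply, nsmul_eq_mul, ZMod.natCast_self, zero_mul]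
  rfl

theorem gp_prod {ι : Type} [Fintype ι] {n : ℕ} (γ : Gp ι n) :
    ∏ i, ge n i ^ (γ.toAdd i).val = γ := by
  classical
  apply Multiplicative.toAdd.injective
  funext j
  rw [toAdd_prod, Finset.sum_apply, Finset.sum_eq_single j]
  · simp [ge]
  · intro i _ h
    simp [ge, Pi.single_eq_of_ne h.symm]
  · simp

theorem norm_eq {ι R : Type} [Fintype ι] [DecidableEq ι] [CommRing R] (h : (2 : R) = 0) {n : ℕ}
    (θ : Gp ι n →* R) : ∏ i, (θ (ge n i) - 1) ^ (2 ^ n - 1) = ∑ γ, θ γ := by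
  have e : ∀ x : R, ∑ k ∈ Finset.range (2 ^ n), x ^ k = ∑ c : ZMod (2 ^ n), x ^ c.val := fun x => by
    refine (Finset.sum_bij (fun c _ => c.val) (fun c _ => Finset.mem_range.2 (ZMod.val_lt c))
      (fun a _ b _ e => ZMod.val_injective _ e) (fun k hk => ⟨k, Finset.mem_univ _,
        ZMod.val_cast_of_lt (Finset.mem_range.1 hk)⟩) fun _ _ => rfl).symm
  simp only [pow_geom h, e]
  rw [Finset.prod_univ_sum, Fintype.piFinset_univ]
  refine Fintype.sum_equiv Multiplicative.ofAdd _ _ fun c => ?_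
  rw [← gp_prod (Multiplicative.ofAdd c), map_prod]
  simp only [map_pow, toAdd_ofAdd]

theorem fix_all {ι R V : Type} [Fintype ι] [CommRing R] [AddCommGroup V] [Module R V] {n : ℕ}
    (θ : Gp ι n →* R) {w : V} (h : ∀ i, θ (ge n i) • w = w) (γ : Gp ι n) : θ γ • w = w := by
  classical
  rw [← gp_prod γ, map_prod]
  refine Finset.prod_induction _ (fun x : R => x • w = w)
    (fun a b ha hb => by rw [mul_smul, hb, ha]) (one_smul _ _) fun i _ => ?_
  rw [map_pow]
  induction (γ.toAdd i).val with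
  | zero => rw [pow_zero, one_smul]
  | succ k ih => rw [pow_succ, mul_smul, h, ih]

end norm

section box

variable {T Δ Z Y Y' : Type} [CommRing T] [CommGroup Δ] [CommGroup Z] [AddCommGroup Y]
  [Module T Y] [AddCommGroup Y'] [Module T Y']

/-- the group ring -/
abbrev GR (T Δ Z : Type) [CommRing T] : Type := MonoidAlgebra T (Δ × Z)

/-- functions on the group of frames -/
def Box (Z : Type) (_δ : Δ →* Module.End T Y) : Type := Z → Y

instance (δ : Δ →* Module.End T Y) : AddCommGroup (Box Z δ) := inferInstanceAs (AddCommGroup (Z → Y))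

/-- the action of the group -/
def bact (Z : Type) [CommGroup Z] (δ : Δ →* Module.End T Y) : Δ × Z →* Module.End T (Z → Y) where
  toFun γ :=
    { toFun := fun w z => δ γ.1 (w (z * γ.2))
      map_add' := fun v w => funext fun z => (δ γ.1).map_add _ _
      map_smul' := fun c w => funext fun z => (δ γ.1).map_smul _ _ }
  map_one' := LinearMap.ext fun w => funext fun z => by
    change δ 1 (w (z * 1)) = w z
    rw [map_one, mul_one]
    rfl
  map_mul' a b := LinearMap.ext fun w => funext fun z => by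
    change δ (a.1 * b.1) (w (z * (a.2 * b.2))) = δ a.1 (δ b.1 (w (z * a.2 * b.2)))
    rw [map_mul, mul_assoc]
    rfl

instance (δ : Δ →* Module.End T Y) : Module (GR T Δ Z) (Box Z δ) :=
  Module.compHom (Z → Y) (MonoidAlgebra.lift T (Module.End T (Z → Y)) (Δ × Z) (bact Z δ)).toRingHom

/-- the constants -/
abbrev inc (T Δ Z : Type) [CommRing T] [CommGroup Δ] [CommGroup Z] : T →+* GR T Δ Z :=
  algebraMap T (GR T Δ Z)

/-- the group elements -/
abbrev og (T : Type) [CommRing T] : Δ × Z →* GR T Δ Z := MonoidAlgebra.of T (Δ × Z)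

/-- the augmentation -/
def aug (T Δ Z : Type) [CommRing T] [CommGroup Δ] [CommGroup Z] : GR T Δ Z →+* T :=
  (MonoidAlgebra.lift T T (Δ × Z) 1).toRingHom

theorem aug_inc (c : T) : aug T Δ Z (inc T Δ Z c) = c :=
  (MonoidAlgebra.lift T T (Δ × Z) 1).commutes c

theorem aug_og (γ : Δ × Z) : aug T Δ Z (og T γ) = 1 := MonoidAlgebra.lift_of _ γ

variable {δ : Δ →* Module.End T Y} {δ' : Δ →* Module.End T Y'}

theorem inc_smul (c : T) (w : Box Z δ) (z : Z) : (inc T Δ Z c • w) z = c • w z :=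
  congrFun (LinearMap.congr_fun
    ((MonoidAlgebra.lift T (Module.End T (Z → Y)) (Δ × Z) (bact Z δ)).commutes c) w) z

theorem og_smul (γ : Δ × Z) (w : Box Z δ) (z : Z) : (og T γ • w) z = δ γ.1 (w (z * γ.2)) :=
  congrFun (LinearMap.congr_fun (MonoidAlgebra.lift_of (R := T) (bact Z δ) γ) w) z

theorem box_add (v w : Box Z δ) (z : Z) : (v + w) z = v z + w z := rfl

theorem box_sum {ι : Type} (s : Finset ι) (v : ι → Box Z δ) (z : Z) :
    (∑ i ∈ s, v i) z = ∑ i ∈ s, v i z := Finset.sum_apply z s v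

theorem gr_ind {p : GR T Δ Z → Prop} (h1 : ∀ c γ, p (inc T Δ Z c * og T γ))
    (h2 : ∀ a b, p a → p b → p (a + b)) (b : GR T Δ Z) : p b := by
  induction b using MonoidAlgebra.induction_linear with
  | zero => simpa using h1 0 1
  | add a b ha hb => exact h2 a b ha hb
  | single γ c =>
    rw [MonoidAlgebra.single_eq_algebraMap_mul_of]
    exact h1 c γ

theorem gr_sum [Fintype Δ] [Fintype Z] (b : GR T Δ Z) :
    ∃ c : Δ × Z → T, b = ∑ γ, inc T Δ Z (c γ) * og T γ := by
  classical
  induction b using gr_ind with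
  | h1 c γ =>
    refine ⟨Pi.single γ c, ?_⟩
    rw [Finset.sum_eq_single γ, Pi.single_eq_same]
    · intro b _ h
      rw [Pi.single_eq_of_ne h, map_zero, zero_mul]
    · simp
  | h2 a b ha hb =>
    obtain ⟨c, rfl⟩ := ha
    obtain ⟨c', rfl⟩ := hb
    exact ⟨c + c', by simp only [Pi.add_apply, map_add, add_mul, Finset.sum_add_distrib]⟩

/-- an additive map which commutes with constants and group elements is linear -/
def mkLin {V V' : Type} [AddCommGroup V] [Module (GR T Δ Z) V] [AddCommGroup V']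
    [Module (GR T Δ Z) V'] (φ : V →+ V')
    (h1 : ∀ c v, φ (inc T Δ Z c • v) = inc T Δ Z c • φ v)
    (h2 : ∀ γ v, φ (og T γ • v) = (og T γ : GR T Δ Z) • φ v) : V →ₗ[GR T Δ Z] V' where
  toFun := φ
  map_add' := φ.map_add
  map_smul' b v := by
    induction b using gr_ind with
    | h1 c γ => rw [RingHom.id_apply, mul_smul, mul_smul, h1, h2]
    | h2 a b ha hb =>
      rw [RingHom.id_apply] at *
      rw [add_smul, add_smul, map_add, ha, hb]

variable (Z) in
/-- functoriality -/
def bmap (φ : Y →ₗ[T] Y') (h : ∀ d y, φ (δ d y) = δ' d (φ y)) : Box Z δ →ₗ[GR T Δ Z] Box Z δ' :=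
  mkLin ⟨⟨fun w z => φ (w z), funext fun _ => φ.map_zero⟩, fun _ _ => funext fun _ => φ.map_add _ _⟩
    (fun c v => funext fun z => by
      change φ ((inc T Δ Z c • v) z) = _
      rw [inc_smul, inc_smul, φ.map_smul]
      rfl)
    fun γ v => funext fun z => by
      change φ ((og T γ • v) z) = _
      rw [og_smul, og_smul, h]
      rfl

theorem bmap_apply (φ : Y →ₗ[T] Y') (h : ∀ d y, φ (δ d y) = δ' d (φ y)) (w : Box Z δ) (z : Z) :
    bmap Z φ h w z = φ (w z) := rfl

/-- a module on which the group acts trivially -/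
def Triv (Δ Z : Type) (T Y : Type) : Type := Y

instance : AddCommGroup (Triv Δ Z T Y) := inferInstanceAs (AddCommGroup Y)

instance : Module (GR T Δ Z) (Triv Δ Z T Y) := Module.compHom Y (aug T Δ Z)

theorem triv_smul (b : GR T Δ Z) (y : Triv Δ Z T Y) :
    b • y = (aug T Δ Z b • (show Y from y) : Y) := rfl

variable (Z) in
/-- constant functions with fixed values -/
def bconst (φ : Y' →ₗ[T] Y) (h : ∀ d y, δ d (φ y) = φ y) : Triv Δ Z T Y' →ₗ[GR T Δ Z] Box Z δ :=
  mkLin ⟨⟨fun y _ => φ y, funext fun _ => φ.map_zero⟩, fun _ _ => funext fun _ => φ.map_add _ _⟩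
    (fun c v => funext fun z => by
      rw [inc_smul, triv_smul, aug_inc]
      exact φ.map_smul _ _)
    fun γ v => funext fun z => by
      rw [og_smul, triv_smul, aug_og, one_smul]
      exact (h _ _).symm

theorem bconst_apply (φ : Y' →ₗ[T] Y) (h : ∀ d y, δ d (φ y) = φ y) (y : Triv Δ Z T Y') (z : Z) :
    bconst Z φ h y z = φ y := rfl

theorem fix_const {w : Box Z δ} (h : ∀ γ : Δ × Z, og T γ • w = w) :
    (∀ z, w z = w 1) ∧ ∀ d, δ d (w 1) = w 1 := by
  refine ⟨fun z => ?_, fun d => ?_⟩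
  · have := congrFun (h (1, z)) 1
    rwa [og_smul, map_one, one_mul] at this
  · have := congrFun (h (d, 1)) 1
    rwa [og_smul, one_mul] at this

theorem fix_smul {w : Box Z δ} (h : ∀ γ : Δ × Z, og T γ • w = w) (b : GR T Δ Z) :
    b • w = inc T Δ Z (aug T Δ Z b) • w := by
  induction b using gr_ind with
  | h1 c γ => rw [mul_smul, h, map_mul, aug_inc, aug_og, mul_one]
  | h2 a b ha hb => rw [add_smul, map_add, map_add, add_smul, ← ha, ← hb]

theorem norm_single [Fintype Δ] [Fintype Z] [DecidableEq Z] (c : Y) (z : Z) :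
    ((∑ γ : Δ × Z, og T γ : GR T Δ Z) • (show Box Z δ from Pi.single 1 c)) z = ∑ d, δ d c := by
  rw [Finset.sum_smul, box_sum, Fintype.sum_prod_type]
  refine Finset.sum_congr rfl fun d _ => ?_
  rw [Finset.sum_eq_single z⁻¹, og_smul, mul_inv_cancel]
  · exact congrArg (δ d) (Pi.single_eq_same _ _)
  · intro b _ h
    rw [og_smul]
    refine (congrArg (δ d) (Pi.single_eq_of_ne ?_ _)).trans (map_zero _)
    exact fun e => h (eq_inv_of_mul_eq_one_right e)
  · simp

end box

end Vale.Agent.P022D.As
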