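import Vale.Agent.P022D.As.Lift

/-!
# P022D, assembly: the data of the patching argument and the conditions on the point
-/

set_option linter.all false

noncomputable section

namespace Vale.Agent.P022D.As

open IsLocalRing NumberField
open Vale.Agent.P022 Vale.Agent.P022D.R
open Vale.Agent.P027M.S (Inert mx)
open Vale.Agent.P022D.Sel (M2 Dh)
open Vale.Agent.P022D.Core (io y1 Coef)
open Vale.Agent.P022D.Loc (Pl Ix Kil)

variable {O F : Type} [CommRing O] [Field F] {S : Dat O F}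

/-- the data of `As.END` -/
def cdOf (ϖ : O) {σ β Γ : Type} [Fintype Γ] {τ ι : β → Type} (D : Rl.Dat O σ β Γ τ ι) {r a : ℕ}
    (x : Core.PS O (σ ⊕ Fin r) →+* O) (c : ℕ) (μ : ℕ → Tg O →+* Core.PS O σ)
    (w : ℕ → Fin a → Core.PS O σ) (y2 : ℕ → Fin r → Core.PS O (σ ⊕ Fin r))
    (q : ℕ → Fin r → ℕ) (τq φq : ℕ → Fin r → GQ) (W0 : Type) [AddCommGroup W0]
    [Module (Core.PS O (σ ⊕ Fin r)) W0] :
    CD O σ ((Σ b, ι b) ⊕ (Γ × Fin 2 × Fin 2) ⊕ Γ) Γ (Core.PS O σ) r a where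
  f := D.fam
  τl := D.tl
  Dl l := (D.Φ l).trace
  m := D.mm
  x := x
  xv t := x (io O σ r t)
  kill j t := ∀ v : W0, (MvPowerSeries.C ϖ : Core.PS O (σ ⊕ Fin r)) ^ j • v = 0 →
    io O σ r t • v = 0
  c := c
  y2 := y2
  w := w
  tq n i := μ n (tt (τq n i))
  dq n i := μ n (dd (τq n i))
  D n := μ n (Dq (q n) (φq n))

section point

variable [IsLocalRing O] [IsHausdorff (maximalIdeal O) O] {r0 : GQ →* M2 O}
  {X : ∀ k : ℕ, Obj S (O ⧸ maximalIdeal O ^ (k + 1))} (hX : ∀ k, PtO r0 _ (X k))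
  {P : Type} [CommRing P] {x : P →+* O} {ψ : ∀ k, P →+* O ⧸ maximalIdeal O ^ (k + 1)}
  (hx : ∀ k f, Ideal.Quotient.mk _ (x f) = ψ k f)
include hx

theorem pt_zero {f : P} (h : ∀ k, ψ k f = 0) : x f = 0 :=
  eq_of_mk fun k => by rw [hx, h, map_zero]

include hX in
theorem pt_tv {f : P} {p : Tg O} (h : ∀ k, ψ k f = tv (X k) p) : x f = ev0 r0 p :=
  eq_of_mk fun k => by rw [hx, h, (hX k).tv]

end point

theorem cd_pt [IsLocalRing O] [IsHausdorff (maximalIdeal O) O] {ϖ : O} {σ β Γ : Type} [Fintype Γ]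
    {τ ι : β → Type} (D : Rl.Dat O σ β Γ τ ι) {r a : ℕ} {x : Core.PS O (σ ⊕ Fin r) →+* O} (c : ℕ)
    {μ : ℕ → Tg O →+* Core.PS O σ} {w : ℕ → Fin a → Core.PS O σ}
    {y2 : ℕ → Fin r → Core.PS O (σ ⊕ Fin r)} {q : ℕ → Fin r → ℕ} {τq φq : ℕ → Fin r → GQ}
    (W0 : Type) [AddCommGroup W0] [Module (Core.PS O (σ ⊕ Fin r)) W0] {r0 : GQ →* M2 O}
    (h1 : ∀ o, x (MvPowerSeries.C o) = o) (h2 : ∀ i, x (y1 O σ i) = 0)
    (h3 : ∀ u, IsUnit (x u) → IsUnit u) (hμ : ∀ n p, x (io O σ r (μ n p)) = ev0 r0 p)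
    (hw : ∀ n j, x (io O σ r (w n j)) = 0)
    (hy : ∀ n i, (1 + y1 O σ i) * (2 + y2 n i) = io O σ r (μ n (tt (τq n i))))
    (hτ : ∀ n i, r0 (τq n i) = 1) (hD : ∃ v : ℕ, ∀ n, ¬ ϖ ^ v ∣ ev0 r0 (Dq (q n) (φq n))) :
    (cdOf ϖ D x c μ w y2 q τq φq W0).Pt ϖ := by
  have t : ∀ n i, x (io O σ r (μ n (tt (τq n i)))) = 2 := fun n i => by
    rw [hμ, ev0_t, hτ, Matrix.trace_one, Fintype.card_fin, Nat.cast_ofNat]
  refine ⟨h1, h3, fun n s => ?_, t, fun n i => ?_, hD.imp fun v h n => ?_⟩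
  · rcases s with i | i | j
    · exact h2 i
    · have := congrArg x (hy n i)
      rw [t, map_mul, map_add, map_add, h2, map_one, map_ofNat] at this
      change x (y2 n i) = 0
      linear_combination this
    · exact hw n j
  · change x (io O σ r (μ n (dd (τq n i)))) = 1
    rw [hμ, ev0_d, hτ, Matrix.det_one]
  · change ¬ ϖ ^ v ∣ x (io O σ r (μ n _))
    rw [hμ]
    exact h n

theorem mul2_eq {σ β Γ : Type} [Fintype Γ] {τ ι : β → Type} (D : Rl.Dat O σ β Γ τ ι)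
    (J : Finset Γ) : mul2 D.a D.a' J = D.mm J := rfl

theorem unit_tl [IsLocalRing O] {σ β Γ : Type} {τ ι : β → Type} (D : Rl.Dat O σ β Γ τ ι) (γ : Γ)
    (h : IsUnit (D.n γ)) : ∃ u ∈ D.tl γ, IsUnit u := by
  refine ⟨_, ⟨(0, 1), rfl⟩, ?_⟩
  rw [MvPowerSeries.isUnit_iff_constantCoeff]
  simpa [Rl.Dat.T, Rl.mT] using h

theorem card_eq {β : Type} {τ ι : β → Type} [Fintype β] [∀ b, Fintype (τ b)] [∀ b, Fintype (ι b)]
    (L : Pl O) {r a t : ℕ} (h : a + 1 = 4 * t)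
    (k : Fintype.card (Σ b, τ b) + 4 * L.C.card = Fintype.card (Σ b, ι b) + 4 * t) :
    2 * r + a + 2 + Fintype.card (Σ b, ι b) + 4 * Fintype.card L.C =
      Fintype.card (Ix τ L ⊕ Fin (2 * r + 1)) := by
  rw [Fintype.card_sum, Fintype.card_sum, Fintype.card_prod, Fintype.card_fin, Fintype.card_fin,
    Fintype.card_coe]
  omega

end Vale.Agent.P022D.As
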