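import Vale.Agent.P022D.R.Univ
import Vale.Agent.P022D.As.Act
import Vale.Agent.P022D.Gma.Rep
import Vale.Agent.P022D.NR.Ev
import Vale.Agent.P022D.Core.Defs

/-!
# P022D, assembly: test objects attached to modules over rings of traces
-/

set_option linter.all false

noncomputable section

namespace Vale.Agent.P022D.As

open Vale.Agent.P022 Vale.Agent.P022.C Vale.Agent.P022D.R
open Vale.Agent.P027M.S (Inert mx)
open Vale.Agent.P022D.Sel (M2)
open Vale.Agent.P022D.Core (io y1)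

variable {O F : Type} [CommRing O] [Field F] {S : Dat O F}

theorem diag_eq {A : Type} [CommRing A] {M : M2 A} (h : M 0 1 = 0) (h' : M 1 0 = 0) :
    M = !![M 0 0, 0; 0, M 1 1] := by
  ext i j
  fin_cases i <;> fin_cases j
  exacts [rfl, h, h', rfl]

/-- the object given by a pseudo-character and frames -/
theorem exists_obj (h10 : mx S.rb S.g1 1 0 ≠ 0) (hlam : S.red S.lam = mx S.rb S.g1 0 1)
    {A : Type} [CommRing A] [Finite A] (ι : O →+* A) (π : A →+* F)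
    (loc : ∀ a, π a ≠ 0 → IsUnit a) (alg : ∀ c, π (ι c) = S.red c) (t d : GQ → A)
    (t1 : t 1 = 2) (tc : ∀ g h, t (g * h) = t (h * g))
    (tm : ∀ g h, t g * t h = t (g * h) + d h * t (g * h⁻¹)) (d1 : d 1 = 1)
    (dm : ∀ g h, d (g * h) = d g * d h) (ht : ∀ g, π (t g) = (mx S.rb g).trace)
    (hd : ∀ g, π (d g) = (mx S.rb g).det) (al : ℕ → M2 A) (one : ∀ l, (al l).map π = 1)
    (off : ∀ l ∉ S.T, al l = 1) (fr : al S.l0 0 0 = 1) (U : Subgroup GQ)
    (hU : IsOpen (U : Set GQ)) (hu : ∀ u ∈ U, ∀ g, t (g * u) = t g) :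
    ∃ X : Obj S A, X.ι = ι ∧ X.π = π ∧ (∀ g, (X.ρ g).trace = t g) ∧ (∀ g, (X.ρ g).det = d g) ∧
      X.α = al ∧ ∀ u, (∀ g, t (g * u) = t g) → X.ρ u = 1 := by
  obtain ⟨n, hn⟩ := ker_nil π loc
  have := Gma.henselian_of_pow hn
  let d' : GQ →* A := ⟨⟨d, d1⟩, dm⟩
  obtain ⟨ρ, α, β, _, _, _, a1, a2, a3, a4, a5, -, -, -, -, -, -, a6⟩ := Gma.exists_lift π
    (fun x => by
      obtain ⟨c, rfl⟩ := S.surj x
      exact ⟨_, alg c⟩) loc (t := t) (d := d'.toHomUnits) ⟨t1, tc, tm⟩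
    ((Units.coeHom _).comp S.rb) ht hd S.g0 S.g1 (diag_eq S.d01 S.d10) S.dne h10 (ι S.lam)
    ((alg _).trans hlam) S.n01
  have hi : ∀ l, IsUnit (al l) := fun l => (Matrix.isUnit_iff_isUnit_det _).2 (loc _ (by
    rw [RingHom.map_det, RingHom.mapMatrix_apply, one, Matrix.det_one]
    exact one_ne_zero))
  choose be hbe using fun l => (hi l).exists_right_inv
  refine ⟨⟨ι, π, ρ, al, be, inferInstance, loc, alg, a3, ?_, ?_, a5, hbe, one, off, fr⟩,
    rfl, rfl, a1, a2, rfl, a6⟩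
  · rw [← ker_set]
    exact Subgroup.isOpen_mono (fun u k => Units.ext (a6 u (hu u k))) hU
  · rw [a4]
    exact ⟨rfl, rfl⟩

/-- a ring with symbols for traces, determinants, frames and diamond operators -/
structure Hk (S : Dat O F) (r : ℕ) (B : Type) [CommRing B] where
  ι : O →+* B
  π : B →+* F
  t : GQ → B
  d : GQ → B
  al : ℕ → M2 B
  y : Fin r → B
  alg : ∀ c, π (ι c) = S.red c
  ht : ∀ g, π (t g) = (mx S.rb g).trace
  hd : ∀ g, π (d g) = (mx S.rb g).det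
  one : ∀ l, (al l).map π = 1
  off : ∀ l ∉ S.T, al l = 1
  fr : al S.l0 0 0 = 1
  hy : ∀ i, π (y i) = 0
  h10 : mx S.rb S.g1 1 0 ≠ 0
  lam : S.red S.lam = mx S.rb S.g1 0 1
  opn : IsOpen {g | S.rb g = 1}

variable {r : ℕ} {B : Type} [CommRing B] (H : Hk S r B)

/-- `φ` maps the symbols to the values on the object `X` -/
structure Ct {A : Type} [CommRing A] (X : Obj S A) (φ : B →+* A) : Prop where
  ι : ∀ c, φ (H.ι c) = X.ι c
  t : ∀ g, φ (H.t g) = (X.ρ g).trace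
  d : ∀ g, φ (H.d g) = (X.ρ g).det
  al : ∀ l, (H.al l).map φ = X.α l
  π : ∀ b, X.π (φ b) = H.π b

variable {H}

theorem Ct.hom {A A' : Type} [CommRing A] [CommRing A'] {X : Obj S A} {Y : Obj S A'}
    {φ : B →+* A} {u : A →+* A'} (h : Ct H X φ) (h' : Ct H Y (u.comp φ))
    (hp : ∀ a, Y.π (u a) = X.π a) : Hom X Y u := by
  have r1 : ∀ g i j, X.π (X.ρ g i j) = mx S.rb g i j := fun g i j =>
    congrFun (congrFun (X.res g) i) j
  have r2 : ∀ g i j, Y.π (Y.ρ g i j) = mx S.rb g i j := fun g i j =>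
    congrFun (congrFun (Y.res g) i) j
  have hι : ∀ c, u (X.ι c) = Y.ι c := fun c => by rw [← h.ι, ← h'.ι]; rfl
  have e := Gma.rep_unique (ρ := u.mapMatrix.toMonoidHom.comp X.ρ) (ρ' := Y.ρ) (g₀ := S.g0)
    (s₀ := S.g1) (diag_eq ((congrArg u X.dg.1).trans u.map_zero)
      ((congrArg u X.dg.2).trans u.map_zero)) (diag_eq Y.dg.1 Y.dg.2)
    (Y.loc _ (by
      change Y.π (u _ - u _) ≠ 0
      rw [map_sub, hp, hp, r1, r1]
      exact sub_ne_zero.2 S.dne))
    (Y.loc _ (by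
      change Y.π (_ - u _) ≠ 0
      rw [map_sub, hp, r2, r1]
      exact sub_ne_zero.2 S.dne))
    (Y.nm.trans ((hι _).symm.trans (congrArg u X.nm.symm)))
    (Y.loc _ (by
      change Y.π (u _) ≠ 0
      rw [hp, r1]
      exact S.n01))
    (Y.loc _ (by
      change Y.π (u _) ≠ 0
      rw [hp, r1]
      exact H.h10))
    (fun g => by
      rw [← h'.t, RingHom.comp_apply, h.t]
      exact (AddMonoidHom.map_trace u (X.ρ g)).symm)
    (by
      rw [← h'.d, RingHom.comp_apply, h.d]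
      exact (u.map_det _).symm)
  refine ⟨hι, fun g => congrArg (fun f : GQ →* M2 A' => f g) e, fun l => ?_⟩
  rw [← h.al, ← h'.al, Matrix.map_map]
  rfl

theorem Ct.map {A A' : Type} [CommRing A] [CommRing A'] {X : Obj S A} {Y : Obj S A'}
    {φ : B →+* A} {u : A →+* A'} (h : Ct H X φ) (k : Hom X Y u) : Ct H Y (u.comp φ) where
  ι c := by rw [RingHom.comp_apply, h.ι, k.ι]
  t g := by
    rw [RingHom.comp_apply, h.t, ← k.ρ]
    exact AddMonoidHom.map_trace u (X.ρ g)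
  d g := by
    rw [RingHom.comp_apply, h.d, ← k.ρ]
    exact u.map_det _
  al l := by
    rw [← k.α, ← h.al, Matrix.map_map]
    rfl
  π b := by rw [RingHom.comp_apply, k.π, h.π]

variable (H) in
/-- the identities of a pseudo-character hold modulo `I` -/
structure Tf (I : Ideal B) : Prop where
  t1 : H.t 1 - 2 ∈ I
  tc : ∀ g h, H.t (g * h) - H.t (h * g) ∈ I
  tm : ∀ g h, H.t g * H.t h - (H.t (g * h) + H.d h * H.t (g * h⁻¹)) ∈ I
  d1 : H.d 1 - 1 ∈ I
  dm : ∀ g h, H.d (g * h) - H.d g * H.d h ∈ I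
  opn : ∃ U : Subgroup GQ, IsOpen (U : Set GQ) ∧ ∀ u ∈ U, ∀ g, H.t (g * u) - H.t g ∈ I

theorem Tf.inf {I J : Ideal B} (h : Tf H I) (k : Tf H J) : Tf H (I ⊓ J) := by
  obtain ⟨U, a, b⟩ := h.opn
  obtain ⟨V, c, d⟩ := k.opn
  exact ⟨⟨h.t1, k.t1⟩, fun a b => ⟨h.tc a b, k.tc a b⟩, fun a b => ⟨h.tm a b, k.tm a b⟩,
    ⟨h.d1, k.d1⟩, fun a b => ⟨h.dm a b, k.dm a b⟩, U ⊓ V, a.inter c,
    fun u hu g => ⟨b u hu.1 g, d u hu.2 g⟩⟩

theorem tr_mul {A : Type} [CommRing A] (ρ : GQ →* M2 A) (g h : GQ) :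
    (ρ g).trace * (ρ h).trace = (ρ (g * h)).trace + (ρ h).det * (ρ (g * h⁻¹)).trace := by
  have e : ρ g = ρ (g * h⁻¹) * ρ h := by rw [← map_mul, inv_mul_cancel_right]
  rw [map_mul ρ g h, e]
  simp only [Matrix.trace_fin_two, Matrix.det_fin_two, Matrix.mul_apply, Fin.sum_univ_two]
  ring

theorem tf_of_rep {A : Type} [CommRing A] (φ : B →+* A) (ρ : GQ →* M2 A)
    (ht : ∀ g, φ (H.t g) = (ρ g).trace) (hd : ∀ g, φ (H.d g) = (ρ g).det)
    (ho : IsOpen {g | ρ g = 1}) : Tf H (RingHom.ker φ) := by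
  refine ⟨?_, fun g h => ?_, fun g h => ?_, ?_, fun g h => ?_, ρ.toHomUnits.ker,
    by rw [ker_set]; exact ho, fun u hu g => ?_⟩ <;> rw [RingHom.mem_ker, map_sub, sub_eq_zero]
  · rw [ht, map_one, map_ofNat, Matrix.trace_fin_two]
    simp [one_add_one_eq_two]
  · rw [ht, ht, map_mul, map_mul, Matrix.trace_mul_comm]
  · rw [map_mul, map_add, map_mul, ht, ht, ht, ht, hd, tr_mul]
  · rw [hd, map_one, map_one, Matrix.det_one]
  · rw [map_mul, hd, hd, hd, map_mul, Matrix.det_mul]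
  · rw [ht, ht, map_mul, show ρ u = 1 from Units.ext_iff.1 hu, mul_one]

theorem tf_ker : Tf H (RingHom.ker H.π) :=
  tf_of_rep H.π ((Units.coeHom _).comp S.rb) H.ht H.hd
    (by
      have e : {g | ((Units.coeHom _).comp S.rb) g = 1} = {g | S.rb g = 1} :=
        Set.ext fun g => Units.val_eq_one
      rw [e]
      exact H.opn)

theorem Ct.tf {A : Type} [CommRing A] {X : Obj S A} {φ : B →+* A} (h : Ct H X φ) :
    Tf H (RingHom.ker φ) := tf_of_rep φ X.ρ h.t h.d X.opn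

/-- the object over a quotient of the ring of symbols -/
theorem exists_ct (I : Ideal B) [Finite (B ⧸ I)] (hI : I ≤ RingHom.ker H.π)
    (hn : ∀ b, H.π b ≠ 0 → IsUnit (Ideal.Quotient.mk I b)) (h : Tf H I) :
    ∃ X : Obj S (B ⧸ I), Ct H X (Ideal.Quotient.mk I) ∧
      ∀ u, (∀ g, H.t (g * u) - H.t g ∈ I) → X.ρ u = 1 := by
  obtain ⟨U, a, b⟩ := h.opn
  obtain ⟨X, e1, e2, e3, e4, e5, e6⟩ := exists_obj H.h10 H.lam ((Ideal.Quotient.mk I).comp H.ι)
    (Ideal.Quotient.lift I H.π fun _ k => hI k)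
    (fun x => by
      obtain ⟨x, rfl⟩ := Ideal.Quotient.mk_surjective x
      exact hn x) H.alg (fun g => Ideal.Quotient.mk I (H.t g))
    (fun g => Ideal.Quotient.mk I (H.d g))
    ((Ideal.Quotient.eq.2 h.t1).trans (map_ofNat _ 2)) (fun g k => Ideal.Quotient.eq.2 (h.tc g k))
    (fun g k => Ideal.Quotient.eq.2 (h.tm g k)) (Ideal.Quotient.eq.2 h.d1)
    (fun g k => Ideal.Quotient.eq.2 (h.dm g k)) H.ht H.hd
    (fun l => (H.al l).map (Ideal.Quotient.mk I))
    (fun l => by rw [Matrix.map_map]; exact H.one l) (fun l k => by rw [H.off l k, map_one'])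
    (congrArg (Ideal.Quotient.mk I) H.fr) U a (fun u k g => Ideal.Quotient.eq.2 (b u k g))
  exact ⟨X, ⟨fun c => by rw [e1]; rfl, fun g => (e3 g).symm, fun g => (e4 g).symm,
    fun l => by rw [e5], fun b => by rw [e2]; rfl⟩,
    fun u k => e6 u fun g => Ideal.Quotient.eq.2 (k g)⟩

/-- two charts have a common source -/
theorem Ct.pull {A A' : Type} [CommRing A] [CommRing A'] {X : Obj S A} {Y : Obj S A'}
    {φ : B →+* A} {φ' : B →+* A'} (h : Ct H X φ) (h' : Ct H Y φ') :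
    ∃ (I : Ideal B) (Z : Obj S (B ⧸ I)) (u : B ⧸ I →+* A) (u' : B ⧸ I →+* A'),
      Ct H Z (Ideal.Quotient.mk I) ∧ Hom Z X u ∧ Hom Z Y u' ∧
      (∀ a, u a = 0 → u' a = 0 → a = 0) ∧ (∀ b, u (Ideal.Quotient.mk I b) = φ b) ∧
      ∀ b, u' (Ideal.Quotient.mk I b) = φ' b := by
  let I := RingHom.ker φ ⊓ RingHom.ker φ'
  let u : B ⧸ I →+* A := Ideal.Quotient.lift I φ fun _ k => k.1
  let u' : B ⧸ I →+* A' := Ideal.Quotient.lift I φ' fun _ k => k.2
  have inj : ∀ a, u a = 0 → u' a = 0 → a = 0 := fun a => by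
    obtain ⟨w, rfl⟩ := Ideal.Quotient.mk_surjective a
    exact fun e e' => Ideal.Quotient.eq_zero_iff_mem.2 ⟨e, e'⟩
  have : Finite (B ⧸ I) := by
    have := X.fin
    have := Y.fin
    refine Finite.of_injective (u.prod u') ((injective_iff_map_eq_zero _).2 fun a ha => ?_)
    exact inj a (congrArg Prod.fst ha) (congrArg Prod.snd ha)
  obtain ⟨Z, k, -⟩ := exists_ct (H := H) I
    (fun b hb => by rw [RingHom.mem_ker, ← h.π, RingHom.mem_ker.1 hb.1, map_zero])
    (fun b hb => by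
      have h1 := X.loc (φ b) (h.π b ▸ hb)
      have h2 := Y.loc (φ' b) (h'.π b ▸ hb)
      refine isUnit_iff_mem_nonZeroDivisors_of_finite.2 (mem_nonZeroDivisors_iff_right.2 ?_)
      intro x hx
      refine inj x (h1.mul_left_eq_zero.1 ?_) (h2.mul_left_eq_zero.1 ?_)
      · exact (map_mul u x (Ideal.Quotient.mk I b)).symm.trans (by rw [hx, map_zero])
      · exact (map_mul u' x (Ideal.Quotient.mk I b)).symm.trans (by rw [hx, map_zero]))
    (h.tf.inf h'.tf)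
  refine ⟨I, Z, u, u', k, k.hom h fun a => ?_, k.hom h' fun a => ?_, inj, fun _ => rfl,
    fun _ => rfl⟩
  · obtain ⟨w, rfl⟩ := Ideal.Quotient.mk_surjective a
    exact (h.π w).trans (k.π w).symm
  · obtain ⟨w, rfl⟩ := Ideal.Quotient.mk_surjective a
    exact (h'.π w).trans (k.π w).symm

section ext

variable {σ A A' : Type} [Finite σ] [CommRing A] [CommRing A']

/-- the extension of `Φ` with given values of the new variables -/
def ext (Φ : MvPowerSeries σ O →+* A) (y : Fin r → A) : MvPowerSeries (σ ⊕ Fin r) O →+* A :=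
  evl (Φ.comp MvPowerSeries.C) (Sum.elim (fun s => Φ (MvPowerSeries.X s)) y)

variable {Φ : MvPowerSeries σ O →+* A} {y : Fin r → A} {m : Ideal A} {n : ℕ} (hn : m ^ n = ⊥)
  (hΦ : ∀ s, Φ (MvPowerSeries.X s) ∈ m) (hy : ∀ i, y i ∈ m)
include hn hΦ hy

theorem ext_van : Van (Φ.comp MvPowerSeries.C) (Sum.elim (fun s => Φ (MvPowerSeries.X s)) y) n :=
  van_of_pow _ _ m hn fun s => by
    rcases s with s | s
    exacts [hΦ s, hy s]

theorem ext_y (i : Fin r) : ext Φ y (y1 O σ i) = y i := evl_X (ext_van hn hΦ hy) _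

theorem ext_C (c : O) : ext Φ y (MvPowerSeries.C c) = Φ (MvPowerSeries.C c) :=
  evl_C (ext_van hn hΦ hy) c

theorem ext_io (f : MvPowerSeries σ O) : ext Φ y (io O σ r f) = Φ f := by
  have : IsHausdorff m A := ⟨fun x hx => by
    have := hx n
    rwa [hn, Submodule.bot_smul, SModEq.bot] at this⟩
  have e1 : ∀ c, io O σ r (MvPowerSeries.C c) = MvPowerSeries.C c := fun c =>
    MvPowerSeries.rename_C _ c
  have e2 : ∀ s, ext Φ y (io O σ r (MvPowerSeries.X s)) = Φ (MvPowerSeries.X s) := fun s =>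
    (congrArg (ext Φ y) (MvPowerSeries.rename_X _ s)).trans (evl_X (ext_van hn hΦ hy) _)
  have e := NR.ev_ext m (φ := (ext Φ y).comp (io O σ r)) (ψ := Φ)
    (fun c => by rw [RingHom.comp_apply, e1, ext_C hn hΦ hy]) e2 fun s => by
      rw [RingHom.comp_apply, e2]
      exact hΦ s
  exact congrArg (fun g : MvPowerSeries σ O →+* A => g f) e

theorem map_ext (u : A →+* A') (f : MvPowerSeries (σ ⊕ Fin r) O) :
    u (ext Φ y f) = ext (u.comp Φ) (fun i => u (y i)) f := by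
  rw [ext, map_evl (ext_van hn hΦ hy), ext]
  have e : (fun s => u (Sum.elim (fun s => Φ (MvPowerSeries.X s)) y s)) =
      Sum.elim (fun s => (u.comp Φ) (MvPowerSeries.X s)) fun i => u (y i) := by
    funext s
    rcases s with s | s <;> rfl
  rw [e]
  rfl

end ext

section charts

variable {τ : Type} [Finite τ] {g : ℕ} {C : Cl S} {κ : Crd S τ} {Φ : Fam S τ g}

variable (H) in
/-- the homomorphism which belongs to a chart -/
def Hk.ev (Φ : Fam S τ g) {A : Type} [CommRing A] (X : Obj S A) (φ : B →+* A) :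
    MvPowerSeries ((τ ⊕ Fin g) ⊕ Fin r) O →+* A := ext (Φ A X) fun i => φ (H.y i)

variable (H) in
/-- the correspondences given by the objects of the class `C` -/
def Hk.G (C : Cl S) (Φ : Fam S τ g) : Set (Subring (MvPowerSeries ((τ ⊕ Fin g) ⊕ Fin r) O × B)) :=
  {Γ | ∃ (A : Type) (_ : CommRing A) (X : Obj S A) (φ : B →+* A), C A X ∧ Ct H X φ ∧
    Function.Surjective φ ∧ Γ = gr (H.ev Φ X φ) φ}

variable {A A' : Type} [CommRing A] [CommRing A'] {X : Obj S A} {φ : B →+* A}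
  (hU : Univ C κ Φ) (c : C A X) (h : Ct H X φ)
include hU c h

omit h [Finite τ] in
theorem X_mem (s : τ ⊕ Fin g) : Φ A X (MvPowerSeries.X s) ∈ RingHom.ker X.π := by
  rw [RingHom.mem_ker, hU.res A X c, MvPowerSeries.constantCoeff_X, map_zero]

omit hU c in
theorem y_mem (i : Fin r) : φ (H.y i) ∈ RingHom.ker X.π := (h.π _).trans (H.hy i)

theorem ev_y (i : Fin r) : H.ev Φ X φ (y1 O _ i) = φ (H.y i) :=
  X.nil.elim fun _ hn => ext_y hn (X_mem hU c) (y_mem h) i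

theorem ev_io (f : PS O τ g) : H.ev Φ X φ (io O _ r f) = Φ A X f :=
  X.nil.elim fun _ hn => ext_io hn (X_mem hU c) (y_mem h) f

theorem ev_cst (o : O) : H.ev Φ X φ (MvPowerSeries.C o) = φ (H.ι o) :=
  X.nil.elim fun _ hn => (ext_C hn (X_mem hU c) (y_mem h) o).trans
    ((hU.cst A X c o).trans (h.ι o).symm)

theorem ev_nat {Y : Obj S A'} (c' : C A' Y) {u : A →+* A'} (k : Hom X Y u)
    (f : MvPowerSeries ((τ ⊕ Fin g) ⊕ Fin r) O) :
    u (H.ev Φ X φ f) = H.ev Φ Y (u.comp φ) f := by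
  obtain ⟨n, hn⟩ := X.nil
  rw [Hk.ev, map_ext hn (X_mem hU c) (y_mem h),
    show u.comp (Φ A X) = Φ A' Y from RingHom.ext (hU.nat A A' X Y u c c' k)]
  rfl

theorem ev_res (f : MvPowerSeries ((τ ⊕ Fin g) ⊕ Fin r) O) :
    X.π (H.ev Φ X φ f) = S.red (MvPowerSeries.constantCoeff f) := by
  obtain ⟨n, hn⟩ := X.nil
  have e : (fun s => X.π (Sum.elim (fun s => Φ A X (MvPowerSeries.X s))
      (fun i => φ (H.y i)) s)) = fun _ => 0 := by
    funext s
    rcases s with s | s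
    exacts [X_mem hU c s, y_mem h s]
  rw [Hk.ev, ext, map_evl (ext_van hn (X_mem hU c) (y_mem h)), e, evl_zero]
  change X.π (Φ A X (MvPowerSeries.C _)) = _
  rw [hU.cst A X c, X.alg]

omit c h in
theorem dir_G (hC : Closed C) : Dir (H.G C Φ) where
  sur := by
    rintro _ ⟨A, _, X, φ, -, -, s, rfl⟩ f
    obtain ⟨t, ht⟩ := s (H.ev Φ X φ f)
    exact ⟨t, ht.symm⟩
  dir := by
    rintro _ ⟨A, _, X, φ, c, h, -, rfl⟩ _ ⟨A', _, Y, φ', c', h', -, rfl⟩
    obtain ⟨I, Z, u, u', a, b, b', i, e, e'⟩ := h.pull h'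
    have cz := hC.pull _ _ _ Z X Y u u' b b' i c c'
    refine ⟨_, ⟨_, _, Z, _, cz, a, Ideal.Quotient.mk_surjective, rfl⟩, fun p hp => ?_,
      fun p hp => ?_⟩
    · have := congrArg u (mem_gr.1 hp)
      rwa [ev_nat hU cz a c b, e, show u.comp (Ideal.Quotient.mk I) = φ from RingHom.ext e] at this
    · have := congrArg u' (mem_gr.1 hp)
      rwa [ev_nat hU cz a c' b', e',
        show u'.comp (Ideal.Quotient.mk I) = φ' from RingHom.ext e'] at this

end charts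

end Vale.Agent.P022D.As
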