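import Vale.Agent.P022D.As.Defs
import Vale.Agent.P022D.CA.Cpl
import Vale.Agent.P022D.NR.Ev

/-!
# P022D, assembly: rows BASE and COV
-/

set_option linter.all false

open IsLocalRing Polynomial

noncomputable section

namespace Vale.Agent.P022D.As

open Vale.Agent.P022D.Core (PS io y1 Coef)

theorem base : BASE := by
  intro O σ _ _ _ hO _
  have _ := hO.fin
  exact { cpl := CA.Cpl.isAdicCompleteV hO.cpl, fin := CA.Cpl.finite_residue }

namespace CovAux

/-- the universal algebra with roots of monic quadratic polynomials is finite free -/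
theorem exB (A : Type) [CommRing A] (r : ℕ) (a b : Fin r → A) :
    ∃ (B : Type) (_ : CommRing B) (_ : Algebra A B) (t : Fin r → B),
      Module.Free A B ∧ Module.Finite A B ∧
      (∀ i, t i ^ 2 - algebraMap A B (a i) * t i + algebraMap A B (b i) = 0) ∧
      (∀ (D : Type) [CommRing D] [Algebra A D] (φ ψ : B →ₐ[A] D),
        (∀ i, φ (t i) = ψ (t i)) → φ = ψ) ∧
      ∀ (D : Type) [CommRing D] [Algebra A D] (s : Fin r → D),
        (∀ i, s i ^ 2 - algebraMap A D (a i) * s i + algebraMap A D (b i) = 0) →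
          ∃ φ : B →ₐ[A] D, ∀ i, φ (t i) = s i := by
  induction r with
  | zero =>
    refine ⟨A, inferInstance, inferInstance, fun i => i.elim0, inferInstance, inferInstance,
      fun i => i.elim0, fun D _ _ φ ψ _ => Subsingleton.elim _ _, fun D _ _ s _ =>
      ⟨Algebra.ofId A D, fun i => i.elim0⟩⟩
  | succ r ih =>
    obtain ⟨B, _, _, t, h1, h2, h3, h4, h5⟩ := ih (fun i => a i.succ) (fun i => b i.succ)
    let g : B[X] := X ^ 2 - C (algebraMap A B (a 0)) * X + C (algebraMap A B (b 0))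
    have hg : g.Monic := by
      simp only [g]
      monicity <;> simp
    have f1 := hg.free_adjoinRoot
    have f2 := hg.finite_adjoinRoot
    have f3 : ∀ u, algebraMap A (AdjoinRoot g) u = AdjoinRoot.of g (algebraMap A B u) :=
      fun u => IsScalarTower.algebraMap_apply A B _ u
    refine ⟨AdjoinRoot g, inferInstance, inferInstance,
      Fin.cons (AdjoinRoot.root g) (fun i => AdjoinRoot.of g (t i)),
      Module.Free.trans (S := B), Module.Finite.trans B _, ?_, ?_, ?_⟩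
    · intro i
      refine Fin.cases ?_ (fun i => ?_) i
      · have := AdjoinRoot.eval₂_root g
        simp only [g, eval₂_add, eval₂_sub, eval₂_mul, eval₂_pow, eval₂_X, eval₂_C] at this
        rw [Fin.cons_zero, f3, f3]
        exact this
      · rw [Fin.cons_succ, f3, f3, ← map_pow, ← map_mul, ← map_sub, ← map_add, h3, map_zero]
    · intro D _ _ φ ψ h
      refine AdjoinRoot.algHom_ext' (h4 D _ _ fun i => ?_) ?_
      · exact h i.succ
      · exact h 0
    · intro D _ _ s hs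
      obtain ⟨φ, hφ⟩ := h5 D (fun i => s i.succ) (fun i => hs i.succ)
      have h0 : g.eval₂ (φ : B →+* D) (s 0) = 0 := by
        simp only [g, eval₂_add, eval₂_sub, eval₂_mul, eval₂_pow, eval₂_X, eval₂_C,
          RingHom.coe_coe, AlgHom.commutes]
        exact hs 0
      refine ⟨AdjoinRoot.liftAlgHom g φ (s 0) h0, fun i => ?_⟩
      refine Fin.cases ?_ (fun i => ?_) i
      · rw [Fin.cons_zero, AdjoinRoot.liftAlgHom_root]
      · rw [Fin.cons_succ, AdjoinRoot.liftAlgHom_of, hφ]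

theorem prec_free {A B : Type} [CommRing A] [AddCommGroup B] [Module A B] [Module.Free A B]
    [Module.Finite A B] (I : Ideal A) [h : IsPrecomplete I A] : IsPrecomplete I B := by
  classical
  let e := Module.Free.chooseBasis A B
  refine ⟨fun f hf => ?_⟩
  have h1 : ∀ i, ∃ L : A, ∀ n, e.coord i (f n) ≡ L [SMOD (I ^ n • ⊤ : Submodule A A)] := by
    intro i
    refine h.prec' (fun n => e.coord i (f n)) fun {m n} hmn => ?_
    rw [SModEq.sub_mem, ← map_sub]
    have h2 := Submodule.mem_map_of_mem (f := e.coord i) (SModEq.sub_mem.1 (hf hmn))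
    rw [Submodule.map_smul''] at h2
    exact Submodule.smul_mono le_rfl le_top h2
  choose L hL using h1
  refine ⟨∑ i, L i • e i, fun n => ?_⟩
  rw [SModEq.sub_mem, ← e.sum_repr (f n), ← Finset.sum_sub_distrib]
  refine Submodule.sum_mem _ fun i _ => ?_
  rw [← sub_smul]
  have h3 := SModEq.sub_mem.1 (hL i n)
  rw [smul_eq_mul, Ideal.mul_top] at h3
  exact Submodule.smul_mem_smul h3 Submodule.mem_top

theorem cpl_of_pow {B : Type} [CommRing B] (I J : Ideal B) (N : ℕ) (h1 : I ≤ J)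
    (h2 : J ^ N ≤ I) [h : IsAdicComplete I B] : IsAdicComplete J B := by
  have h3 : ∀ k, J ^ ((N + 1) * k) ≤ I ^ k := fun k => by
    rw [pow_mul]
    exact Ideal.pow_right_mono ((Ideal.pow_le_pow_right (Nat.le_succ N)).trans h2) k
  refine { haus' := fun x hx => ?_, prec' := fun f hf => ?_ }
  · refine h.haus' x fun k => ?_
    exact (hx ((N + 1) * k)).mono (Submodule.smul_mono (h3 k) le_rfl)
  · obtain ⟨L, hL⟩ := h.prec' (fun k => f ((N + 1) * k)) fun {m n} hmn =>
      (hf (Nat.mul_le_mul_left (N + 1) hmn)).mono (Submodule.smul_mono (h3 m) le_rfl)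
    refine ⟨L, fun n => (hf (Nat.le_mul_of_pos_left n (Nat.succ_pos N))).trans ?_⟩
    exact (hL n).mono (Submodule.smul_mono (Ideal.pow_right_mono h1 n) le_rfl)

end CovAux

theorem cov : COV := by
  intro O σ _ _ _ hO _ r a b hab
  letI : Algebra (PS O σ) (PS O (σ ⊕ Fin r)) := (io O σ r).toAlgebra
  set 𝔯 : Ideal (PS O (σ ⊕ Fin r)) := Ideal.span (Set.range fun i =>
      y1 O σ i ^ 2 - io O σ r (a i) * y1 O σ i + io O σ r (b i)) with h𝔯
  have hrel : ∀ q, y1 O σ q ^ 2 - io O σ r (a q) * y1 O σ q + io O σ r (b q) ∈ 𝔯 :=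
    fun q => Ideal.subset_span ⟨q, rfl⟩
  obtain ⟨B, _, _, t, h1, h2, h3, h4, h5⟩ := CovAux.exB (PS O σ) r a b
  have hA : IsAdicComplete (maximalIdeal (PS O σ)) (PS O σ) := CA.Cpl.isAdicCompleteV hO.cpl
  have hN : IsNoetherianRing B := IsNoetherianRing.of_finite (PS O σ) B
  let I : Ideal B := (maximalIdeal (PS O σ)).map (algebraMap (PS O σ) B)
  have hI : IsAdicComplete I B :=
    { toIsHausdorff := IsHausdorff.map_algebraMap_iff.2 inferInstance
      toIsPrecomplete := IsPrecomplete.map_algebraMap_iff.2 (CovAux.prec_free _) }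
  have hJ : I.radical ≤ I.radical := le_rfl
  obtain ⟨N, hN⟩ := Ideal.exists_pow_le_of_le_radical_of_fg hJ (IsNoetherian.noetherian _)
  have hB : IsAdicComplete I.radical B := CovAux.cpl_of_pow I _ N Ideal.le_radical hN
  have hXm : ∀ (τ : Type) (s : τ), (MvPowerSeries.X s : PS O τ) ∈ maximalIdeal (PS O τ) :=
    fun τ s => by
      rw [CA.Cpl.mem_max_iff, MvPowerSeries.constantCoeff_X]; exact Ideal.zero_mem _
  have hXI : ∀ s, algebraMap (PS O σ) B (MvPowerSeries.X s) ∈ I.radical := fun s =>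
    Ideal.le_radical (Ideal.mem_map_of_mem _ (hXm σ s))
  have hx : ∀ i, Sum.elim (fun s => algebraMap (PS O σ) B (MvPowerSeries.X s)) t i ∈
      I.radical := by
    rintro (s | i)
    · exact hXI s
    · refine ⟨2, ?_⟩
      have e : t i ^ 2 = algebraMap (PS O σ) B (a i) * t i - algebraMap (PS O σ) B (b i) := by
        linear_combination h3 i
      rw [Sum.elim_inr, e]
      exact Ideal.sub_mem _ (Ideal.mul_mem_right _ _ (Ideal.mem_map_of_mem _ (hab i).1))
        (Ideal.mem_map_of_mem _ (hab i).2)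
  obtain ⟨ψ, hψC, hψX⟩ := NR.exists_ev I.radical
    ((algebraMap (PS O σ) B).comp MvPowerSeries.C) _ hx
  have ioC : ∀ o, io O σ r (MvPowerSeries.C o) = MvPowerSeries.C o := fun o =>
    MvPowerSeries.rename_C _ o
  have ioX : ∀ s, io O σ r (MvPowerSeries.X s) = MvPowerSeries.X (Sum.inl s) := fun s =>
    MvPowerSeries.rename_X _ s
  have hψio : ψ.comp (io O σ r) = algebraMap (PS O σ) B := by
    refine NR.ev_ext I.radical (fun o => ?_) (fun s => ?_) (fun s => ?_)
    · rw [RingHom.comp_apply, ioC, hψC]; rfl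
    · rw [RingHom.comp_apply, ioX, hψX]; rfl
    · rw [RingHom.comp_apply, ioX, hψX]; exact hXI s
  have hψio' : ∀ u, ψ (io O σ r u) = algebraMap (PS O σ) B u := fun u =>
    congrArg (fun f : PS O σ →+* B => f u) hψio
  have hψy : ∀ i, ψ (y1 O σ i) = t i := fun i => hψX (Sum.inr i)
  have hker : ∀ u ∈ 𝔯, ψ u = 0 := by
    have : 𝔯 ≤ RingHom.ker ψ := by
      rw [h𝔯, Ideal.span_le]
      rintro _ ⟨i, rfl⟩
      change ψ _ = 0
      rw [map_add, map_sub, map_mul, map_pow, hψio', hψio', hψy, h3]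
    exact fun u hu => this hu
  let ψ' : (PS O (σ ⊕ Fin r) ⧸ 𝔯) →ₐ[PS O σ] B :=
    { Ideal.Quotient.lift 𝔯 ψ hker with commutes' := fun u => hψio' u }
  have hψ' : ∀ u, ψ' (Ideal.Quotient.mk 𝔯 u) = ψ u := fun u => rfl
  have halg : ∀ u, algebraMap (PS O σ) (PS O (σ ⊕ Fin r) ⧸ 𝔯) u =
      Ideal.Quotient.mk 𝔯 (io O σ r u) := fun u => rfl
  let S := Algebra.adjoin (PS O σ) (Set.range fun q => Ideal.Quotient.mk 𝔯 (y1 O σ q))
  obtain ⟨φ0, hφ0⟩ := h5 S (fun i => ⟨Ideal.Quotient.mk 𝔯 (y1 O σ i),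
    Algebra.subset_adjoin ⟨i, rfl⟩⟩) (fun i => Subtype.ext (by
      change Ideal.Quotient.mk 𝔯 (y1 O σ i) ^ 2 - Ideal.Quotient.mk 𝔯 (io O σ r (a i)) *
        Ideal.Quotient.mk 𝔯 (y1 O σ i) + Ideal.Quotient.mk 𝔯 (io O σ r (b i)) = 0
      rw [← map_pow, ← map_mul, ← map_sub, ← map_add]
      exact Ideal.Quotient.eq_zero_iff_mem.2 (hrel i)))
  let φ : B →ₐ[PS O σ] (PS O (σ ⊕ Fin r) ⧸ 𝔯) := S.val.comp φ0
  have hφ : ∀ i, φ (t i) = Ideal.Quotient.mk 𝔯 (y1 O σ i) := fun i => by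
    change (φ0 (t i)).1 = _
    rw [hφ0]
  have e1 : ψ'.comp φ = AlgHom.id _ B := h4 B _ _ fun i => by
    rw [AlgHom.comp_apply, hφ, hψ', hψy]; rfl
  have hH : IsHausdorff ((maximalIdeal (PS O (σ ⊕ Fin r))).map
      (algebraMap (PS O (σ ⊕ Fin r)) (PS O (σ ⊕ Fin r) ⧸ 𝔯))) (PS O (σ ⊕ Fin r) ⧸ 𝔯) :=
    IsHausdorff.map_algebraMap_iff.2 inferInstance
  have e2 : Ideal.Quotient.mk 𝔯 = (φ : B →+* _).comp ψ := by
    refine NR.ev_ext ((maximalIdeal (PS O (σ ⊕ Fin r))).map
      (algebraMap (PS O (σ ⊕ Fin r)) (PS O (σ ⊕ Fin r) ⧸ 𝔯))) (fun o => ?_) ?_ (fun s => ?_)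
    · rw [RingHom.comp_apply, ← ioC, hψio', RingHom.coe_coe, AlgHom.commutes, halg]
    · rintro (s | i)
      · rw [RingHom.comp_apply, ← ioX, hψio', RingHom.coe_coe, AlgHom.commutes, halg]
      · exact (hφ i).symm.trans (congrArg φ (hψy i).symm)
    · exact Ideal.mem_map_of_mem _ (hXm _ s)
  have e3 : ∀ u, φ (ψ' u) = u := fun u => by
    obtain ⟨u, rfl⟩ := Ideal.Quotient.mk_surjective u
    rw [hψ']
    exact (congrArg (fun f : PS O (σ ⊕ Fin r) →+* _ => f u) e2).symm
  have hb : Function.Bijective φ :=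
    ⟨Function.LeftInverse.injective (g := ψ') fun u => congrArg (fun f : B →ₐ[PS O σ] B => f u) e1,
      fun u => ⟨ψ' u, e3 u⟩⟩
  let E := (AlgEquiv.ofBijective φ hb).toLinearEquiv
  refine ⟨hrel, Module.Free.of_equiv E, Module.Finite.equiv E, ?_⟩
  refine Algebra.eq_top_iff.2 fun u => ?_
  rw [← e3 u]
  exact (φ0 (ψ' u)).2

end Vale.Agent.P022D.As
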