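import Vale.Agent.P022D.PA.Defs
import Vale.Agent.P022D.Core.Defs

/-!
# P022D, assembly: the input of the patching argument in discrete form (pure algebra)
-/

set_option linter.all false

open IsLocalRing Filter

noncomputable section

namespace Vale.Agent.P022D.As

open Vale.Agent.P022D.Core (PS io y1 Coef ty I0)

section disc

/-- every element is killed by a power of the maximal ideal -/
def Dis (P : Type) [CommRing P] [IsLocalRing P] (Y : Type) [AddCommGroup Y] [Module P Y] : Prop :=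
  ∀ w : Y, ∃ k : ℕ, ∀ u ∈ maximalIdeal P ^ k, u • w = 0

/-- the socle is spanned by `b` elements -/
def Sb (P : Type) [CommRing P] [IsLocalRing P] (b : ℕ) (Y : Type) [AddCommGroup Y] [Module P Y] :
    Prop :=
  ∃ s : Fin b → Y, (∀ j, ∀ u ∈ maximalIdeal P, u • s j = 0) ∧
    ∀ w : Y, (∀ u ∈ maximalIdeal P, u • w = 0) → w ∈ Submodule.span P (Set.range s)

variable {P : Type} [CommRing P]

/-- the dual of `PA.Soc` -/
def DS {ι : Type} [Fintype ι] (u : ι → P) (j : ℕ) (Y : Type) [AddCommGroup Y] [Module P Y] :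
    Prop :=
  ∀ w : Y, (∀ i, u i • w = 0) → ∃ w' : Y, (∀ i, u i ^ (j + 1) • w' = 0) ∧ w = (∏ i, u i) ^ j • w'

/-- `W` is the part of `Y` killed by the `u i`, up to `D` -/
def Fib {ι : Type} (u : ι → P) (D : P) (Y W : Type) [AddCommGroup Y] [Module P Y]
    [AddCommGroup W] [Module P W] : Prop :=
  ∃ β : W →ₗ[P] Y, (∀ i w, u i • β w = 0) ∧ (∀ w, β w = 0 → D • w = 0) ∧
    ∀ v : Y, (∀ i, u i • v = 0) → D • v ∈ LinearMap.range β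

/-- the dual of `PA.Gd` -/
structure DG [IsLocalRing P] (U : Filter ℕ) {ι : Type} [Fintype ι] (u : ℕ → ι → P) (D : ℕ → P)
    (Y : ℕ → Type) [∀ n, AddCommGroup (Y n)] [∀ n, Module P (Y n)]
    (W : Type) [AddCommGroup W] [Module P W] : Prop where
  dis : ∀ n, Dis P (Y n)
  dis0 : Dis P W
  sb : ∃ b, ∀ n, Sb P b (Y n)
  sb0 : ∃ b, Sb P b W
  soc : ∀ j : ℕ, ∀ᶠ n in U, DS (u n) j (Y n)
  fib : ∀ n, Fib (u n) (D n) (Y n) W

end disc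

/-- row DGEN: the dual of a discrete module with small socle has few generators -/
def DGEN : Prop := ∀ (P : Type) [CommRing P] [PA.Base P] (b : ℕ) (Y : Type) [AddCommGroup Y]
  [Module P Y], Dis P Y → Sb P b Y →
    ∃ p : (Fin b → P) →ₗ[P] CharacterModule Y, Function.Surjective p

/-- row DANN: double annihilators -/
def DANN : Prop := ∀ (P : Type) [CommRing P] [PA.Base P] (b : ℕ) (Y : Type) [AddCommGroup Y]
  [Module P Y], Dis P Y → Sb P b Y → ∀ (N : Submodule P (CharacterModule Y))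
    (φ : CharacterModule Y), (∀ w : Y, (∀ χ ∈ N, χ w = 0) → φ w = 0) → φ ∈ N

/-- row DTOR: a character kills the `I`-torsion iff it lies in `I` times the dual -/
def DTOR : Prop := ∀ (P : Type) [CommRing P] (ι : Type) [Fintype ι] (u : ι → P) (Y : Type)
  [AddCommGroup Y] [Module P Y] (φ : CharacterModule Y),
    φ ∈ PA.J1 u • (⊤ : Submodule P (CharacterModule Y)) ↔
      ∀ w : Y, (∀ i, u i • w = 0) → φ w = 0

/-- row DGD -/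
def DGD : Prop := ∀ (P : Type) [CommRing P] [PA.Base P] (U : Filter ℕ) (ι : Type) [Fintype ι]
  (u : ℕ → ι → P) (D : ℕ → P) (Y : ℕ → Type) [∀ n, AddCommGroup (Y n)] [∀ n, Module P (Y n)]
  (W : Type) [AddCommGroup W] [Module P W], DG U u D Y W →
    PA.Gd U u D (fun n => CharacterModule (Y n)) (CharacterModule W)

/-- row GRP: from group elements to boxes; `none` is the uniformiser -/
def GRP : Prop := ∀ (P : Type) [CommRing P] (ι : Type) [Fintype ι] (ϖ e : P), 2 = ϖ * e →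
  ∀ j : ℕ, ∃ n₀ : ℕ, ∀ n ≥ n₀, ∀ (u : ι → P) (Y : Type) [AddCommGroup Y] [Module P Y],
    (∀ w : Y, ϖ ^ (n + 1) • w = 0) → (∀ w : Y, ϖ • w = 0 → ∃ w' : Y, w = ϖ ^ n • w') →
    (∀ i (w : Y), (1 + u i) ^ 2 ^ n • w = w) →
    (∀ w : Y, ϖ • w = 0 → (∀ i, u i • w = 0) →
      ∃ w' : Y, ϖ • w' = 0 ∧ w = (∏ i, u i ^ (2 ^ n - 1)) • w') →
    DS (fun o : Option ι => o.elim ϖ u) j Y

/-- row COV: the cover by the roots of distinguished quadratic polynomials -/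
def COV : Prop := ∀ (O σ : Type) [CommRing O] [IsDomain O] [IsDiscreteValuationRing O] [Coef O]
  [Fintype σ] (r : ℕ) (a b : Fin r → PS O σ), (∀ i, ¬ IsUnit (a i) ∧ ¬ IsUnit (b i)) →
    letI : Algebra (PS O σ) (PS O (σ ⊕ Fin r)) := (io O σ r).toAlgebra
    PA.Cov (PS O σ) (PS O (σ ⊕ Fin r)) (y1 O σ) a b (Ideal.span (Set.range fun i =>
      y1 O σ i ^ 2 - io O σ r (a i) * y1 O σ i + io O σ r (b i)))

/-- row BASE -/
def BASE : Prop := ∀ (O σ : Type) [CommRing O] [IsDomain O] [IsDiscreteValuationRing O] [Coef O]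
  [Fintype σ], PA.Base (PS O σ)

/-- the data which do not depend on the modules; at an auxiliary prime the two diamond operators
are `d₁ = 1 + y1`, `d₂ = d₁ (1 + y2)` -/
structure CD (O σ ι L Wd : Type) [CommRing O] (r a : ℕ) where
  f : ι → PS O σ
  τl : L → Set (PS O σ)
  Dl : L → PS O σ
  m : Finset L → ℕ
  x : PS O (σ ⊕ Fin r) →+* O
  xv : Wd → O
  kill : ℕ → Wd → Prop
  c : ℕ
  y2 : ℕ → Fin r → PS O (σ ⊕ Fin r)
  w : ℕ → Fin a → PS O σ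
  tq : ℕ → Fin r → PS O σ
  dq : ℕ → Fin r → PS O σ
  D : ℕ → PS O σ

section
variable {O σ ι L Wd : Type} [CommRing O] {r a : ℕ}

/-- all the parameters -/
def CD.y (X : CD O σ ι L Wd r a) (n : ℕ) : Fin r ⊕ Fin r ⊕ Fin a → PS O (σ ⊕ Fin r) :=
  Sum.elim (y1 O σ) (Sum.elim (X.y2 n) fun j => io O σ r (X.w n j))

/-- the elements which kill all the modules of level `n` -/
def CD.rel (X : CD O σ ι L Wd r a) (n : ℕ) : Set (PS O (σ ⊕ Fin r)) :=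
  Set.range (fun j => io O σ r (X.f j)) ∪
    Set.range (fun i => io O σ r (X.tq n i) - (1 + y1 O σ i) * (2 + X.y2 n i)) ∪
    Set.range (fun i => io O σ r (X.dq n i) - (1 + y1 O σ i) ^ 2 * (1 + X.y2 n i))

/-- the conditions on the point -/
structure CD.Pt (X : CD O σ ι L Wd r a) (ϖ : O) : Prop where
  xC : ∀ o, X.x (MvPowerSeries.C o) = o
  xm : ∀ u, IsUnit (X.x u) → IsUnit u
  xy : ∀ n i, X.x (X.y n i) = 0
  xt : ∀ n i, X.x (io O σ r (X.tq n i)) = 2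
  xd : ∀ n i, X.x (io O σ r (X.dq n i)) = 1
  xD : ∃ v : ℕ, ∀ n, ¬ ϖ ^ v ∣ X.x (io O σ r (X.D n))

/-- the output of the local blocks -/
structure CD.Loc [Fintype L] (X : CD O σ ι L Wd r a) (ϖ : O) : Prop where
  inj : ∀ η η' : Ideal (PS O σ), η.IsPrime → η'.IsPrime → I0 ϖ X.f ≤ η → I0 ϖ X.f ≤ η' →
    ((2 * r + a + 2 : ℕ) : WithBot ℕ∞) ≤ ringKrullDim (PS O σ ⧸ η) →
    ((2 * r + a + 2 : ℕ) : WithBot ℕ∞) ≤ ringKrullDim (PS O σ ⧸ η') →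
    ty X.τl η = ty X.τl η' → η = η'
  len : ∀ (η : Ideal (PS O σ)) [η.IsPrime], I0 ϖ X.f ≤ η →
    ((2 * r + a + 2 : ℕ) : WithBot ℕ∞) ≤ ringKrullDim (PS O σ ⧸ η) →
    PA.ln η (PS O σ ⧸ I0 ϖ X.f) ≤ (X.m (ty X.τl η) : ℕ)
  tr : ∀ η : Ideal (PS O σ), η.IsPrime → I0 ϖ X.f ≤ η →
    ((2 * r + a + 2 : ℕ) : WithBot ℕ∞) ≤ ringKrullDim (PS O σ ⧸ η) →
    ∀ l, l ∉ ty X.τl η → X.Dl l ∉ η
  ch0 : ∃ 𝔮 η : Ideal (PS O σ), 𝔮.IsPrime ∧ η.IsPrime ∧ Ideal.span (Set.range X.f) ≤ 𝔮 ∧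
    𝔮 ≤ RingHom.ker (X.x.comp (io O σ r)) ∧ 𝔮 ⊔ Ideal.span {MvPowerSeries.C ϖ} ≤ η ∧
    ((2 * r + a + 2 : ℕ) : WithBot ℕ∞) ≤ ringKrullDim (PS O σ ⧸ η)

/-- the conclusion -/
def CD.Out (X : CD O σ ι L Wd r a) (ϖ : O) : Prop :=
  ∀ j : ℕ, ∃ j0 : ℕ, ∀ t, X.kill j0 t → ϖ ^ j ∣ X.xv t

end

/-- **patching data** in discrete form: `Yb i n` are the spaces of forms modulo `ϖ` of type `i`
and level `n`, `Y0 i` their fibres, `Wc n` the Whittaker part modulo `ϖ ^ (n + 1)` -/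
structure HD {O σ ι L Wd : Type} [CommRing O] [IsLocalRing O] [Fintype σ] [Fintype L] {r a : ℕ}
    (ϖ : O) (X : CD O σ ι L Wd r a) (I : Type) (Yb : I → ℕ → Type) (Y0 : I → Type)
    (Wc : ℕ → Type)
    [∀ i n, AddCommGroup (Yb i n)] [∀ i n, Module (PS O (σ ⊕ Fin r)) (Yb i n)]
    [∀ i, AddCommGroup (Y0 i)] [∀ i, Module (PS O (σ ⊕ Fin r)) (Y0 i)]
    [∀ n, AddCommGroup (Wc n)] [∀ n, Module (PS O (σ ⊕ Fin r)) (Wc n)] where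
  ses : I → I → I → Prop
  ig : I
  iJ : Finset L → I
  q : ∀ n, Yb ig n →ₗ[PS O (σ ⊕ Fin r)] Wc n
  comb : ∀ N : I → ℕ∞, (∀ i j k, ses i j k → N j = N i + N k) →
    ∀ J, (X.m J : ℕ∞) * N (iJ J) ≤ N ig
  ex : ∀ i j k, ses i j k → ∀ n, ∃ (f : Yb i n →ₗ[PS O (σ ⊕ Fin r)] Yb j n)
    (g : Yb j n →ₗ[PS O (σ ⊕ Fin r)] Yb k n),
      Function.Injective f ∧ Function.Exact f g ∧ Function.Surjective g
  dis : ∀ i n, Dis (PS O (σ ⊕ Fin r)) (Yb i n)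
  dis0 : ∀ i, Dis (PS O (σ ⊕ Fin r)) (Y0 i)
  disC : ∀ n, Dis (PS O (σ ⊕ Fin r)) (Wc n)
  sb : ∀ i, ∃ b, ∀ n, Sb (PS O (σ ⊕ Fin r)) b (Yb i n)
  sb0 : ∀ i, ∃ b, Sb (PS O (σ ⊕ Fin r)) b (Y0 i)
  pi : ∀ i n (w : Yb i n), (MvPowerSeries.C ϖ : PS O (σ ⊕ Fin r)) • w = 0
  pi0 : ∀ i (w : Y0 i), (MvPowerSeries.C ϖ : PS O (σ ⊕ Fin r)) • w = 0
  rel : ∀ i n, ∀ u ∈ X.rel n, ∀ w : Yb i n, u • w = 0
  relC : ∀ n, ∀ u ∈ X.rel n, ∀ w : Wc n, u • w = 0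
  nil : ∀ i n s (w : Yb i n), X.y n s ^ 2 ^ n • w = 0
  free : ∀ i n (w : Yb i n), (∀ s, X.y n s • w = 0) →
    ∃ w' : Yb i n, w = (∏ s, X.y n s ^ (2 ^ n - 1)) • w'
  fib : ∀ i n, Fib (X.y n) (io O σ r (X.D n) ^ X.c) (Yb i n) (Y0 i)
  qinj : ∀ n, Function.Injective (q n)
  qran : ∀ n w, w ∈ LinearMap.range (q n) ↔ (MvPowerSeries.C ϖ : PS O (σ ⊕ Fin r)) • w = 0
  piC : ∀ n (w : Wc n), (MvPowerSeries.C ϖ : PS O (σ ⊕ Fin r)) ^ (n + 1) • w = 0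
  flat : ∀ n (w : Wc n), (MvPowerSeries.C ϖ : PS O (σ ⊕ Fin r)) • w = 0 →
    ∃ w' : Wc n, w = (MvPowerSeries.C ϖ : PS O (σ ⊕ Fin r)) ^ n • w'
  grp : ∀ n s (w : Wc n), (1 + X.y n s) ^ 2 ^ n • w = w
  cyc : ∀ n, ∃ χ : CharacterModule (Wc n), ∀ w : Wc n,
    (∀ u : PS O (σ ⊕ Fin r), χ (u • w) = 0) → (∏ i, X.y2 n i) ^ X.c • w = 0
  unr : ∀ J l, l ∉ J → ∀ u ∈ X.τl l, ∀ n (w : Yb (iJ J) n), io O σ r u • w = 0
  new : ∀ J l, l ∈ J → ∀ n (w : Yb (iJ J) n), io O σ r (X.Dl l) ^ X.c • w = 0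
  big : ∀ J, (∀ l, (∃ u ∈ X.τl l, IsUnit u) → l ∈ J) →
    ∃ 𝔭 : Ideal (PS O (σ ⊕ Fin r)), 𝔭.IsPrime ∧
      (2 : WithBot ℕ∞) ≤ ringKrullDim (PS O (σ ⊕ Fin r) ⧸ 𝔭) ∧
      (∀ u : PS O (σ ⊕ Fin r), (∀ w : Y0 (iJ J), u • w = 0) → u ∈ 𝔭) ∧
      ∃ k : ℕ, ∀ n, io O σ r (X.D n) ∉ 𝔭 ⊔ maximalIdeal (PS O (σ ⊕ Fin r)) ^ k
  desc : ∀ t, ∀ᶠ n in atTop, ∃ u : PS O σ, X.x (io O σ r u) = X.xv t ∧ ∀ j ≤ n, X.kill j t →
    ∀ w : Wc n, (MvPowerSeries.C ϖ : PS O (σ ⊕ Fin r)) ^ j • w = 0 → (∀ s, X.y n s • w = 0) →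
      io O σ r (X.D n ^ X.c * u) • w = 0

/-- **block END** -/
def END : Prop :=
  ∀ (O σ ι L Wd : Type) [CommRing O] [IsDomain O] [IsDiscreteValuationRing O] [Coef O]
    [Fintype σ] [Fintype L] (r a : ℕ) (ϖ : O) (X : CD O σ ι L Wd r a) (I : Type)
    (Yb : I → ℕ → Type) (Y0 : I → Type) (Wc : ℕ → Type)
    [∀ i n, AddCommGroup (Yb i n)] [∀ i n, Module (PS O (σ ⊕ Fin r)) (Yb i n)]
    [∀ i, AddCommGroup (Y0 i)] [∀ i, Module (PS O (σ ⊕ Fin r)) (Y0 i)]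
    [∀ n, AddCommGroup (Wc n)] [∀ n, Module (PS O (σ ⊕ Fin r)) (Wc n)],
    Irreducible ϖ → X.Loc ϖ → X.Pt ϖ → HD ϖ X I Yb Y0 Wc → X.Out ϖ

end Vale.Agent.P022D.As
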