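import Vale.Agent.P022D.As.Defs2
import Vale.Agent.P022D.As.Box

/-!
# P022D, assembly: the rows of block L2 (statements)
-/

set_option linter.all false

open IsLocalRing Filter NumberField

noncomputable section

namespace Vale.Agent.P022D.As

open Vale.Agent.P022 Vale.Agent.P022D.R
open Vale.Agent.P022D.Core (io y1 Coef)
open Vale.Agent.P027M.S (Inert mx)
open Vale.Agent.P022D.Sel (M2 Sc Tan)
open Vale.Agent.P022D.Loc (Pl Ix Kil)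

/-- the group ring of the group of frames -/
abbrev Bx (O : Type) [CommRing O] (a n : ℕ) : Type := GR (Tg O) PUnit (Gp (Fin a) n)

/-- the variables `y1` are sent to zero -/
def pr (O σ : Type) [CommRing O] (r : ℕ) : Core.PS O (σ ⊕ Fin r) →+* Core.PS O σ :=
  (MvPowerSeries.killCompl (R := O) (Function.Embedding.inl : σ ↪ σ ⊕ Fin r)).toRingHom

section
variable {O F : Type} [CommRing O] [IsLocalRing O] [Field F]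

/-- the canonical object without frames over a quotient of `Tg O` -/
structure Can {S : Dat O F} (a : Ideal (Tg O)) (X : Obj S (Tg O ⧸ a)) : Prop where
  io : ∀ c, X.ι c = Ideal.Quotient.mk a (cc c)
  tr : ∀ g, (X.ρ g).trace = Ideal.Quotient.mk a (tt g)
  det : ∀ g, (X.ρ g).det = Ideal.Quotient.mk a (dd g)
  al : ∀ l, X.α l = 1
  y : ∀ i, X.π (Ideal.Quotient.mk a (yy i)) = 0
  one : ∀ s, (∀ g, tt (g * s) - tt g ∈ a) → X.ρ s = 1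

variable (ϖ : O) (S : Dat O F) (L : Pl O) {σ β : Type} {τ ι : β → Type}
  (D : Rl.Dat O σ β L.C τ ι)

/-- the action of the power series ring at the base level -/
structure Sy0 where
  R : Ideal (Tg O) → Subring (Core.PS O σ × Tg O)
  μ : Tg O →+* Core.PS O σ
  x : Core.PS O σ →+* O
  ρ : GQ → M2 (Core.PS O σ)
  sur : ∀ a ∈ Gi ϖ L S.T ∅ 0, ∀ f, ∃ t, (f, t) ∈ R a
  ker : ∀ a ∈ Gi ϖ L S.T ∅ 0, ∀ t, (0, t) ∈ R a ↔ t ∈ a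
  mono : ∀ a ∈ Gi ϖ L S.T ∅ 0, ∀ b ∈ Gi ϖ L S.T ∅ 0, a ≤ b → R a ≤ R b
  mu : ∀ a ∈ Gi ϖ L S.T ∅ 0, ∀ t, (μ t, t) ∈ R a
  muC : ∀ o, μ (cc o) = MvPowerSeries.C o
  dis : ∀ a ∈ Gi ϖ L S.T ∅ 0, ∃ k : ℕ, ∀ f ∈ maximalIdeal (Core.PS O σ) ^ k, (f, 0) ∈ R a
  res : ∀ a ∈ Gi ϖ L S.T ∅ 0, ∀ f t, (f, t) ∈ R a →
    (f ∈ maximalIdeal (Core.PS O σ) ↔ t ∈ mT L.r)
  eqs : ∀ a ∈ Gi ϖ L S.T ∅ 0, ∀ f ∈ D.I, (f, 0) ∈ R a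
  pt : ∀ k f t, (f, t) ∈ R (pk ϖ L.r k) → ϖ ^ (k + 1) ∣ x f - ev0 L.r t
  rep : ∀ a ∈ Gi ϖ L S.T ∅ 0, ∃ X : Obj S (Tg O ⧸ a), Can a X ∧ ∀ g i j t,
    Ideal.Quotient.mk a t = X.ρ g i j → (ρ g i j, t) ∈ R a

variable {ϖ S L D}

/-- the correspondences come from the family `Φ` -/
def Sy0.Of {υ : Type} {g : ℕ} {D : Rl.Dat O (υ ⊕ Fin g) β L.C τ ι} (Y : Sy0 ϖ S L D)
    (Φ : Fam S υ g) : Prop :=
  ∀ a ∈ Gi ϖ L S.T ∅ 0, ∀ X : Obj S (Tg O ⧸ a), Can a X →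
    ∀ f t, (f, t) ∈ Y.R a ↔ Φ _ X f = Ideal.Quotient.mk a t

/-- the action of the power series ring at the level `Q`, with frames -/
structure Sy1 (Y : Sy0 ϖ S L D) (Q : Finset ℕ) (r a n : ℕ) where
  R : Ideal (Tg O) → Subring (Core.PS O (σ ⊕ Fin r) × Bx O a n)
  lam : Tg O →+* Core.PS O (σ ⊕ Fin r)
  w : Fin a → Core.PS O σ
  lamC : ∀ o, lam (cc o) = MvPowerSeries.C o
  lamt : ∀ g, io O σ r (pr O σ r (lam (tt g))) = lam (tt g)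
  lamd : ∀ g, io O σ r (pr O σ r (lam (dd g))) = lam (dd g)
  lamy : ∀ i : Fin r, lam (yy i) = y1 O σ i
  sur : ∀ b ∈ Gi ϖ L S.T Q r, ∀ f, ∃ t, (f, t) ∈ R b
  ker : ∀ b ∈ Gi ϖ L S.T Q r, ∀ t, (0, t) ∈ R b → t ∈ b.map (inc _ _ _)
  mono : ∀ b ∈ Gi ϖ L S.T Q r, ∀ b' ∈ Gi ϖ L S.T Q r, b ≤ b' → R b ≤ R b'
  la : ∀ b ∈ Gi ϖ L S.T Q r, ∀ t, (lam t, inc _ _ _ t) ∈ R b
  fr : ∀ b ∈ Gi ϖ L S.T Q r, ∀ j, (1 + io O σ r (w j), og _ (1, ge n j)) ∈ R b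
  dis : ∀ b ∈ Gi ϖ L S.T Q r, ∃ k : ℕ, ∀ f ∈ maximalIdeal (Core.PS O (σ ⊕ Fin r)) ^ k,
    (f, 0) ∈ R b
  res : ∀ b ∈ Gi ϖ L S.T Q r, ∀ f t, (f, t) ∈ R b →
    (f ∈ maximalIdeal (Core.PS O (σ ⊕ Fin r)) ↔ aug _ _ _ t ∈ mT L.r)
  eqs : ∀ b ∈ Gi ϖ L S.T Q r, ∀ f ∈ D.I, (io O σ r f, 0) ∈ R b
  unr : ∀ b ∈ Gi ϖ L S.T Q r, ∀ l : L.C, (∀ g, tt (g * L.τ l) - tt g ∈ b) → ∀ u ∈ D.tl l,
    (io O σ r u, 0) ∈ R b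
  trc : ∀ b ∈ Gi ϖ L S.T Q r, ∀ l : L.C,
    (io O σ r (D.Φ l).trace, inc _ _ _ (tt (L.φ l))) ∈ R b
  base : ∀ b ∈ Gi ϖ L S.T ∅ 0, ∀ f t, (f, t) ∈ R b → (pr O σ r f, aug _ _ _ t) ∈ Y.R b

/-- the two actions on a base module are compatible -/
def Sy0.Cp (Y : Sy0 ϖ S L D) (V : Type) [AddCommGroup V] [Module (Tg O) V]
    [Module (Core.PS O σ) V] : Prop := Cmp (Y.R '' Gi ϖ L S.T ∅ 0) V

/-- the data of `As.END` -/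
def mkCD {r a : ℕ} (Y : Sy0 ϖ S L D) (q : ℕ → Fin r → ℕ) (τq φq : ℕ → Fin r → GQ) (c : ℕ)
    (Z : ∀ n, Sy1 Y (Finset.univ.image (q n)) r a n) (W0 : Type) [AddCommGroup W0]
    [Module (Core.PS O σ) W0] :
    CD O σ ((Σ b, ι b) ⊕ (L.C × Fin 2 × Fin 2) ⊕ L.C) L.C (Core.PS O σ) r a where
  f := D.fam
  τl := D.tl
  Dl l := (D.Φ l).trace
  m := D.mm
  x := Y.x.comp (pr O σ r)
  xv := Y.x
  kill j t := ∀ w : W0, (MvPowerSeries.C ϖ : Core.PS O σ) ^ j • w = 0 → t • w = 0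
  c := c
  y2 n i := (Z n).lam (ee n (τq n) i) - 1
  w n := (Z n).w
  tq n i := pr O σ r ((Z n).lam (tt (τq n i)))
  dq n i := pr O σ r ((Z n).lam (dd (τq n i)))
  D n := pr O σ r ((Z n).lam (Dq (q n) (φq n)))

end

/-- row GI: the good ideals -/
def GI : Prop := ∀ (O F : Type) [CommRing O] [IsDomain O] [IsDiscreteValuationRing O] [Coef O]
  [Field F] (ϖ : O) (S : Dat O F) (L : Pl O), Irreducible ϖ → Fx S L →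
  (∀ Q r, ∀ a ∈ Gi ϖ L S.T Q r, ∀ b ∈ Gi ϖ L S.T Q r, a ⊓ b ∈ Gi ϖ L S.T Q r) ∧
  (∀ Q r a b, Gw ϖ L S.T Q r a → a ≤ b → Gw ϖ L S.T Q r b) ∧
  (∀ Q r, Gi ϖ L S.T ∅ 0 ⊆ Gi ϖ L S.T Q r) ∧ (∀ k, pk ϖ L.r k ∈ Gi ϖ L S.T ∅ 0) ∧
  ∀ Q r, ∀ a ∈ Gi ϖ L S.T Q r, a ≤ mT L.r ∧ ∃ k : ℕ, mT L.r ^ k ≤ a

/-- row OBJ: existence of the canonical objects -/
def OBJ : Prop := ∀ (O F : Type) [CommRing O] [IsDomain O] [IsDiscreteValuationRing O] [Coef O]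
  [Field F] [CharP F 2] (ϖ : O) (S : Dat O F) (L : Pl O), Irreducible ϖ → Fx S L →
  ∀ Q r, ∀ a ∈ Gi ϖ L S.T Q r, ∃ X : Obj S (Tg O ⧸ a), Can a X

/-- row MAP: morphisms of canonical objects, and their class -/
def MAP : Prop := ∀ (O F : Type) [CommRing O] [IsLocalRing O] [Field F] [CharP F 2] (ϖ : O)
  (S : Dat O F) (L : Pl O), Fx S L →
  (∀ (a b : Ideal (Tg O)) (h : a ≤ b) (X : Obj S (Tg O ⧸ a)) (Y : Obj S (Tg O ⧸ b)), Can a X →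
    Can b Y → Hom X Y (Ideal.Quotient.factor h)) ∧
  ∀ Q r a (X : Obj S (Tg O ⧸ a)), Gw ϖ L S.T Q r a → Can a X → Ty (L.Cl S) Q _ X

/-- the local equations hold for the objects of the class -/
def Kl {O F : Type} [CommRing O] [Field F] (S : Dat O F) (L : Pl O) {β : Type} {τ ι : β → Type}
    (κ : Crd S (Ix τ L)) {g : ℕ} (D : Rl.Dat O (Ix τ L ⊕ Fin g) β L.C τ ι) : Prop :=
  ∀ (A : Type) [CommRing A] (X : Obj S A), L.Cl S A X → ∀ ψ : PS O (Ix τ L) g →+* A,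
    (∀ o, ψ (MvPowerSeries.C o) = X.ι o) →
    (∀ i, ψ (MvPowerSeries.X (Sum.inl i)) = κ A X i) → Kil L D X ψ

/-- row SY0 -/
def SY0 : Prop := ∀ (O F : Type) [CommRing O] [IsDomain O] [IsDiscreteValuationRing O] [Coef O]
  [Field F] [CharP F 2] (ϖ : O) (S : Dat O F) (L : Pl O) (β : Type) (τ ι : β → Type) [Fintype β]
  [∀ b, Fintype (τ b)] (κ : Crd S (Ix τ L)) (g : ℕ) (D : Rl.Dat O (Ix τ L ⊕ Fin g) β L.C τ ι)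
  (Φ₀ : Fam S (Ix τ L) g), Irreducible ϖ → Fx S L → Kl S L κ D →
  Univ (Ty (L.Cl S) ∅) κ Φ₀ → ∃ Y : Sy0 ϖ S L D, Y.Of Φ₀

/-- row SY1 -/
def SY1 : Prop := ∀ (O F : Type) [CommRing O] [IsDomain O] [IsDiscreteValuationRing O] [Coef O]
  [Field F] [CharP F 2] (ϖ : O) (S : Dat O F) (L : Pl O) (β : Type) (τ ι : β → Type) [Fintype β]
  [∀ b, Fintype (τ b)] (κ : Crd S (Ix τ L)) (g : ℕ) (D : Rl.Dat O (Ix τ L ⊕ Fin g) β L.C τ ι)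
  (Φ₀ Φ : Fam S (Ix τ L) g) (Y : Sy0 ϖ S L D) (Q : Finset ℕ) (r a n : ℕ), Irreducible ϖ →
  Fx S L → Kl S L κ D → Y.Of Φ₀ → Univ (Ty (L.Cl S) Q) κ Φ →
  (∀ (A : Type) [CommRing A] (X : Obj S A), Ty (L.Cl S) ∅ A X → Φ A X = Φ₀ A X) →
  a + 1 = 4 * S.T.card → Nonempty (Sy1 Y Q r a n)

/-- row TRF: from the modules over `Tg O` to the hypotheses of `END` -/
def TRF : Prop := ∀ (O F : Type) [CommRing O] [IsDomain O] [IsDiscreteValuationRing O] [Coef O]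
  [Field F] (ϖ : O) (S : Dat O F) (L : Pl O) (σ β : Type) (τ ι : β → Type) [Fintype σ]
  (D : Rl.Dat O σ β L.C τ ι) (I : Type) (Y0 : I → Type) (W0 : Type)
  [∀ i, AddCommGroup (Y0 i)] [∀ i, Module (Tg O) (Y0 i)] [AddCommGroup W0] [Module (Tg O) W0]
  [∀ i, Module (Core.PS O σ) (Y0 i)] [Module (Core.PS O σ) W0]
  (ses : I → I → I → Prop) (ig : I) (iJ : Finset L.C → I) (r a : ℕ) (b : I → ℕ) (c : ℕ)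
  (q : ℕ → Fin r → ℕ) (τq φq : ℕ → Fin r → GQ) (Yb : ℕ → I → Type) (Wc : ℕ → Type)
  [∀ n i, AddCommGroup (Yb n i)] [∀ n i, Module (Tg O) (Yb n i)] [∀ n, AddCommGroup (Wc n)]
  [∀ n, Module (Tg O) (Wc n)] (Y : Sy0 ϖ S L D)
  (Z : ∀ n, Sy1 Y (Finset.univ.image (q n)) r a n), Irreducible ϖ → Fx S L →
  (∀ i, Y.Cp (Y0 i)) → Y.Cp W0 → (∀ i, Gm ϖ L S.T ∅ 0 (Y0 i)) → Gm ϖ L S.T ∅ 0 W0 →
  (∀ i (w : Y0 i), cc ϖ • w = 0) → (∀ i, ∃ b, Sb2 (mT L.r) b (Y0 i)) →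
  (∀ N : I → ℕ∞, (∀ i j k, ses i j k → N j = N i + N k) →
    ∀ J, (D.mm J : ℕ∞) * N (iJ J) ≤ N ig) →
  (∀ n, Lv2 ϖ S L Y0 W0 ses ig iJ b c n (q n) (τq n) (φq n) (Yb n) (Wc n)) →
  (∀ J : Finset L.C, (∀ l, (∃ u ∈ D.tl l, IsUnit u) → l ∈ J) →
    ∃ 𝔭 : Ideal (Core.PS O σ), 𝔭.IsPrime ∧ (2 : WithBot ℕ∞) ≤ ringKrullDim (Core.PS O σ ⧸ 𝔭) ∧
      Module.annihilator (Core.PS O σ) (Y0 (iJ J)) ≤ 𝔭 ∧
      ∃ k : ℕ, ∀ n, (mkCD Y q τq φq c Z W0).D n ∉ 𝔭 ⊔ maximalIdeal (Core.PS O σ) ^ k) →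
  (mkCD Y q τq φq c Z W0).Loc ϖ → (mkCD Y q τq φq c Z W0).Pt ϖ →
  (mkCD Y q τq φq c Z W0).Out ϖ

/-- row OUT: the finite form of the conclusion -/
def OUT : Prop := ∀ (O F : Type) [CommRing O] [IsDomain O] [IsDiscreteValuationRing O] [Coef O]
  [Field F] (ϖ : O) (S : Dat O F) (L : Pl O) (σ β : Type) (τ ι : β → Type) [Fintype σ]
  (D : Rl.Dat O σ β L.C τ ι) (W0 : Type) [AddCommGroup W0] [Module (Tg O) W0]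
  [Module (Core.PS O σ) W0] (Y : Sy0 ϖ S L D), Irreducible ϖ → Fx S L → Y.Cp W0 →
  Gm ϖ L S.T ∅ 0 W0 →
  (∀ j : ℕ, ∃ j0 : ℕ, ∀ t : Core.PS O σ,
    (∀ w : W0, (MvPowerSeries.C ϖ : Core.PS O σ) ^ j0 • w = 0 → t • w = 0) → ϖ ^ j ∣ Y.x t) →
  Out2 ϖ L W0

/-- row TW: the choice of the auxiliary primes -/
def TW : Prop := ∀ (O F : Type) [CommRing O] [IsDomain O] [IsDiscreteValuationRing O] [Coef O]
  [Field F] [Finite F] [CharP F 2] (ϖ : O) (S : Dat O F) (L : Pl O), Irreducible ϖ → Fx S L →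
  (∀ l ∈ S.T, Sel.IsDec l (L.D l)) → ∃ r : ℕ, Tan S.rb S.T ∅ L.D (2 * r + 5) ∧
  ∀ (σ β : Type) (τ ι : β → Type) [Fintype σ] (D : Rl.Dat O σ β L.C τ ι) (Y : Sy0 ϖ S L D)
    (Ps : Set (Ideal (Core.PS O σ))), Ps.Finite →
    (∀ 𝔭 ∈ Ps, 𝔭.IsPrime ∧ (2 : WithBot ℕ∞) ≤ ringKrullDim (Core.PS O σ ⧸ 𝔭) ∧
      MvPowerSeries.C ϖ ∈ 𝔭 ∧ (∀ f, (∀ a ∈ Gi ϖ L S.T ∅ 0, (f, 0) ∈ Y.R a) → f ∈ 𝔭) ∧
      ∀ g, ∃ n : ℕ, 0 < n ∧ Y.μ (dd g) ^ n - 1 ∈ 𝔭) →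
    ∃ v k : ℕ, ∀ (n : ℕ) (A : Finset ℕ), ∃ q : Fin r → ℕ, Function.Injective q ∧
      Tan S.rb S.T (Finset.univ.image q) L.D (2 * r + 5) ∧ (∀ i, Aq S.rb (A ∪ S.T) n (q i)) ∧
      ∀ φ : Fin r → GQ, (∀ i, IsFrob (q i) (φ i)) → ∀ f : Core.PS O σ,
        (∀ a ∈ Gi ϖ L S.T ∅ 0, (f, Dq q φ) ∈ Y.R a) →
        ¬ ϖ ^ v ∣ Y.x f ∧ ∀ 𝔭 ∈ Ps, f ∉ 𝔭 ⊔ maximalIdeal (Core.PS O σ) ^ k

end Vale.Agent.P022D.As
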