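import Vale.Agent.P022D.As.Defs

/-!
# P022D, assembly: row DGD (the dual of a discrete patching datum)
-/

set_option linter.all false

open IsLocalRing Filter

noncomputable section

namespace Vale.Agent.P022D.As

/-- a character which kills the kernel of `β` comes from the target of `β` -/
theorem mem_range_dual {P : Type} [CommRing P] {Y W : Type} [AddCommGroup Y] [Module P Y]
    [AddCommGroup W] [Module P W] (β : W →ₗ[P] Y) (g : CharacterModule W)
    (hg : ∀ w, β w = 0 → g w = 0) : g ∈ LinearMap.range (CharacterModule.dual β) := by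
  let g' : CharacterModule (W ⧸ LinearMap.ker β) :=
    QuotientAddGroup.lift (LinearMap.ker β).toAddSubgroup (g : W →+ AddCircle (1 : ℚ))
      (fun w hw => hg w hw)
  have hi : Function.Injective ((LinearMap.ker β).liftQ β le_rfl) := by
    rw [← LinearMap.ker_eq_bot]
    exact Submodule.ker_liftQ_eq_bot _ _ _ le_rfl
  obtain ⟨φ, hφ⟩ := CharacterModule.dual_surjective_of_injective _ hi g'
  refine ⟨φ, ?_⟩
  ext w
  have h := DFunLike.congr_fun hφ (Submodule.Quotient.mk w)
  exact h

theorem soc_of_ds (hT : DTOR) {P : Type} [CommRing P] {ι : Type} [Fintype ι] (u : ι → P) (j : ℕ)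
    (Y : Type) [AddCommGroup Y] [Module P Y] (h : DS u j Y) :
    PA.Soc u j (CharacterModule Y) := by
  intro φ hφ
  rw [hT P ι u Y φ]
  intro w hw
  obtain ⟨w', hw', rfl⟩ := h w hw
  exact (hT P ι (fun i => u i ^ (j + 1)) Y ((∏ i, u i) ^ j • φ)).1 hφ w' hw'

theorem fib_dual (hT : DTOR) {P : Type} [CommRing P] {ι : Type} [Fintype ι] (u : ι → P) (D : P)
    (Y W : Type) [AddCommGroup Y] [Module P Y] [AddCommGroup W] [Module P W]
    (h : Fib u D Y W) :
    ∃ β : CharacterModule Y →ₗ[P] CharacterModule W, (∀ i x, β (u i • x) = 0) ∧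
      (∀ x, β x = 0 → D • x ∈ PA.J1 u • (⊤ : Submodule P (CharacterModule Y))) ∧
      ∀ g : CharacterModule W, D • g ∈ LinearMap.range β := by
  obtain ⟨β, h1, h2, h3⟩ := h
  refine ⟨CharacterModule.dual β, ?_, ?_, ?_⟩
  · intro i x
    ext w
    change x (u i • β w) = 0
    rw [h1, map_zero]
  · intro x hx
    rw [hT P ι u Y]
    intro v hv
    obtain ⟨w, hw⟩ := h3 v hv
    change x (D • v) = 0
    rw [← hw]
    exact DFunLike.congr_fun hx w
  · intro g
    refine mem_range_dual β _ fun w hw => ?_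
    change g (D • w) = 0
    rw [h2 w hw, map_zero]

/-- row DGD -/
theorem dgd (hG : DGEN) (hT : DTOR) : DGD := by
  intro P _ _ U ι _ u D Y _ _ W _ _ h
  refine ⟨?_, ?_, fun j => (h.soc j).mono fun n hn => soc_of_ds hT _ j _ hn,
    fun n => fib_dual hT _ _ _ _ (h.fib n)⟩
  · obtain ⟨b, hb⟩ := h.sb
    exact ⟨b, fun n => hG P b (Y n) (h.dis n) (hb n)⟩
  · obtain ⟨b, hb⟩ := h.sb0
    obtain ⟨p, hp⟩ := hG P b W h.dis0 hb
    exact Module.Finite.of_surjective p hp

end Vale.Agent.P022D.As
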