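import Vale.Agent.P022D.As.Defs
import Vale.Agent.P022D.Du.Gen

/-!
P022D, assembly: the rows on duals of discrete modules.
-/

noncomputable section

namespace Vale.Agent.P022D.As

open IsLocalRing

theorem dtor : DTOR := fun _ _ _ _ u _ _ _ φ =>
  ⟨fun h _ hw => Du.apply_eq_zero h (Du.span_kill hw), Du.mem_smul_top u φ⟩

theorem dgen : DGEN := by
  intro P _ _ b Y _ _ hY hb
  obtain ⟨s, hs, h⟩ := hb
  have hF : Finite (ResidueField P) := PA.Base.fin (P := P)
  have h1 := Du.card_of_span s hs h
  have := h1.1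
  exact Du.gen_of_card hY h1.2

theorem dann : DANN := by
  intro P _ _ b Y _ _ hY hb N φ hφ
  obtain ⟨s, hs, h⟩ := hb
  have hF : Finite (ResidueField P) := PA.Base.fin (P := P)
  have := (Du.card_of_span s hs h).1
  exact Du.mem_of_perp hY N φ hφ

end Vale.Agent.P022D.As
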