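import Vale.Agent.P022D.As.EndA

/-!
# P022D, assembly: the end game
-/

set_option linter.all false

open IsLocalRing Filter

noncomputable section

namespace Vale.Agent.P022D.As

open Vale.Agent.P022D.PA Vale.Agent.P022D.As.EA
open Vale.Agent.P022D.Core (PS io y1 Coef ty I0)

namespace EB

section gen

variable {P : Type} [CommRing P]

theorem dk {Y : Type} [AddCommGroup Y] [Module P Y] {u : P} (h : ∀ w : Y, u • w = 0)
    (φ : CharacterModule Y) : u • φ = 0 := by
  ext w
  rw [CharacterModule.smul_apply, h, map_zero]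
  rfl

theorem dex {A B C : Type} [AddCommGroup A] [Module P A] [AddCommGroup B] [Module P B]
    [AddCommGroup C] [Module P C] {f : A →ₗ[P] B} {g : B →ₗ[P] C} (h : Function.Exact f g)
    (hg : Function.Surjective g) :
    Function.Exact (CharacterModule.dual g) (CharacterModule.dual f) := by
  intro φ
  constructor
  · intro h0
    let φ' : B →+ AddCircle (1 : ℚ) := φ
    have hk : g.toAddMonoidHom.ker ≤ φ'.ker := fun b hb => by
      obtain ⟨a, rfl⟩ := (h b).1 hb
      exact DFunLike.congr_fun h0 a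
    refine ⟨g.toAddMonoidHom.liftOfRightInverse (Function.surjInv hg)
      (Function.rightInverse_surjInv hg) ⟨φ', hk⟩, ?_⟩
    ext b
    exact g.toAddMonoidHom.liftOfRightInverse_comp_apply _
      (Function.rightInverse_surjInv hg) ⟨φ', hk⟩ b
  · rintro ⟨ψ, rfl⟩
    ext a
    change ψ (g (f a)) = 0
    rw [h.apply_apply_eq_zero, map_zero]

theorem kl {ι : Type} [Fintype ι] (u : ι → P) {Y : Type} [AddCommGroup Y] [Module P Y]
    {N j k : ℕ} (h : ∀ s (w : Y), u s ^ N • w = 0) (hN : N ≤ j + k) (s : ι) (w : Y) :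
    u s ^ j • (∏ i, u i ^ k) • w = 0 := by
  classical
  obtain ⟨e, he⟩ := Nat.exists_eq_add_of_le hN
  rw [← Finset.mul_prod_erase _ _ (Finset.mem_univ s), smul_smul, ← mul_assoc, ← pow_add, he,
    pow_add, mul_assoc, mul_smul, h]

theorem ds_of {ι : Type} [Fintype ι] (u : ι → P) {Y : Type} [AddCommGroup Y] [Module P Y]
    {N j : ℕ} (hj : j + 1 ≤ N) (h : ∀ s (w : Y), u s ^ N • w = 0)
    (h' : ∀ w : Y, (∀ s, u s • w = 0) → ∃ w' : Y, w = (∏ s, u s ^ (N - 1)) • w') : DS u j Y := by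
  intro w hw
  obtain ⟨w', rfl⟩ := h' w hw
  refine ⟨(∏ s, u s ^ (N - 1 - j)) • w', fun i => kl u h (by omega) i w', ?_⟩
  rw [smul_smul, ← Finset.prod_pow, ← Finset.prod_mul_distrib]
  congr 2
  funext s
  rw [← pow_add]
  congr 1
  omega

end gen

theorem io_C (O σ : Type) [CommRing O] (r : ℕ) (o : O) :
    io O σ r (MvPowerSeries.C o) = MvPowerSeries.C o :=
  MvPowerSeries.rename_C _ o

theorem io_unit {O σ : Type} [CommRing O] {r : ℕ} {a : PS O σ} (h : IsUnit (io O σ r a)) :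
    IsUnit a := by
  rw [MvPowerSeries.isUnit_iff_constantCoeff] at h ⊢
  have e : MvPowerSeries.constantCoeff (io O σ r a) = MvPowerSeries.constantCoeff a :=
    MvPowerSeries.constantCoeff_rename _ a
  rwa [e] at h

end EB

open EB

theorem endA (hT : DTOR) (hA : DANN) (hG : DGD) (hR : GRP) (hV : COV) (hB : BASE) : END := by
  intro O σ ι L Wd _ _ _ _ _ _ r a ϖ X I Yb Y0 Wc _ _ _ _ _ _ hϖ hL hP H
  classical
  haveI := hB O σ
  haveI := hB O (σ ⊕ Fin r)
  letI : Algebra (PS O σ) (PS O (σ ⊕ Fin r)) := (io O σ r).toAlgebra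
  have alg : ∀ z, algebraMap (PS O σ) (PS O (σ ⊕ Fin r)) z = io O σ r z := fun _ => rfl
  let U : Ultrafilter ℕ := Ultrafilter.of atTop
  have hU : (U : Filter ℕ) ≤ atTop := Ultrafilter.of_le _
  have hio : ∀ z ∈ maximalIdeal (PS O σ), io O σ r z ∈ maximalIdeal (PS O (σ ⊕ Fin r)) :=
    fun z hz h => hz (io_unit h)
  have hx : ∀ z ∈ maximalIdeal (PS O (σ ⊕ Fin r)), X.x z ∈ maximalIdeal O :=
    fun z hz h => hz (hP.xm z h)
  have nu : ∀ z, X.x z = 0 → z ∈ maximalIdeal (PS O (σ ⊕ Fin r)) := fun z hz h => by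
    have := h.map X.x
    rw [hz] at this
    exact not_isUnit_zero this
  have hϖm : (MvPowerSeries.C ϖ : PS O (σ ⊕ Fin r)) ∈ maximalIdeal _ := fun h => by
    have := h.map X.x
    rw [hP.xC] at this
    exact hϖ.not_isUnit this
  choose ya hya using fun s => lim _ U fun n => X.y n s
  choose ta hta using fun i => lim _ U fun n => X.tq n i
  choose da hda using fun i => lim _ U fun n => X.dq n i
  obtain ⟨d0, hd0⟩ := lim _ U fun n => io O σ r (X.D n)
  have hD := cv_pow hd0 X.c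
  have ev : ∀ j : ℕ, ∀ᶠ n in (U : Filter ℕ), j + 1 ≤ 2 ^ n := fun j =>
    hU ((eventually_ge_atTop j).mono fun n hn =>
      Nat.succ_le_of_lt (lt_of_le_of_lt hn Nat.lt_two_pow_self))
  have hM := fun i => hG _ (U : Filter ℕ) _ X.y (fun n => io O σ r (X.D n) ^ X.c) (Yb i) (Y0 i)
    ⟨H.dis i, H.dis0 i, H.sb i, H.sb0 i,
      fun j => (ev j).mono fun n hn => ds_of _ hn (H.nil i n) (H.free i n), H.fib i⟩
  obtain ⟨b, hb⟩ := H.sb H.ig
  have hbC : ∀ n, Sb (PS O (σ ⊕ Fin r)) b (Wc n) := fun n => by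
    obtain ⟨s, s1, s2⟩ := hb n
    refine ⟨fun j => H.q n (s j), fun j u hu => by rw [← map_smul, s1 j u hu, map_zero],
      fun w hw => ?_⟩
    obtain ⟨v, rfl⟩ := (H.qran n w).2 (hw _ hϖm)
    have := Submodule.mem_map_of_mem (f := H.q n)
      (s2 v fun u hu => H.qinj n (by rw [map_smul, hw u hu, map_zero]))
    rwa [Submodule.map_span, ← Set.range_comp] at this
  obtain ⟨e2, he2⟩ : ϖ ∣ 2 := by
    rw [← Ideal.mem_span_singleton, ← hϖ.maximalIdeal_eq]
    exact Coef.two
  have hC := hG _ (U : Filter ℕ) _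
    (fun n (o : Option (Fin r ⊕ Fin r ⊕ Fin a)) => o.elim (MvPowerSeries.C ϖ) (X.y n))
    (fun n => io O σ r (X.D n) ^ X.c) Wc (Y0 H.ig)
    ⟨H.disC, H.dis0 _, ⟨b, hbC⟩, H.sb0 _, fun j => by
      obtain ⟨n₀, hn₀⟩ := hR (PS O (σ ⊕ Fin r)) (Fin r ⊕ Fin r ⊕ Fin a) (MvPowerSeries.C ϖ)
        (MvPowerSeries.C e2) (by rw [← map_mul, ← he2, map_ofNat]) j
      refine hU ((eventually_ge_atTop n₀).mono fun n hn => hn₀ n hn (X.y n) (Wc n) (H.piC n)
        (H.flat n) (H.grp n) fun w h1 h2 => ?_)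
      obtain ⟨v, rfl⟩ := (H.qran n w).2 h1
      obtain ⟨v', rfl⟩ := H.free _ n v fun s => H.qinj n (by rw [map_smul, h2, map_zero])
      exact ⟨H.q n v', by rw [← map_smul, H.pi, map_zero], map_smul _ _ _⟩, fun n => by
      obtain ⟨β, b1, b2, b3⟩ := H.fib H.ig n
      refine ⟨(H.q n).comp β, fun o w => ?_, fun w hw => b2 w (H.qinj n ?_), fun w hw => ?_⟩
      · rw [LinearMap.comp_apply, ← map_smul]
        cases o with
        | none => exact (congrArg _ (H.pi _ n _)).trans (map_zero _)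
        | some s => exact (congrArg _ (b1 s w)).trans (map_zero _)
      · rw [map_zero]; exact hw
      · obtain ⟨v, rfl⟩ := (H.qran n w).2 (hw none)
        obtain ⟨z, hz⟩ := b3 v fun s => H.qinj n (by rw [map_smul, map_zero]; exact hw (some s))
        exact ⟨z, by rw [LinearMap.comp_apply, hz, map_smul]⟩⟩
  have hker : ∀ (z : ℕ → PS O σ) (l : PS O σ), Cv (U : Filter ℕ) z l →
      (∀ n, X.x (io O σ r (z n)) = 0) → X.x (io O σ r l) = 0 := fun z l h h0 =>
    (limi _ U _ _ (RingHom.ker X.x) (cv_map _ hio h)).1 (Eventually.of_forall h0)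
  have cα := fun i => cv_sub (hta i) (cv_const (2 : PS O σ))
  have cβ := fun i => cv_add (cv_sub (hda i) (hta i)) (cv_const (1 : PS O σ))
  have xα : ∀ i, X.x (io O σ r (ta i - 2)) = 0 := fun i => hker _ _ (cα i) fun n => by
    rw [map_sub, map_sub, hP.xt, map_ofNat, map_ofNat, sub_self]
  have xβ : ∀ i, X.x (io O σ r (da i - ta i + 1)) = 0 := fun i => hker _ _ (cβ i) fun n => by
    rw [map_add, map_sub, map_add, map_sub, hP.xt, hP.xd, map_one, map_one]; norm_num
  have hc := hV O σ r (fun i => ta i - 2) (fun i => da i - ta i + 1) fun i =>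
    ⟨fun h => nu _ (xα i) (h.map _), fun h => nu _ (xβ i) (h.map _)⟩
  have key : ∀ (Y : ℕ → Type) [∀ n, AddCommGroup (Y n)] [∀ n, Module (PS O (σ ⊕ Fin r)) (Y n)],
      (∀ n, ∀ u ∈ X.rel n, ∀ w : Y n, u • w = 0) →
      (Ideal.span (Set.range fun i => y1 O σ i ^ 2 - io O σ r (ta i - 2) * y1 O σ i +
        io O σ r (da i - ta i + 1)) ≤
          Module.annihilator _ (PA.L (PS O (σ ⊕ Fin r)) U fun n => CharacterModule (Y n))) ∧
      ((Ideal.span (Set.range X.f)).map (io O σ r) ≤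
          Module.annihilator _ (PA.L (PS O (σ ⊕ Fin r)) U fun n => CharacterModule (Y n))) ∧
      ∀ i, io O σ r (ta i) - (1 + y1 O σ i) * (2 + ya (Sum.inr (Sum.inl i))) ∈
          Module.annihilator _ (PA.L (PS O (σ ⊕ Fin r)) U fun n => CharacterModule (Y n)) := by
    intro Y _ _ h
    have r1 := fun n i => h n _ (Or.inl (Or.inr ⟨i, rfl⟩))
    have r2 := fun n i => h n _ (Or.inr ⟨i, rfl⟩)
    refine ⟨Ideal.span_le.2 ?_, ?_, fun i => ?_⟩
    · rintro _ ⟨i, rfl⟩
      refine ann_lim (cv_add (cv_sub (cv_const _) (cv_mul (cv_map _ hio (cα i)) (cv_const _)))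
        (cv_map _ hio (cβ i))) fun n => dk fun w => ?_
      have e : y1 O σ i ^ 2 - io O σ r (X.tq n i - 2) * y1 O σ i +
          io O σ r (X.dq n i - X.tq n i + 1) =
          (io O σ r (X.dq n i) - (1 + y1 O σ i) ^ 2 * (1 + X.y2 n i)) -
            (1 + y1 O σ i) * (io O σ r (X.tq n i) - (1 + y1 O σ i) * (2 + X.y2 n i)) := by
        simp only [map_add, map_sub, map_ofNat, map_one]
        ring
      rw [e, sub_smul, r2, mul_smul, r1, smul_zero, sub_self]
    · rw [Ideal.map_span, Ideal.span_le]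
      rintro _ ⟨_, ⟨j, rfl⟩, rfl⟩
      exact ann_lim (cv_const _) fun n => dk (h n _ (Or.inl (Or.inl ⟨j, rfl⟩)))
    · exact ann_lim (cv_sub (cv_map _ hio (hta i)) (cv_mul (cv_const _)
        (cv_add (cv_const _) (hya (Sum.inr (Sum.inl i)))))) fun n => dk (r1 n i)
  obtain ⟨𝔮, η₀, q1, q2, q3, q4, q5, q6⟩ := hL.ch0
  obtain ⟨𝔭, p1, p2, p3, k, p4⟩ := H.big (ty X.τl η₀) fun l ⟨u, h1, h2⟩ =>
    Finset.mem_filter.2 ⟨Finset.mem_univ _, fun h => q2.ne_top (Ideal.eq_top_of_isUnit_mem _ (h h1) h2)⟩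
  have hd : d0 ^ X.c ∉ 𝔭 := fun h =>
    (limi _ U _ _ 𝔭 hd0).2 k (Eventually.of_forall p4) (p1.mem_of_pow_mem _ h)
  obtain ⟨ha, η, t1, t2, t3, t4, t5⟩ := etaC _ U hU _ _ _ _ _ (hM (H.iJ (ty X.τl η₀))) ya _ hya hD 𝔭
    (fun u hu => p3 u fun w => CharacterModule.eq_zero_of_character_apply fun φ => by
      rw [← CharacterModule.smul_apply, Module.mem_annihilator.1 hu]; rfl) hd
  obtain ⟨k1, k2, k3⟩ := key _ (H.rel (H.iJ (ty X.τl η₀)))
  obtain ⟨c1, c2, -⟩ := key _ H.relC
  have kπ : io O σ r (MvPowerSeries.C ϖ) ∈ η := by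
    rw [io_C]
    exact t3 (ann_lim (cv_const _) fun n => dk (H.pi _ n))
  have hI : I0 ϖ X.f ≤ η.comap (io O σ r) :=
    sup_le (Ideal.map_le_iff_le_comap.1 (k2.trans t3))
      ((Ideal.span_singleton_le_iff_mem _).2 kπ)
  have hdim : ((2 * r + a + 2 : ℕ) : WithBot ℕ∞) ≤
      ringKrullDim (PS O σ ⧸ η.comap (io O σ r)) := by
    have e := ((etl _ _ _ _ _ _ _ hc).1 η (k1.trans t3)).1
    refine le_trans ?_ (t5.trans e.le)
    rw [Fintype.card_sum, Fintype.card_sum, Fintype.card_fin, Fintype.card_fin, ← add_assoc,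
      ← two_mul, Nat.cast_add (2 * r + a) 2]
    exact add_le_add le_rfl p2
  have hty : ty X.τl (η.comap (io O σ r)) = ty X.τl η₀ := by
    ext l
    constructor
    · intro h
      by_contra c
      exact (Finset.mem_filter.1 h).2 fun u hu =>
        t3 (ann_lim (cv_const _) fun n => dk (H.unr _ l c u hu n))
    · intro h
      by_contra c
      exact hL.tr _ inferInstance hI hdim l c (t1.mem_of_pow_mem _
        (t3 (ann_lim (cv_const _) fun n => dk (H.new _ l h n))))
  have hη : η.comap (io O σ r) = η₀ := hL.inj _ _ inferInstance q2 hI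
    (le_trans (sup_le_sup_right q3 _) q5) hdim q6 hty
  have main : ∀ t : PS O σ, io O σ r t ∈ Module.annihilator _
      (PA.L (PS O (σ ⊕ Fin r)) U fun n => CharacterModule (Wc n)) → X.x (io O σ r t) = 0 := by
    intro t ht
    obtain ⟨h, h1, h2⟩ := core U hU (MvPowerSeries.C ϖ) (Ideal.span (Set.range X.f)) hya hD hc
      (fun i n => CharacterModule (Yb i n)) (fun i => CharacterModule (Y0 i))
      (fun n => CharacterModule (Wc n)) hM H.ses H.ig (H.iJ (ty X.τl η₀)) (X.m (ty X.τl η₀))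
      (fun N hN => H.comb N hN _) (fun i j k h n => by
        obtain ⟨f, g, a1, a2, a3⟩ := H.ex i j k h n
        refine ⟨CharacterModule.dual g, CharacterModule.dual f, fun φ hφ => ?_, dex a2 a3,
          CharacterModule.dual_surjective_of_injective f a1⟩
        refine Submodule.smul_mem _ _ ((hT _ _ _ _ φ).2 fun w hw => ?_)
        obtain ⟨w', rfl⟩ := H.free k n w hw
        obtain ⟨w', rfl⟩ := a3 w'
        rw [← map_smul]
        refine (hT _ _ _ _ _).1 hφ _ fun s => ?_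
        have := kl (X.y n) (j := 1) (k := 2 ^ n - 1) (H.nil j n)
          (by have := Nat.one_le_two_pow (n := n); omega) s w'
        rwa [pow_one] at this)
      (by rw [alg, io_C]; exact hC) (fun n => CharacterModule.dual (H.q n))
      (fun n => CharacterModule.dual_surjective_of_injective _ (H.qinj n))
      (fun n => by rw [alg, io_C]; exact dk (H.pi _ n)) c1 c2
      (cv_pow (cv_prod Finset.univ fun i => hya (Sum.inr (Sum.inl i))) X.c)
      (fun n => by
        obtain ⟨χ, hχ⟩ := H.cyc n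
        refine ⟨χ, fun v => hA _ b _ (H.disC n) (hbC n) _ _ fun w hw => ?_⟩
        have := hχ w fun u => hw (u • χ) (Submodule.smul_mem _ _ (Submodule.mem_span_singleton_self _))
        rw [CharacterModule.smul_apply]
        exact (congrArg v this).trans (map_zero _))
      𝔭 η t2 ha hd t3 (k1.trans t3) kπ
      (fun h => by
        obtain ⟨i, -, hi⟩ := (Ideal.IsPrime.prod_mem_iff (hp := t1)).1 (t1.mem_of_pow_mem _ h)
        exact t4 _ hi)
      (fun i h => by
        have h1 := add_mem h (t3 (k3 i))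
        have e : 2 * y1 O σ i - algebraMap (PS O σ) (PS O (σ ⊕ Fin r)) (ta i - 2) +
            (io O σ r (ta i) - (1 + y1 O σ i) * (2 + ya (Sum.inr (Sum.inl i)))) =
            -((1 + y1 O σ i) * ya (Sum.inr (Sum.inl i))) := by
          rw [alg, map_sub, map_ofNat]; ring
        rw [e, neg_mem_iff] at h1
        refine t4 _ ((t1.mem_or_mem h1).resolve_left fun h2 => ?_)
        have h3 := sub_mem (le_maximalIdeal t1.ne_top h2) (nu _ (hP.xy 0 (Sum.inl i)))
        have h4 : (1 : PS O (σ ⊕ Fin r)) ∈ maximalIdeal (PS O (σ ⊕ Fin r)) := by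
          simpa [CD.y] using h3
        exact h4 isUnit_one)
      (by rw [← hty]; exact hL.len _ hI hdim) t ht
    have h3 : h ∉ 𝔮 := fun c => h1 (by
      change h ∈ η.comap (io O σ r)
      rw [hη]; exact q5 (Ideal.mem_sup_left c))
    exact q4 ((q1.mem_or_mem (q3 h2)).resolve_left h3)
  haveI := RingHom.ker_isPrime X.x
  have fin := (etl _ _ _ _ _ _ _ hc).2 _ (RingHom.ker X.x) c1 (Ideal.span_le.2 (by
      rintro _ ⟨i, rfl⟩
      have := hP.xy 0 (Sum.inl i)
      change X.x (y1 O σ i) = 0 at this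
      change X.x _ = 0
      rw [map_add, map_sub, map_mul, map_pow, this, xβ]; simp))
    (fun i => hP.xy 0 (Sum.inl i)) (fun i => ⟨xα i, xβ i⟩) main
  intro j
  obtain ⟨v, hv⟩ := hP.xD
  obtain ⟨j0, hj⟩ := desc hϖ X.x hx U _ hC.gen fin (X.c * v + 1) j
  refine ⟨j0, fun t ht => ?_⟩
  obtain ⟨n, h1, ⟨u, h2, h3⟩, h4⟩ :=
    (hj.and (((H.desc t).and (eventually_ge_atTop j0)).filter_mono hU)).exists
  have e : ∀ (k : ℕ) (z : O), z ∈ maximalIdeal O ^ k ↔ ϖ ^ k ∣ z := fun k z => by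
    rw [hϖ.maximalIdeal_eq, Ideal.span_singleton_pow, Ideal.mem_span_singleton]
  rw [← h2]
  refine h1 (io O σ r (X.D n) ^ X.c) (io O σ r u)
    (J1 fun o : Option (Fin r ⊕ Fin r ⊕ Fin a) => o.elim (MvPowerSeries.C ϖ ^ j0) (X.y n))
    (fun h => ?_) (fun z hz => ?_) fun φ => (hT _ _ _ _ _).2 fun w hw => ?_
  · rw [map_pow] at h
    exact pow_not_mem (fun k => hv n ((e _ _).1 k)) _ ((e _ _).2 h)
  · refine (e _ _).1 (Ideal.mem_comap.1 (Ideal.span_le.2 ?_ hz))
    rintro _ ⟨o, rfl⟩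
    cases o with
    | none =>
      change X.x (MvPowerSeries.C ϖ ^ j0) ∈ maximalIdeal O ^ j0
      rw [map_pow, hP.xC, e]
    | some s =>
      change X.x (X.y n s) ∈ maximalIdeal O ^ j0
      rw [hP.xy]; exact zero_mem _
  · rw [CharacterModule.smul_apply, ← map_pow, ← map_mul,
      h3 j0 h4 ht w (hw none) fun s => hw (some s), map_zero]

end Vale.Agent.P022D.As
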