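import Vale.Agent.P022D.As.Defs
import Vale.Agent.P022D.PA.Top
import Vale.Agent.P022D.PA.Lim
import Vale.Agent.P022D.PA.Box
import Vale.Agent.P022D.PA.Len
import Vale.Agent.P022D.PA.Chn
import Vale.Agent.P022D.PA.End
import Vale.Agent.P022D.PA.Col
import Vale.Agent.P022D.PA.Tight
import Vale.Agent.P022D.PA.Reg
import Vale.Agent.P022D.PA.Exa
import Vale.Agent.P022D.PA.Etl

/-!
# P022D, assembly: the length end game over abstract rings
-/

set_option linter.all false

open IsLocalRing Filter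

noncomputable section

namespace Vale.Agent.P022D.As.EA

open Vale.Agent.P022D.PA

theorem boxC : BOX := box diag smu
theorem rexC : REX := rex diag
theorem fgC : FG := fg lim
theorem regC : REG := reg smu boxC fgC kru col (tib col)
theorem exaC : EXA := exa regC (inj kru) ti0 boxC smu rexC fgC len
theorem etaC : ETA := eta regC chn boxC limi fgC
theorem endC : PA.END := end_ kru len len0

section cv

variable {P : Type} [CommRing P] [IsLocalRing P] {U : Filter ℕ}

theorem cv_const (a : P) : Cv U (fun _ => a) a := fun j =>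
  Eventually.of_forall fun _ => by simp

theorem cv_add {z w : ℕ → P} {a b : P} (h : Cv U z a) (k : Cv U w b) :
    Cv U (fun n => z n + w n) (a + b) := fun j =>
  ((h j).and (k j)).mono fun n hn => by
    have e : z n + w n - (a + b) = (z n - a) + (w n - b) := by ring
    rw [e]; exact add_mem hn.1 hn.2

theorem cv_sub {z w : ℕ → P} {a b : P} (h : Cv U z a) (k : Cv U w b) :
    Cv U (fun n => z n - w n) (a - b) := fun j =>
  ((h j).and (k j)).mono fun n hn => by
    have e : z n - w n - (a - b) = (z n - a) - (w n - b) := by ring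
    rw [e]; exact sub_mem hn.1 hn.2

theorem cv_mul {z w : ℕ → P} {a b : P} (h : Cv U z a) (k : Cv U w b) :
    Cv U (fun n => z n * w n) (a * b) := fun j =>
  ((h j).and (k j)).mono fun n hn => by
    have e : z n * w n - a * b = (z n - a) * w n + a * (w n - b) := by ring
    rw [e]; exact add_mem (Ideal.mul_mem_right _ _ hn.1) (Ideal.mul_mem_left _ _ hn.2)

theorem cv_pow {z : ℕ → P} {a : P} (h : Cv U z a) : ∀ c : ℕ, Cv U (fun n => z n ^ c) (a ^ c)
  | 0 => by simpa using cv_const (1 : P)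
  | c + 1 => by simpa [pow_succ] using cv_mul (cv_pow h c) h

theorem cv_prod {κ : Type} (s : Finset κ) {z : ℕ → κ → P} {a : κ → P}
    (h : ∀ i, Cv U (fun n => z n i) (a i)) : Cv U (fun n => ∏ i ∈ s, z n i) (∏ i ∈ s, a i) := by
  classical
  induction s using Finset.induction_on with
  | empty => simpa using cv_const (1 : P)
  | insert i s hi ih => simpa [Finset.prod_insert hi] using cv_mul (h i) ih

theorem cv_map {Q : Type} [CommRing Q] [IsLocalRing Q] (φ : P →+* Q)
    (hφ : ∀ a ∈ maximalIdeal P, φ a ∈ maximalIdeal Q) {z : ℕ → P} {a : P} (h : Cv U z a) :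
    Cv U (fun n => φ (z n)) (φ a) := fun j => (h j).mono fun n hn => by
  rw [← map_sub]
  exact ((Ideal.pow_right_mono (fun a ha => hφ a ha) j).trans (Ideal.le_comap_pow φ j)) hn

theorem ann_lim {M : ℕ → Type} [∀ n, AddCommGroup (M n)] [∀ n, Module P (M n)] {z : ℕ → P}
    {a : P} (h : Cv U z a) (hz : ∀ n (x : M n), z n • x = 0) :
    a ∈ Module.annihilator P (L P U M) := by
  rw [Module.mem_annihilator]
  intro v
  obtain ⟨x, rfl⟩ := Submodule.Quotient.mk_surjective _ v
  rw [← smu P U M z a h x]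
  have : (fun n => z n • x n) = 0 := funext fun n => hz n (x n)
  rw [this, Submodule.Quotient.mk_zero]

end cv

theorem ln_le {P : Type} [CommRing P] (η : Ideal P) [η.IsPrime] {B C : Type} [AddCommGroup B]
    [Module P B] [AddCommGroup C] [Module P C] (g : B →ₗ[P] C) (hg : Function.Surjective g) :
    ln η C ≤ ln η B := by
  have h1 : (1 : P) ∉ η := (Ideal.ne_top_iff_one η).1 (Ideal.IsPrime.ne_top ‹_›)
  have := (len P η (LinearMap.ker g) B C (LinearMap.ker g).subtype g (fun x => x.2)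
    (fun y hy => ⟨1, h1, ⟨y, hy⟩, by simp⟩)).2
    (fun x hx => ⟨1, h1, by rw [one_smul]; exact Subtype.ext hx⟩)
    (fun z => ⟨1, h1, by rw [one_smul]; exact hg z⟩)
  rw [this]
  exact le_add_self

/-- the end game -/
theorem core {P₀ P : Type} [CommRing P₀] [CommRing P] [Base P₀] [Base P] [Algebra P₀ P]
    (U : Ultrafilter ℕ) (hU : (U : Filter ℕ) ≤ atTop) {κ ι I : Type} [Fintype κ] [Fintype ι]
    (π : P₀) (E : Ideal P₀) {u : ℕ → ι → P} {a : ι → P}
    (hu : ∀ i, Cv (U : Filter ℕ) (fun n => u n i) (a i)) {D : ℕ → P} {d : P}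
    (hD : Cv (U : Filter ℕ) D d) {y : κ → P} {α β : κ → P₀} {𝔯 : Ideal P}
    (hc : Cov P₀ P y α β 𝔯) (M : I → ℕ → Type) (G : I → Type) (C : ℕ → Type)
    [∀ i n, AddCommGroup (M i n)] [∀ i n, Module P (M i n)] [∀ i, AddCommGroup (G i)]
    [∀ i, Module P (G i)] [∀ n, AddCommGroup (C n)] [∀ n, Module P (C n)]
    (hM : ∀ i, Gd (U : Filter ℕ) u D (M i) (G i)) (ses : I → I → I → Prop) (ig iJ : I) (m : ℕ)
    (comb : ∀ N : I → ℕ∞, (∀ i j k, ses i j k → N j = N i + N k) → (m : ℕ∞) * N iJ ≤ N ig)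
    (ex : ∀ i j k, ses i j k → ∀ n, ∃ (f : M k n →ₗ[P] M j n) (g : M j n →ₗ[P] M i n),
      (∀ x, f x ∈ J1 (u n) • (⊤ : Submodule P (M j n)) →
        D n • x ∈ J1 (u n) • (⊤ : Submodule P (M k n))) ∧
      Function.Exact f g ∧ Function.Surjective g)
    (hC : Gd (U : Filter ℕ) (fun n (o : Option ι) => o.elim (algebraMap P₀ P π) (u n)) D C (G ig))
    (p : ∀ n, C n →ₗ[P] M ig n) (hp : ∀ n, Function.Surjective (p n))
    (hπ : ∀ n (x : M ig n), algebraMap P₀ P π • x = 0)
    (hr : 𝔯 ≤ Module.annihilator P (L P U C))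
    (hE : E.map (algebraMap P₀ P) ≤ Module.annihilator P (L P U C))
    {δ : ℕ → P} {e : P} (hδ : Cv (U : Filter ℕ) δ e)
    (cyc : ∀ n, ∃ χ : C n, ∀ v : C n, δ n • v ∈ Submodule.span P {χ})
    (𝔭 η : Ideal P) [𝔭.IsPrime] [η.IsPrime] (hη : η ≤ 𝔭) (ha : ∀ i, a i ∈ 𝔭) (hd : d ∉ 𝔭)
    (h1 : Module.annihilator P (L P U (M iJ)) ≤ η) (h2 : 𝔯 ≤ η) (h3 : algebraMap P₀ P π ∈ η)
    (h4 : e ∉ η) (h5 : ∀ q, 2 * y q - algebraMap P₀ P (α q) ∉ η)
    (h6 : ln (η.comap (algebraMap P₀ P)) (P₀ ⧸ (E ⊔ Ideal.span {π})) ≤ m)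
    (t : P₀) (ht : algebraMap P₀ P t ∈ Module.annihilator P (L P U C)) :
    ∃ h ∉ η.comap (algebraMap P₀ P), h * t ∈ E := by
  have hN := comb (fun i => ln η (L P U (M i))) fun i j k h => by
    choose f g a1 a2 a3 using ex i j k h
    have := (exaC P U hU ι u D (M k) (M j) (M i) (G j) (G i) f g a1 a2 a3 (hM k).gen (hM j)
      (hM i) a d hu hD 𝔭 ha hd).2 η hη
    rw [this, add_comm]
  haveI := fgC P U (M iJ) (hM iJ).gen
  haveI := fgC P U C hC.gen
  have hne : ln η (L P U (M iJ)) ≠ 0 := fun h =>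
    ((len0 P η _).2 inferInstance).1 h h1
  have hm : (m : ℕ∞) ≤ ln η (L P U (M ig)) :=
    le_trans (le_mul_of_one_le_right' (Order.one_le_iff_ne_zero.2 hne)) hN
  have hs : Function.Surjective (Lmap (U : Filter ℕ) p) :=
    (rexC P U hU (fun n => LinearMap.ker (p n)) C (M ig) (fun n => (LinearMap.ker (p n)).subtype)
      p (fun n => LinearMap.exact_subtype_ker_map (p n)) hp).2
  have hk : Ideal.span {algebraMap P₀ P π} • (⊤ : Submodule P (L P U C)) ≤
      LinearMap.ker (Lmap (U : Filter ℕ) p) := by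
    refine Submodule.smul_le.2 fun r hr x _ => ?_
    obtain ⟨c, rfl⟩ := Ideal.mem_span_singleton'.1 hr
    rw [LinearMap.mem_ker, map_smul, mul_smul,
      Module.mem_annihilator.1 (ann_lim (cv_const _) hπ), smul_zero]
  have hq := ln_le η (Submodule.liftQ _ _ hk) (by
    intro z
    obtain ⟨x, rfl⟩ := hs z
    exact ⟨Submodule.Quotient.mk x, rfl⟩)
  obtain ⟨e1, e2, e3⟩ := (etl P₀ P κ y α β 𝔯 hc).1 η h2
  have eq : E.map (algebraMap P₀ P) ⊔ 𝔯 ⊔ Ideal.span {algebraMap P₀ P π} =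
      (E ⊔ Ideal.span {π}).map (algebraMap P₀ P) ⊔ 𝔯 := by
    rw [Ideal.map_sup, Ideal.map_span, Set.image_singleton, sup_right_comm]
  have hl : ln η (P ⧸ (E.map (algebraMap P₀ P) ⊔ 𝔯 ⊔ Ideal.span {algebraMap P₀ P π})) ≤ m := by
    rw [eq]; exact (e2 h5 _).trans h6
  choose χ hχ using cyc
  obtain ⟨h, hh, hh'⟩ := endC P η (L P U C) (algebraMap P₀ P π) e (Submodule.Quotient.mk χ)
    (E.map (algebraMap P₀ P) ⊔ 𝔯) h3 h4 (fun v hv => by
      obtain ⟨h, a1, a2⟩ := regC P U hU (Option ι) _ D C (G ig) hC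
        (fun o => o.elim (algebraMap P₀ P π) a) d
        (fun o => by cases o with
          | none => exact cv_const _
          | some i => exact hu i) hD 𝔭
        (fun o => by cases o with
          | none => exact hη h3
          | some i => exact ha i) hd ∅ none (by simp) v (by
            change algebraMap P₀ P π • v ∈ _
            rw [hv]; exact zero_mem _)
      exact ⟨h, fun c => a1 (hη c), by simpa using a2⟩)
    (fun v => by
      obtain ⟨x, rfl⟩ := Submodule.Quotient.mk_surjective _ v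
      choose c hc using fun n => Submodule.mem_span_singleton.1 (hχ n (x n))
      obtain ⟨c', hc'⟩ := lim P U c
      refine Submodule.mem_sup_left (Submodule.mem_span_singleton.2 ⟨c', ?_⟩)
      rw [← smu P U C c c' hc' χ, ← smu P U C δ e hδ x]
      exact congrArg _ (funext hc))
    (sup_le hE hr) (hl.trans (hm.trans hq)) (ne_top_of_le_ne_top (ENat.coe_ne_top m) hl)
  exact e3 E h t hh (hh' _ ht)

/-- descent with estimates -/
theorem desc {P O : Type} [CommRing P] [Base P] [CommRing O] [IsDomain O]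
    [IsDiscreteValuationRing O] {ϖ : O} (hϖ : Irreducible ϖ) (x : P →+* O)
    (hx : ∀ a ∈ maximalIdeal P, x a ∈ maximalIdeal O) (U : Ultrafilter ℕ)
    (C : ℕ → Type) [∀ n, AddCommGroup (C n)] [∀ n, Module P (C n)] (hg : Gen P C)
    (h : Module.annihilator P (L P U C) ≤ RingHom.ker x) (v j : ℕ) :
    ∃ j0 : ℕ, ∀ᶠ n in (U : Filter ℕ), ∀ (D t : P) (𝔞 : Ideal P), ¬ ϖ ^ v ∣ x D →
      (∀ a ∈ 𝔞, ϖ ^ j0 ∣ x a) → (∀ m : C n, (D * t) • m ∈ 𝔞 • (⊤ : Submodule P (C n))) →
        ϖ ^ j ∣ x t := by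
  haveI := Base.cpl (P := P)
  haveI := Base.fin (P := P)
  obtain ⟨b, hb⟩ := hg
  have e : ∀ (k : ℕ) (z : O), z ∈ maximalIdeal O ^ k ↔ ϖ ^ k ∣ z := fun k z => by
    rw [hϖ.maximalIdeal_eq, Ideal.span_singleton_pow, Ideal.mem_span_singleton]
  have h1 : Lim U (fun n => Module.annihilator P (C n)) ≤ RingHom.ker x := by
    refine le_trans (fun f hf => ?_) h
    rw [Module.mem_annihilator]
    intro w
    obtain ⟨w, rfl⟩ := Submodule.Quotient.mk_surjective _ w
    rw [← Submodule.Quotient.mk_smul, Submodule.Quotient.mk_eq_zero]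
    intro k
    refine (hf k).mono fun n hn => ?_
    obtain ⟨s, hs, t, ht, rfl⟩ := Submodule.mem_sup.1 hn
    rw [Pi.smul_apply, add_smul, Module.mem_annihilator.1 hs, zero_add]
    exact Submodule.smul_mem_smul ht Submodule.mem_top
  refine ⟨b * (v + j) + 1, (small x hx h1 (b * (v + j) + 1)).mono fun n hn D t 𝔞 hD h𝔞 ht => ?_⟩
  by_contra c
  obtain ⟨p, hp⟩ := hb n
  obtain ⟨f, f1, f2⟩ := ch
    ((Ideal.Quotient.mk (maximalIdeal O ^ (b * (v + j) + 1))).comp x) (fun i => p (Pi.single i 1))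
    (by
      rw [← LinearMap.range_eq_top.2 hp, ← Submodule.map_top, ← (Pi.basisFun P (Fin b)).span_eq,
        Submodule.map_span, ← Set.range_comp]
      congr 2
      funext i
      simp) (a := 𝔞)
    (fun a ha => by
      rw [RingHom.mem_ker, RingHom.comp_apply, Ideal.Quotient.eq_zero_iff_mem, e]
      exact h𝔞 a ha) ht
  rw [RingHom.comp_apply, RingHom.comp_apply, ← map_pow, Ideal.Quotient.eq] at f2
  have h2 := sub_mem (hn f f1) f2
  rw [sub_sub_cancel, map_mul] at h2
  exact pow_not_mem (not_mem_mul (fun k => hD ((e _ _).1 k)) (fun k => c ((e _ _).1 k))) b h2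

end Vale.Agent.P022D.As.EA
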