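import Vale.Agent.P022D.As.Defs
import Vale.Agent.P022D.Du.Soc

/-!
P022D, assembly: from group elements to boxes.
-/

noncomputable section

namespace Vale.Agent.P022D.As

open Polynomial

theorem grp_int (n : ℕ) : ∃ r : ℤ[X],
    ∑ k ∈ Finset.range (2 ^ n), (1 + X : ℤ[X]) ^ k = X ^ (2 ^ n - 1) + 2 * r := by
  obtain ⟨r, hr⟩ := exists_add_pow_prime_pow_eq Nat.prime_two (1 : ℤ[X]) X n
  refine ⟨r, mul_left_cancel₀ X_ne_zero ?_⟩
  have h6 := mul_geom_sum (1 + X : ℤ[X]) (2 ^ n)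
  rw [add_sub_cancel_left] at h6
  have h7 : (X : ℤ[X]) ^ 2 ^ n = X * X ^ (2 ^ n - 1) := by
    rw [← pow_succ', Nat.sub_add_cancel Nat.one_le_two_pow]
  rw [h6, hr, h7]
  push_cast
  ring

theorem grp_nm {P : Type} [CommRing P] (y : P) (n : ℕ) :
    (2 : P) ∣ Du.nm y (2 ^ n) - y ^ (2 ^ n - 1) := by
  obtain ⟨r, e⟩ := grp_int n
  have h1 := congrArg (aeval y) e
  simp only [map_sum, map_pow, map_add, map_one, aeval_X, map_mul, map_ofNat] at h1
  exact ⟨aeval y r, by rw [Du.nm, h1]; ring⟩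

theorem grp : GRP := by
  intro P _ ι _ ϖ e he j
  refine ⟨2 * j + 1, fun n hn u Y _ _ h1 h2 h3 h4 w hw => ?_⟩
  obtain ⟨ν, h5, h6⟩ := Du.root_aux (W := Y) u (fun _ => n) j (fun _ => hn) h3
  obtain ⟨w1, a1, rfl⟩ := h4 w (hw none) fun i => hw (some i)
  obtain ⟨w2, rfl⟩ := h2 w1 a1
  obtain ⟨m, rfl⟩ : ∃ m, n = j + m := ⟨n - j, by omega⟩
  have b1 : ϖ ^ (j + 1) • ϖ ^ m • w2 = 0 := by
    rw [← mul_smul, ← pow_add, show j + 1 + m = j + m + 1 by ring, h1]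
  have b2 : (2 : P) • ϖ ^ (j + m) • w2 = 0 := by rw [he, mul_comm, mul_smul, a1, smul_zero]
  refine ⟨ν • ϖ ^ m • w2, fun o => ?_, ?_⟩
  · cases o with
    | none => exact (smul_comm _ _ _).trans ((congrArg (ν • ·) b1).trans (smul_zero _))
    | some i =>
      refine h5 _ ?_ i
      rw [he, mul_pow, mul_comm, mul_smul, b1, smul_zero]
  · have b3 : ∀ s : Finset ι, (2 : P) ∣ ∏ i ∈ s, Du.nm (u i) (2 ^ (j + m)) -
        ∏ i ∈ s, u i ^ (2 ^ (j + m) - 1) := fun s =>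
      Ideal.mem_span_singleton.1 (Ideal.Quotient.eq.1 (by
        rw [map_prod, map_prod]
        exact Finset.prod_congr rfl fun i _ =>
          Ideal.Quotient.eq.2 (Ideal.mem_span_singleton.2 (grp_nm _ _))))
    obtain ⟨z, hz⟩ := b3 Finset.univ
    rw [Fintype.prod_option]
    simp only [Option.elim_none, Option.elim_some]
    rw [mul_pow, mul_comm, mul_smul, smul_comm (ϖ ^ j) ν, ← mul_smul (ϖ ^ j), ← pow_add, h6 _ b2,
      eq_comm, ← sub_eq_zero, ← sub_smul, hz, mul_comm, mul_smul, b2, smul_zero]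

end Vale.Agent.P022D.As
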