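import Vale.Agent.P022D.As.LevA

/-!
# P022D, assembly: one level with frames
-/

set_option linter.all false

open IsLocalRing Filter NumberField

noncomputable section

namespace Vale.Agent.P022D.As

open Vale.Agent.P022 Vale.Agent.P022D.R
open Vale.Agent.P022D.Core (io y1 Coef)
open Vale.Agent.P027M.S (Inert mx)
open Vale.Agent.P022D.Sel (M2)
open Vale.Agent.P022D.Loc (Pl)
open Ideal (torsionOf mem_torsionOf_iff)

section grp

variable {O : Type} [CommRing O] {r a n : ℕ} {τ : Fin r → GQ} {Y : Type} [AddCommGroup Y]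
  [Module (Tg O) Y]

/-- the constants -/
abbrev ic (O : Type) [CommRing O] (a n : ℕ) : Tg O →+* BR (Tg O) a n :=
  inc (Tg O) PUnit.{1} (Gp (Fin a) n)

/-- all the group elements -/
def pb (a n : ℕ) (τ : Fin r → GQ) : Fin r ⊕ Fin r ⊕ Fin a → BR (Tg O) a n :=
  Sum.elim (fun i => ic O a n (1 + yy i))
    (Sum.elim (fun i => ic O a n (ee n τ i)) fun j => th (Tg O) a n (ge n j))

theorem pb_pow (h : Dia (O := O) n τ Y) (s : Fin r ⊕ Fin r ⊕ Fin a) (w : BX (Tg O) a n Y) :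
    pb (O := O) a n τ s ^ 2 ^ n • w = w := by
  rcases s with i | i | j
  · refine funext fun z => ?_
    change (ic O a n _ ^ 2 ^ n • w) z = _
    rw [← map_pow, inc_smul]
    exact h.grp (.inl i) _
  · refine funext fun z => ?_
    change (ic O a n _ ^ 2 ^ n • w) z = _
    rw [← map_pow, inc_smul]
    exact h.grp (.inr i) _
  · change th (Tg O) a n _ ^ 2 ^ n • w = w
    rw [← map_pow, gp_pow, map_one, one_smul]

theorem pb_fix {w : BX (Tg O) a n Y} (h : ∀ s, pb (O := O) a n τ s • w = w) :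
    (∀ γ : PUnit.{1} × Gp (Fin a) n, og (Tg O) γ • w = w) ∧ (∀ z, w z = w 1) ∧ ∀ s, (dl n τ s : Tg O) • w 1 = w 1 := by
  have h1 : ∀ γ : PUnit.{1} × Gp (Fin a) n, og (Tg O) γ • w = w := fun γ =>
    fix_all (th (Tg O) a n) (fun j => h (.inr (.inr j))) γ.2
  refine ⟨h1, (fix_const h1).1, fun s => ?_⟩
  rcases s with i | i
  · exact (inc_smul _ w 1).symm.trans (congrFun (h (.inl i)) 1)
  · exact (inc_smul _ w 1).symm.trans (congrFun (h (.inr (.inl i))) 1)

theorem pb_norm : Ideal.Quotient.mk (Ideal.span {(2 : BR (Tg O) a n)})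
      (∏ s, (pb (O := O) a n τ s - 1) ^ (2 ^ n - 1)) =
    Ideal.Quotient.mk _ (ic O a n (nD n τ) * ∑ γ : PUnit.{1} × Gp (Fin a) n, og (Tg O) γ) := by
  have e1 := nrm2 (two_zero (BR (Tg O) a n)) n fun s =>
    Ideal.Quotient.mk (Ideal.span {(2 : BR (Tg O) a n)}) (ic O a n (dl n τ s))
  have e2 := norm_eq (two_zero (BR (Tg O) a n))
    ((Ideal.Quotient.mk (Ideal.span {(2 : BR (Tg O) a n)})).toMonoidHom.comp (th (Tg O) a n))
  rw [Fintype.sum_prod_type, Fintype.sum_unique, nD]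
  simp only [map_mul, map_prod, map_sum, map_pow, map_sub, map_one]
  rw [← e1, Fintype.prod_sum_type, Fintype.prod_sum_type, Fintype.prod_sum_type, ← mul_assoc]
  exact congrArg₂ (· * ·) rfl e2

theorem two_box (h2 : ∀ y : Y, (2 : Tg O) • y = 0) (v : BX (Tg O) a n Y) :
    (2 : BR (Tg O) a n) • v = 0 := funext fun z => by
  rw [← map_ofNat (ic O a n) 2, inc_smul]
  exact h2 _

theorem pb_free (h2 : ∀ y : Y, (2 : Tg O) • y = 0)
    (h : ∀ w : Y, (∀ s, (dl n τ s : Tg O) • w = w) → ∃ w' : Y, w = (nD n τ : Tg O) • w')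
    {w : BX (Tg O) a n Y} (hw : ∀ s, pb (O := O) a n τ s • w = w) :
    ∃ w' : BX (Tg O) a n Y, w = (∏ s, (pb (O := O) a n τ s - 1) ^ (2 ^ n - 1)) • w' := by
  obtain ⟨-, a1, a2⟩ := pb_fix hw
  obtain ⟨c, hc⟩ := h _ a2
  refine ⟨(show BX (Tg O) a n Y from Pi.single 1 c),
    Eq.trans (funext fun z => ?_) (two_act (two_box h2) pb_norm _).symm⟩
  refine Eq.trans ?_ (congrFun (mul_smul (ic O a n (nD n τ)) _
    (show BX (Tg O) a n Y from Pi.single 1 c)) z).symm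
  refine Eq.trans ?_ (inc_smul _ _ z).symm
  rw [norm_single, Fintype.sum_unique, a1, hc]
  rfl

theorem pb_nil (h2 : ∀ y : Y, (2 : Tg O) • y = 0) (h : Dia (O := O) n τ Y)
    (s : Fin r ⊕ Fin r ⊕ Fin a) (w : BX (Tg O) a n Y) :
    (pb (O := O) a n τ s - 1) ^ 2 ^ n • w = 0 := by
  rw [two_act (b := pb (O := O) a n τ s ^ 2 ^ n - 1) (two_box h2) (by
      simp only [map_pow, map_sub, map_one]
      exact pow_two_pow (two_zero _) _ n), sub_smul, pb_pow h, one_smul, sub_self]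

end grp

section one

variable {O F : Type} [CommRing O] [IsDomain O] [IsDiscreteValuationRing O] [Field F] [CharP F 2]
  {ϖ : O} {S : Dat O F} {L : Pl O} {hx : Fx S L} {υ ι Wd : Type} [Finite υ] {g r a : ℕ}
  {κ : Crd S υ} {Φ : Fam S υ g} {X : CD O (υ ⊕ Fin g) ι L.C Wd r a} {n : ℕ} {q : Fin r → ℕ}
  {τ φ : Fin r → GQ} {ε : Fin a → ℕ × Fin 2 × Fin 2} (hf : Lf X n Φ q τ φ ε)

variable (hx) in
/-- the symbols of the level -/
abbrev hkL : Hk S r (BR (Tg O) a n) := (hkT hx r).box n ε hf.eps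

variable (hx) in
/-- the correspondences of the level -/
abbrev GV : Set (Subring (Core.PS O ((υ ⊕ Fin g) ⊕ Fin r) × BR (Tg O) a n)) :=
  (hkL hx hf).G (Ty (L.Cl S) (Finset.univ.image q)) Φ

variable {Y : Type} [AddCommGroup Y] [Module (Tg O) Y]

theorem in_box (h : Gm ϖ L S.T (Finset.univ.image q) r Y) :
    In (hkL hx hf) (BX (Tg O) a n Y) (Ty (L.Cl S) (Finset.univ.image q)) :=
  in_cl hx.ok (fun x k w => inc_eq fun z => sub_act ((h (w z)).clt x k))
    (fun x k w => inc_eq fun z => sub_act ((h (w z)).cld x k))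
    fun l a b c P d e s f x w => inc_eq fun z => sub_act ((h (w z)).unr l a b c P d e s f x)

variable (hU : Univ (Ty (L.Cl S) (Finset.univ.image q)) κ Φ)
include hU

section any

variable {V : Type} [AddCommGroup V] [Module (BR (Tg O) a n) V]
  [Module (Core.PS O ((υ ⊕ Fin g) ⊕ Fin r)) V] (hc : Cmp (GV hx hf) V)
include hc

theorem s_C (o : O) :
    Sm V (MvPowerSeries.C o : Core.PS O ((υ ⊕ Fin g) ⊕ Fin r)) (ic O a n (cc o)) := sm_C hU hc o

theorem s_y1 (i : Fin r) : Sm V (1 + y1 O (υ ⊕ Fin g) i) (ic O a n (1 + yy i)) := by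
  rw [map_add, map_one]
  exact Sm.one.add (sm_y hU hc i)

theorem s_tq (i : Fin r) : Sm V (io O _ r (X.tq n i)) (ic O a n (tt (τ i))) :=
  sm_io hU hc fun A _ Z _ c k => (hf.tq A Z c i).trans (k.t _).symm

theorem s_dq (i : Fin r) : Sm V (io O _ r (X.dq n i)) (ic O a n (dd (τ i))) :=
  sm_io hU hc fun A _ Z _ c k => (hf.dq A Z c i).trans (k.d _).symm

theorem s_Dl (l : L.C) : Sm V (io O _ r (X.Dl l)) (ic O a n (tt (L.φ l))) :=
  sm_io hU hc fun A _ Z _ c k => (hf.Dl A Z c l).trans (k.t _).symm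

theorem s_f (j : ι) : Sm V (io O _ r (X.f j)) (0 : BR (Tg O) a n) :=
  sm_io hU hc fun A _ Z ψ c _ => (hf.f A Z c j).trans ψ.map_zero.symm

theorem s_D : Sm V (io O _ r (X.D n)) (ic O a n (Dq q φ)) :=
  sm_io hU hc fun A _ Z ψ c k => by
    rw [hf.D A Z c, Dq, map_prod, map_prod]
    refine Finset.prod_congr rfl fun i _ => ?_
    rw [← k.t, ← k.d]
    simp only [map_sub, map_mul, map_pow, map_add, map_natCast, map_one]
    rfl

theorem s_w (j : Fin a) : Sm V (io O _ r (X.w n j)) (th (Tg O) a n (ge n j) - 1) :=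
  sm_io hU hc fun A _ Z ψ c k => by
    rw [hf.w A Z c, ← frm_eps hf.inj, ← k.al, ← map_one' ψ, Matrix.sub_apply, Matrix.sub_apply,
      map_sub]
    rfl

end any

variable [Module (Core.PS O ((υ ⊕ Fin g) ⊕ Fin r)) (BX (Tg O) a n Y)]
  (hc : Cmp (GV hx hf) (BX (Tg O) a n Y))
include hc

theorem s_y2 (h : Dia (O := O) n τ Y) (i : Fin r) :
    Sm (BX (Tg O) a n Y) (X.y2 n i) (ic O a n (ee n τ i) - 1) := fun w => by
  have e : 2 ^ n = 2 ^ n - 1 + 1 := (Nat.sub_add_cancel Nat.one_le_two_pow).symm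
  have k : ∀ v : BX (Tg O) a n Y, ic O a n (1 + yy i) ^ (2 ^ n - 1 + 1) • v = v := fun v =>
    e ▸ pb_pow h (.inl i) v
  have h1 := ((s_y1 hf hU hc i).pow (2 ^ n - 1)).mul (s_tq hf hU hc i) w
  rw [hf.y2, ← mul_assoc, ← pow_succ, mul_smul, (s_y1 hf hU hc i).pow, k, add_smul] at h1
  have h2 : ic O a n (ee n τ i) = ic O a n (1 + yy i) ^ (2 ^ n - 1) * ic O a n (tt (τ i)) -
      ic O a n (1 + yy i) ^ (2 ^ n - 1 + 1) := by
    rw [ee, map_mul, map_sub, map_pow]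
    ring
  rw [h2, sub_smul, sub_smul, k, ← h1, one_smul, two_smul]
  abel

theorem s_y (h : Dia (O := O) n τ Y) (s : Fin r ⊕ Fin r ⊕ Fin a) :
    Sm (BX (Tg O) a n Y) (X.y n s) (pb (O := O) a n τ s - 1) := by
  rcases s with i | i | j
  · have := (s_y1 hf hU hc i).sub Sm.one
    rwa [add_sub_cancel_left] at this
  · exact s_y2 hf hU hc h i
  · exact s_w hf hU hc j

theorem s_fix (h : Dia (O := O) n τ Y) {w : BX (Tg O) a n Y} :
    (∀ s, X.y n s • w = 0) ↔ ∀ s, pb (O := O) a n τ s • w = w :=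
  forall_congr' fun s => by rw [s_y hf hU hc h s w, sub_smul, one_smul, sub_eq_zero]

theorem s_rel (h : Dia (O := O) n τ Y) : ∀ u ∈ X.rel n, ∀ w : BX (Tg O) a n Y, u • w = 0 := by
  rintro _ ((⟨j, rfl⟩ | ⟨i, rfl⟩) | ⟨i, rfl⟩) w
  · exact (s_f hf hU hc j w).trans (zero_smul _ _)
  · change (_ - _ : Core.PS O _) • w = 0
    rw [hf.y2, sub_self, zero_smul]
  · have h1 := (s_dq hf hU hc i).sub (((s_y1 hf hU hc i).pow 2).mul
      (Sm.one.add (s_y2 hf hU hc h i))) w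
    refine h1.trans (funext fun z => ?_)
    have e : 2 ^ n = 2 ^ n - 1 + 1 := (Nat.sub_add_cancel Nat.one_le_two_pow).symm
    have k : (1 + yy i : Tg O) ^ (2 ^ n - 1 + 1) • w z = w z := e ▸ h.grp (.inl i) (w z)
    have h2 : (1 + yy i : Tg O) ^ 2 * ee n τ i =
        (1 + yy i) * (tt (τ i) - (1 + yy i)) * (1 + yy i) ^ (2 ^ n - 1 + 1) := by
      rw [ee]
      ring
    rw [add_sub_cancel, ← map_pow, ← map_mul, ← map_sub, inc_smul, sub_smul, h.dq, h2, mul_smul _ _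
      (w z), mul_smul _ _ (w z), k, mul_smul, sub_self]
    rfl

theorem s_lt (hne : (GV hx hf).Nonempty) (h : Gm ϖ L S.T (Finset.univ.image q) r Y)
    (b : BR (Tg O) a n) : Lt (hkL hx hf) υ g (BX (Tg O) a n Y) b := by
  induction b using gr_ind with
  | h2 x y a b => exact a.add b
  | h1 c γ =>
    refine (lt_tg hU hne hc (ic O a n) (fun _ => rfl) (fun _ => rfl) (fun _ => rfl) (fun _ => rfl)
      (fun i hi => ⟨?_, fun v => funext fun z => (inc_smul _ v z).trans ((h (v z)).yz i hi)⟩)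
      c).mul ?_
    · change S.red (ev0 L.r (aug _ _ _ (inc _ _ _ (yy i)))) = 0
      rw [aug_inc, ev0_yy, map_zero]
    · have k : ∀ j, Lt (hkL hx hf) υ g (BX (Tg O) a n Y) (th (Tg O) a n (ge n j)) := fun j => by
        refine lt_of hU hne hc (u := 1 + io O _ r (X.w n j)) fun A _ Z ψ c k => ?_
        rw [map_add, map_one, ev_io hU c k, hf.w A Z c, ← k.al, ← map_one' ψ, Matrix.sub_apply,
          Matrix.map_apply, Matrix.map_apply, ← map_sub, ← Matrix.sub_apply]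
        change 1 + ψ ((frm (Tg O) n ε _ - 1) _ _) = _
        rw [frm_eps hf.inj, map_sub, map_one, add_sub_cancel]
      change Lt _ _ _ _ (th (Tg O) a n γ.2)
      rw [← gp_prod γ.2, map_prod]
      refine Finset.prod_induction _ _ (fun _ _ => Lt.mul) Lt.one fun j _ => ?_
      rw [map_pow]
      induction (γ.2.toAdd j).val with
      | zero => exact Lt.one
      | succ m ih => rw [pow_succ]; exact ih.mul (k j)

theorem s_sb (hC : Closed (L.Cl S)) (hne : (GV hx hf).Nonempty)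
    (h : Gm ϖ L S.T (Finset.univ.image q) r Y) {b : ℕ} (hs : Sb2 (mT L.r) b Y) :
    Sb (Core.PS O ((υ ⊕ Fin g) ⊕ Fin r)) b (BX (Tg O) a n Y) := by
  obtain ⟨s, h1, h2⟩ := hs
  refine sb_of hx.ok.ker hU (hC.ty _) hc (s_lt hf hU hc hne h) (fun j _ => s j)
    (fun j b hb => ?_) fun w hw => ?_
  · rw [fix_smul fun γ => funext fun z => og_smul γ _ z]
    exact funext fun z => (inc_smul _ _ z).trans (h1 j _ ((mem_mT hx r).2 hb))
  · have a1 : ∀ γ : PUnit.{1} × Gp (Fin a) n, og (Tg O) γ • w = w := fun γ => by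
      have := hw (og (Tg O) γ - 1) (by
        change (hkT hx r).π (aug _ _ _ _) = 0
        rw [map_sub, aug_og, map_one, sub_self, map_zero])
      rwa [sub_smul, one_smul, sub_eq_zero] at this
    obtain ⟨c, hc⟩ := (Submodule.mem_span_range_iff_exists_fun _).1 (h2 (w 1) fun u hu =>
      (inc_smul u w 1).symm.trans (congrFun (hw (inc _ _ _ u) (by
        change (hkT hx r).π (aug _ _ _ _) = 0
        rw [aug_inc]
        exact (mem_mT hx r).1 hu)) 1))
    refine (Submodule.mem_span_range_iff_exists_fun _).2 ⟨fun j => inc _ _ _ (c j),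
      funext fun z => ?_⟩
    rw [box_sum, (fix_const a1).1 z, ← hc]
    exact Finset.sum_congr rfl fun j _ => inc_smul _ _ z

end one

theorem lev : LEV := by
  intro O F _ _ _ _ _ ϖ S L hx υ ι Wd _ g r a κ Φ₀ Φ X I Y0 W0 _ _ _ _ m0 mW ses ig iJ b n q τ φ
    ε Yb Wc _ _ _ _ hϖ hC ⟨A, _, Z, hZ⟩ hU hΦ c0 cW hf h
  have hG : Dir (GV hx hf) := dir_G hU (hC.ty _)
  have hne : (GV hx hf).Nonempty :=
    G_ne _ Φ (hC.ty _) ⟨hZ.1, hZ.2.mono (Finset.empty_subset _)⟩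
  have gv := fun i => gv_box (gv_of_gm hx hϖ (h.gm i) r) n ε hf.eps
  choose m cm using fun i => hG.exists_mod ((gv i).ad (in_box hf (h.gm i)) hne)
  obtain ⟨mC, cC⟩ := hG.exists_mod
    ((gv_box (gv_of_gm hx hϖ h.gmC r) n ε hf.eps).ad (in_box hf h.gmC) hne)
  have le : ∀ (A : Type) [CommRing A] (Z : Obj S A), Ty (L.Cl S) ∅ A Z →
      Ty (L.Cl S) (Finset.univ.image q) A Z ∧ Φ A Z = Φ₀ A Z := fun A _ Z k =>
    ⟨⟨k.1, k.2.mono (Finset.empty_subset _)⟩, hΦ A Z k⟩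
  have two : ∀ i (y : Yb i), (2 : Tg O) • y = 0 := fun i y => by
    have h2 : (2 : O) ∈ Ideal.span {ϖ} := hϖ.maximalIdeal_eq ▸ (hx.ok.ker _).1
      ((map_ofNat _ 2).trans (CharP.cast_eq_zero F 2))
    obtain ⟨e, he⟩ := Ideal.mem_span_singleton'.1 h2
    rw [← map_ofNat (MvPolynomial.C : O →+* Tg O) 2, ← he, map_mul, mul_smul]
    exact (congrArg _ (h.pi i y)).trans (smul_zero _)
  have pw : ∀ (V : Type) [AddCommGroup V] [Module (Tg O) V]
      [Module (Core.PS O ((υ ⊕ Fin g) ⊕ Fin r)) (BX (Tg O) a n V)],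
      Cmp (GV hx hf) (BX (Tg O) a n V) → ∀ (j : ℕ) (w : BX (Tg O) a n V) z,
      ((MvPowerSeries.C ϖ : Core.PS O ((υ ⊕ Fin g) ⊕ Fin r)) ^ j • w) z = cc ϖ ^ j • w z :=
    fun V _ _ _ c j w z => by rw [(s_C hf hU c ϖ).pow, ← map_pow, inc_smul]
  have p1 : ∀ (V : Type) [AddCommGroup V] [Module (Tg O) V]
      [Module (Core.PS O ((υ ⊕ Fin g) ⊕ Fin r)) (BX (Tg O) a n V)],
      Cmp (GV hx hf) (BX (Tg O) a n V) → ∀ (w : BX (Tg O) a n V) z,
      ((MvPowerSeries.C ϖ : Core.PS O ((υ ⊕ Fin g) ⊕ Fin r)) • w) z = cc ϖ • w z :=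
    fun V _ _ _ c w z => by rw [s_C hf hU c ϖ, inc_smul]
  refine ⟨fun i => BX (Tg O) a n (Yb i), BX (Tg O) a n Wc, _, m, _, mC, fun i j k s => ?_,
    fun i => dis_of hx.ok.ker hU (cm i), dis_of hx.ok.ker hU cC,
    fun i => s_sb hf hU (cm i) hC hne (h.gm i) (h.sb i),
    fun i w => funext fun z => (p1 _ (cm i) w z).trans (h.pi i _),
    fun i => s_rel hf hU (cm i) (h.dia i), s_rel hf hU cC h.diaC,
    fun i s w => ((s_y hf hU (cm i) (h.dia i) s).pow _ w).trans (pb_nil (two i) (h.dia i) s w),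
    fun i w hw => ?_, fun i => ?_, ?_, fun w => funext fun z => (pw _ cC _ w z).trans (h.piC _),
    fun w hw => ?_, fun s w => ?_, ?_, fun J l hl u hu w => ?_, fun J l hl w => ?_,
    fun t j hj ht w hw hy => ?_⟩
  · obtain ⟨f, f', a1, a2, a3⟩ := h.ex i j k s
    refine ⟨(cm i).lin hG (cm j) (bmap _ f fun _ _ => rfl),
      (cm j).lin hG (cm k) (bmap _ f' fun _ _ => rfl),
      fun v w e => funext fun z => a1 (congrFun e z), fun w => ⟨fun e => ?_, ?_⟩, fun w => ?_⟩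
    · choose v hv using fun z => (a2 (w z)).1 (congrFun e z)
      exact ⟨v, funext hv⟩
    · rintro ⟨v, rfl⟩
      exact funext fun z => (a2 _).2 ⟨v z, rfl⟩
    · choose v hv using fun z => a3 (w z)
      exact ⟨v, funext hv⟩
  · obtain ⟨w', e⟩ := pb_free (two i) (h.free i) ((s_fix hf hU (cm i) (h.dia i)).1 hw)
    exact ⟨w', e.trans
      (Sm.prod _ (fun s => (s_y hf hU (cm i) (h.dia i) s).pow (2 ^ n - 1)) w').symm⟩
  · obtain ⟨β, a1, a2, a3⟩ := h.fib i
    have hne0 : ((hkT hx r).G (Ty (L.Cl S) ∅) Φ₀).Nonempty := G_ne _ Φ₀ (hC.ty _) hZ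
    let _ : Module (Core.PS O ((υ ⊕ Fin g) ⊕ Fin r))
        (Triv PUnit.{1} (Gp (Fin a) n) (Tg O) (Y0 i)) := m0 i
    let _ : Module (Core.PS O ((υ ⊕ Fin g) ⊕ Fin r))
        (Triv PUnit.{1} (Gp (Fin a) n) (Tg O) (Finset (Fin r) → Y0 i)) :=
      Pi.module (Finset (Fin r)) (fun _ => Y0 i) _
    have c1 : Cmp (GV hx hf) (Triv PUnit.{1} (Gp (Fin a) n) (Tg O) (Y0 i)) :=
      cmp_triv (fun _ => rfl) ε hf.eps le (c0 i)
    have c2 : Cmp (GV hx hf) (Triv PUnit.{1} (Gp (Fin a) n) (Tg O) (Finset (Fin r) → Y0 i)) :=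
      c1.pi hG hne (Finset (Fin r))
    let β' : Triv PUnit.{1} (Gp (Fin a) n) (Tg O) (Finset (Fin r) → Y0 i) →ₗ[Core.PS O
        ((υ ⊕ Fin g) ⊕ Fin r)] BX (Tg O) a n (Yb i) :=
      c2.lin hG (cm i) (bconst _ β fun _ _ => rfl)
    refine ⟨β', fun s w => ?_, fun w hw => ?_, fun v hv => ?_⟩
    · refine (s_fix hf hU (cm i) (h.dia i)).2 (fun s => funext fun z => ?_) s
      rcases s with k | k | k
      · exact (inc_smul _ _ z).trans (a1 (.inl k) w)
      · exact (inc_smul _ _ z).trans (a1 (.inr k) w)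
      · exact th_smul _ _ z
    · refine ((s_D hf hU c2).pow X.c w).trans ?_
      rw [← map_pow]
      refine (triv_smul _ _).trans ?_
      rw [aug_inc]
      exact a2 w (congrFun hw 1)
    · obtain ⟨-, b1, b2⟩ := pb_fix ((s_fix hf hU (cm i) (h.dia i)).1 hv)
      obtain ⟨w, hw⟩ := a3 _ b2
      refine ⟨w, funext fun z => ?_⟩
      rw [(s_D hf hU (cm i)).pow, ← map_pow, inc_smul, b1 z]
      exact hw
  · obtain ⟨e, a1, a2⟩ := h.red
    refine ⟨(cm ig).lin hG cC (bmap _ e fun _ _ => rfl),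
      fun v w k => funext fun z => a1 (congrFun k z), fun w => ⟨?_, fun k => ?_⟩⟩
    · rintro ⟨v, rfl⟩
      exact funext fun z => (p1 _ cC _ z).trans ((a2 _).1 ⟨v z, rfl⟩)
    · choose v hv using fun z => (a2 (w z)).2 ((p1 _ cC w z).symm.trans (congrFun k z))
      exact ⟨v, funext hv⟩
  · choose v hv using fun z => h.flat (w z) ((p1 _ cC w z).symm.trans (congrFun hw z))
    exact ⟨v, funext fun z => (hv z).trans (pw _ cC n v z).symm⟩
  · have := (Sm.one.add (s_y hf hU cC h.diaC s)).pow (2 ^ n) w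
    rw [add_sub_cancel] at this
    exact this.trans (pb_pow h.diaC s w)
  · obtain ⟨χ, hχ⟩ := h.cyc
    refine ⟨AddMonoidHom.comp χ (Pi.evalAddMonoidHom (fun _ : Gp (Fin a) n => Wc) 1),
      fun w hw => ?_⟩
    rw [(Sm.prod _ fun i => s_y2 hf hU cC h.diaC i).pow]
    refine funext fun z => ?_
    have e : (∏ i, (ic O a n (ee n τ i) - 1)) ^ X.c = ic O a n ((∏ i, (ee n τ i - 1)) ^ X.c) := by
      simp only [map_pow, map_prod, map_sub, map_one]
    rw [e, inc_smul]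
    refine hχ _ fun p => ?_
    obtain ⟨u, -, k⟩ := s_lt hf hU cC hne h.gmC (ic O a n p * th (Tg O) a n z)
    have := hw u
    rw [k, mul_smul] at this
    change χ ((ic O a n p • th (Tg O) a n z • w) 1) = 0 at this
    rwa [inc_smul, th_smul, one_mul] at this
  · by_cases hw : w = 0
    · rw [hw, smul_zero]
    · obtain ⟨Z, a1, a2, a3, a4⟩ := (gv _).own (in_box hf (h.gm _)) hG (cm _) hw
      refine (a4 _ 0 ?_).trans (zero_smul _ _)
      rw [ev_io hU a1 a2, map_zero]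
      exact hf.τl _ Z a1 l (a3 _ fun x => inc_eq fun z => h.unr J l hl x _) u hu
  · rw [(s_Dl hf hU (cm _) l).pow, ← map_pow]
    exact funext fun z => (inc_smul _ _ z).trans (h.new J l hl _)
  · obtain ⟨b0, b1, b2⟩ := pb_fix ((s_fix hf hU cC h.diaC).1 hy)
    obtain ⟨s, a1, a2⟩ := h.desc j hj (w 1) ((pw _ cC j w 1).symm.trans (congrFun hw 1)) b2
    let _ : Module (Core.PS O ((υ ⊕ Fin g) ⊕ Fin r))
        (Triv PUnit.{1} (Gp (Fin a) n) (Tg O) W0) := mW
    have c1 : Cmp (GV hx hf) (Triv PUnit.{1} (Gp (Fin a) n) (Tg O) W0) :=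
      cmp_triv (fun _ => rfl) ε hf.eps le cW
    obtain ⟨Γ, k, e⟩ := c1.fin hG hne s
    obtain ⟨Γ', k', e'⟩ := cC w
    obtain ⟨Γ'', k'', i1, i2⟩ := hG.dir Γ k Γ' k'
    obtain ⟨p, hp⟩ := hG.sur _ k'' (io O _ r t)
    have a3 := a2 (aug _ _ _ p) fun v hv => (e v hv _ p (i1 hp)).symm.trans (ht v (by
      refine ((s_C hf hU c1 ϖ).pow j v).trans ?_
      rw [← map_pow]
      refine (triv_smul _ _).trans ?_
      rw [aug_inc]
      exact a1 v hv))
    rw [map_mul, map_pow, mul_smul, e' _ p (i2 hp), (s_D hf hU cC).pow, fix_smul b0, ← mul_smul,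
      ← map_pow, ← map_mul]
    refine funext fun z => ?_
    rw [inc_smul, b1 z]
    exact a3

end Vale.Agent.P022D.As
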