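import Vale.Agent.P022D.As.L2a
import Vale.Agent.P022D.As.Lev

/-!
# P022D, assembly: block L2
-/

namespace Vale.Agent.P022D.As

theorem l2 : L2 := l2a lev

end Vale.Agent.P022D.As
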