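import Vale.Agent.P022D.As.Out
import Vale.Agent.P022D.As.Glue

/-!
# P022D, assembly: row OUM
-/

set_option linter.all false

namespace Vale.Agent.P022D.As

/-- row OUM -/
theorem oum : OUM := fun _ _ _ _ _ _ _ _ _ _ _ _ hx _ _ _ _ _ _ _ _ _ _ X x hϖ hC hU hY hc hX
    hxX h => out2 hx hϖ hC hU hY hc X hX x hxX h

end Vale.Agent.P022D.As
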