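import Vale.Agent.P022D.As.Tw
import Vale.Agent.P022D.As.End
import Vale.Agent.P022D.As.Cov
import Vale.Agent.P022D.As.Dual
import Vale.Agent.P022D.As.Dgd
import Vale.Agent.P022D.As.Grp
import Vale.Agent.P022D.As.Oum
import Vale.Agent.P022D.Twq.Main
import Vale.Agent.P022D.Loc.All
import Vale.Agent.P022D.L2c.All

/-!
# P022D, assembly: block L2 from the statement for one level
-/

namespace Vale.Agent.P022D.As

theorem endC : END := endA dtor dann (dgd dgen dtor) grp cov base

theorem l2a (hV : LEV) : L2 :=
  glue endC (Loc.locr2C L2c.two2) bas hV (Tw.twm_of Twq.twq R.univ) oum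

end Vale.Agent.P022D.As
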