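import Vale.Agent.P022D.As.LevD

/-!
# P022D, assembly: tools for one level
-/

set_option linter.all false

open IsLocalRing Filter NumberField

noncomputable section

namespace Vale.Agent.P022D.As

open Vale.Agent.P022 Vale.Agent.P022D.R
open Vale.Agent.P022D.Core (io y1 Coef)
open Vale.Agent.P027M.S (Inert mx)
open Vale.Agent.P022D.Sel (M2)
open Vale.Agent.P022D.Loc (Pl)
open Ideal (torsionOf mem_torsionOf_iff)

section sm

variable {P B : Type} [CommRing P] [CommRing B] (V : Type) [AddCommGroup V] [Module B V]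
  [Module P V]

/-- two elements act in the same way -/
def Sm (u : P) (b : B) : Prop := ∀ v : V, u • v = b • v

variable {V} {u u' : P} {b b' : B}

theorem Sm.one : Sm V (1 : P) (1 : B) := fun v => by rw [one_smul, one_smul]

theorem Sm.zero : Sm V (0 : P) (0 : B) := fun v => by rw [zero_smul, zero_smul]

theorem Sm.add (h : Sm V u b) (k : Sm V u' b') : Sm V (u + u') (b + b') :=
  fun v => by rw [add_smul, add_smul, h, k]

theorem Sm.sub (h : Sm V u b) (k : Sm V u' b') : Sm V (u - u') (b - b') :=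
  fun v => by rw [sub_smul, sub_smul, h, k]

theorem Sm.mul (h : Sm V u b) (k : Sm V u' b') : Sm V (u * u') (b * b') :=
  fun v => by rw [mul_smul, mul_smul, k, h]

theorem Sm.pow (h : Sm V u b) (n : ℕ) : Sm V (u ^ n) (b ^ n) := by
  induction n with
  | zero => rw [pow_zero, pow_zero]; exact Sm.one
  | succ n ih => rw [pow_succ, pow_succ]; exact ih.mul h

theorem Sm.prod {ι : Type} (s : Finset ι) {u : ι → P} {b : ι → B} (h : ∀ i, Sm V (u i) (b i)) :
    Sm V (∏ i ∈ s, u i) (∏ i ∈ s, b i) := by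
  classical
  induction s using Finset.induction_on with
  | empty => rw [Finset.prod_empty, Finset.prod_empty]; exact Sm.one
  | insert i s hi ih => rw [Finset.prod_insert hi, Finset.prod_insert hi]; exact (h i).mul ih

omit [Module P V] in
theorem two_act (h : ∀ v : V, (2 : B) • v = 0) {a b : B}
    (e : Ideal.Quotient.mk (Ideal.span {(2 : B)}) a = Ideal.Quotient.mk _ b) (v : V) :
    a • v = b • v := by
  obtain ⟨c, hc⟩ := Ideal.mem_span_singleton'.1 (Ideal.Quotient.eq.1 e)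
  rw [← sub_eq_zero, ← sub_smul, ← hc, mul_smul, h, smul_zero]

theorem two_zero (B : Type) [CommRing B] : (2 : B ⧸ Ideal.span {(2 : B)}) = 0 :=
  (map_ofNat (Ideal.Quotient.mk (Ideal.span {(2 : B)})) 2).symm.trans
    (Ideal.Quotient.eq_zero_iff_mem.2 (Ideal.mem_span_singleton_self _))

theorem nrm2 {ι R : Type} [Fintype ι] [DecidableEq ι] [CommRing R] (h : (2 : R) = 0) (n : ℕ)
    (u : ι → R) : ∏ i, (u i - 1) ^ (2 ^ n - 1) =
      ∑ k : ι → ZMod (2 ^ n), ∏ i, u i ^ (k i).val := by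
  have e : ∀ x : R, ∑ k ∈ Finset.range (2 ^ n), x ^ k = ∑ c : ZMod (2 ^ n), x ^ c.val := fun x => by
    refine (Finset.sum_bij (fun c _ => c.val) (fun c _ => Finset.mem_range.2 (ZMod.val_lt c))
      (fun a _ b _ e => ZMod.val_injective _ e) (fun k hk => ⟨k, Finset.mem_univ _,
        ZMod.val_cast_of_lt (Finset.mem_range.1 hk)⟩) fun _ _ => rfl).symm
  simp only [pow_geom h, e]
  rw [Finset.prod_univ_sum, Fintype.piFinset_univ]

end sm

section gen

variable {O F : Type} [CommRing O] [IsLocalRing O] [Field F] {S : Dat O F} {r : ℕ} {B : Type}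
  [CommRing B] {H : Hk S r B} {υ : Type} [Finite υ] {g : ℕ} {C : Cl S} {κ : Crd S υ}
  {Φ : Fam S υ g} {V : Type} [AddCommGroup V] [Module B V]
  [Module (Core.PS O ((υ ⊕ Fin g) ⊕ Fin r)) V]

omit [IsLocalRing O] in
theorem sm_of (hc : Cmp (H.G C Φ) V) {u : Core.PS O ((υ ⊕ Fin g) ⊕ Fin r)} {b : B}
    (h : ∀ (A : Type) [CommRing A] (X : Obj S A) (φ : B →+* A), C A X → Ct H X φ →
      H.ev Φ X φ u = φ b) : Sm V u b := fun v => hc.all (by
  rintro _ ⟨A, _, X, φ, c, k, -, rfl⟩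
  exact h A X φ c k) v

omit [IsLocalRing O] in
theorem sm_io (hU : Univ C κ Φ) (hc : Cmp (H.G C Φ) V) {u : PS O υ g} {b : B}
    (h : ∀ (A : Type) [CommRing A] (X : Obj S A) (φ : B →+* A), C A X → Ct H X φ →
      Φ A X u = φ b) : Sm V (io O _ r u) b :=
  sm_of hc fun A _ X φ c k => (ev_io hU c k u).trans (h A X φ c k)

omit [IsLocalRing O] in
theorem sm_C (hU : Univ C κ Φ) (hc : Cmp (H.G C Φ) V) (o : O) :
    Sm V (MvPowerSeries.C o : Core.PS O ((υ ⊕ Fin g) ⊕ Fin r)) (H.ι o) :=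
  sm_of hc fun _ _ _ _ c k => ev_cst hU c k o

omit [IsLocalRing O] in
theorem sm_y (hU : Univ C κ Φ) (hc : Cmp (H.G C Φ) V) (i : Fin r) :
    Sm V (y1 O (υ ⊕ Fin g) i) (H.y i) := sm_of hc fun _ _ _ _ c k => ev_y hU c k i

omit [IsLocalRing O] in
theorem res_G (hU : Univ C κ Φ) {Γ : Subring (Core.PS O ((υ ⊕ Fin g) ⊕ Fin r) × B)}
    (h : Γ ∈ H.G C Φ) {u : Core.PS O ((υ ⊕ Fin g) ⊕ Fin r)} {b : B} (e : (u, b) ∈ Γ) :
    S.red (MvPowerSeries.constantCoeff u) = H.π b := by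
  obtain ⟨A, _, X, φ, c, k, -, rfl⟩ := h
  rw [← ev_res hU c k, mem_gr.1 e, k.π]

theorem mem_max (hk : ∀ c, S.red c = 0 ↔ c ∈ maximalIdeal O) {σ : Type} {u : Core.PS O σ} :
    u ∈ maximalIdeal (Core.PS O σ) ↔ S.red (MvPowerSeries.constantCoeff u) = 0 := by
  rw [hk, mem_maximalIdeal, mem_maximalIdeal, mem_nonunits_iff, mem_nonunits_iff,
    MvPowerSeries.isUnit_iff_constantCoeff]

theorem dis_of (hk : ∀ c, S.red c = 0 ↔ c ∈ maximalIdeal O) (hU : Univ C κ Φ)
    (hc : Cmp (H.G C Φ) V) : Dis (Core.PS O ((υ ⊕ Fin g) ⊕ Fin r)) V := fun v => by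
  obtain ⟨_, ⟨A, _, X, φ, c, k, -, rfl⟩, e⟩ := hc v
  obtain ⟨n, hn⟩ := X.nil
  refine ⟨n, fun u hu => (e u 0 ?_).trans (zero_smul _ _)⟩
  have h1 : maximalIdeal (Core.PS O ((υ ⊕ Fin g) ⊕ Fin r)) ≤
      (RingHom.ker X.π).comap (H.ev Φ X φ) := fun f hf =>
    (ev_res hU c k f).trans ((mem_max hk).1 hf)
  have h2 := ((Ideal.pow_right_mono h1 n).trans (Ideal.le_comap_pow _ n)) hu
  rw [hn, Ideal.mem_comap, Ideal.mem_bot] at h2
  rw [mem_gr, h2, map_zero]

variable (H υ g V) in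
/-- `b` has a lift -/
def Lt (b : B) : Prop := ∃ u : Core.PS O ((υ ⊕ Fin g) ⊕ Fin r),
  S.red (MvPowerSeries.constantCoeff u) = H.π b ∧ Sm V u b

omit [IsLocalRing O] [Finite υ] in
theorem Lt.add {b b' : B} (h : Lt H υ g V b) (k : Lt H υ g V b') : Lt H υ g V (b + b') := by
  obtain ⟨u, a, c⟩ := h
  obtain ⟨u', a', c'⟩ := k
  exact ⟨u + u', by rw [map_add, map_add, map_add, a, a'], c.add c'⟩

omit [IsLocalRing O] [Finite υ] in
theorem Lt.mul {b b' : B} (h : Lt H υ g V b) (k : Lt H υ g V b') : Lt H υ g V (b * b') := by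
  obtain ⟨u, a, c⟩ := h
  obtain ⟨u', a', c'⟩ := k
  exact ⟨u * u', by rw [map_mul, map_mul, map_mul, a, a'], c.mul c'⟩

omit [IsLocalRing O] [Finite υ] in
theorem Lt.one : Lt H υ g V 1 := ⟨1, by rw [map_one, map_one, map_one], Sm.one⟩

omit [IsLocalRing O] in
theorem lt_of (hU : Univ C κ Φ) (hne : (H.G C Φ).Nonempty) (hc : Cmp (H.G C Φ) V) {b : B}
    {u : Core.PS O ((υ ⊕ Fin g) ⊕ Fin r)}
    (h : ∀ (A : Type) [CommRing A] (X : Obj S A) (φ : B →+* A), C A X → Ct H X φ →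
      H.ev Φ X φ u = φ b) : Lt H υ g V b := by
  refine ⟨u, ?_, sm_of hc h⟩
  obtain ⟨_, A, _, X, φ, c, k, s, rfl⟩ := hne
  exact res_G hU ⟨A, _, X, φ, c, k, s, rfl⟩ (h A X φ c k)

omit [IsLocalRing O] in
theorem lt_ev (hU : Univ C κ Φ) (hne : (H.G C Φ).Nonempty) (hc : Cmp (H.G C Φ) V) {b : B}
    (w : W O) (h : ∀ (A : Type) [CommRing A] (X : Obj S A) (φ : B →+* A), Ct H X φ →
      X.ev w = φ b) : Lt H υ g V b := by
  obtain ⟨f, hf⟩ := hU.gen w
  exact lt_of hU hne hc fun A _ X φ c k => (ev_io hU c k f).trans ((hf A X c).trans (h A X φ k))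

omit [IsLocalRing O] in
/-- the image of the symbols has lifts -/
theorem lt_tg (hU : Univ C κ Φ) (hne : (H.G C Φ).Nonempty) (hc : Cmp (H.G C Φ) V)
    (j : Tg O →+* B) (h1 : ∀ o, j (cc o) = H.ι o) (h2 : ∀ x, j (tt x) = H.t x)
    (h3 : ∀ x, j (dd x) = H.d x) (h4 : ∀ i : Fin r, j (yy i) = H.y i)
    (h5 : ∀ i, r ≤ i → H.π (j (yy i)) = 0 ∧ ∀ v : V, j (yy i) • v = 0) (p : Tg O) :
    Lt H υ g V (j p) := by
  induction p using MvPolynomial.induction_on with
  | C o => exact (h1 o).symm ▸ lt_of hU hne hc fun _ _ _ _ c k => ev_cst hU c k o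
  | add p q hp hq => rw [map_add]; exact hp.add hq
  | mul_X p v hp =>
    rw [map_mul]
    refine hp.mul ?_
    rcases v with x | x | i
    · refine (h2 x).symm ▸ lt_ev hU hne hc (MvPolynomial.X (.inl x, 0, 0) +
        MvPolynomial.X (.inl x, 1, 1)) fun A _ X φ k => ?_
      rw [map_add, ev_X, ev_X, k.t, Matrix.trace_fin_two]
      rfl
    · refine (h3 x).symm ▸ lt_ev hU hne hc (MvPolynomial.X (.inl x, 0, 0) *
        MvPolynomial.X (.inl x, 1, 1) - MvPolynomial.X (.inl x, 0, 1) *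
        MvPolynomial.X (.inl x, 1, 0)) fun A _ X φ k => ?_
      rw [map_sub, map_mul, map_mul, ev_X, ev_X, ev_X, ev_X, k.d, Matrix.det_fin_two]
      rfl
    · by_cases hi : i < r
      · exact (h4 ⟨i, hi⟩).symm ▸ lt_of hU hne hc fun _ _ _ _ c k => ev_y hU c k _
      · obtain ⟨a, b⟩ := h5 i (not_lt.1 hi)
        exact ⟨0, by rw [map_zero, map_zero]; exact a.symm,
          fun v => (zero_smul _ _).trans (b v).symm⟩

theorem sb_of (hk : ∀ c, S.red c = 0 ↔ c ∈ maximalIdeal O) (hU : Univ C κ Φ) (hC : Closed C)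
    (hc : Cmp (H.G C Φ) V) (hl : ∀ b, Lt H υ g V b) {k : ℕ} (s : Fin k → V)
    (h1 : ∀ j b, H.π b = 0 → b • s j = 0)
    (h2 : ∀ w : V, (∀ b, H.π b = 0 → b • w = 0) → w ∈ Submodule.span B (Set.range s)) :
    Sb (Core.PS O ((υ ⊕ Fin g) ⊕ Fin r)) k V := by
  refine ⟨s, fun j u hu => ?_, fun w hw => ?_⟩
  · obtain ⟨Γ, a, e⟩ := hc (s j)
    obtain ⟨t, ht⟩ := (dir_G hU hC).sur Γ a u
    rw [e u t ht, h1 j t ((res_G hU a ht).symm.trans ((mem_max hk).1 hu))]
  · obtain ⟨c, rfl⟩ := (Submodule.mem_span_range_iff_exists_fun B).1 (h2 w fun b hb => by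
      obtain ⟨u, a, e⟩ := hl b
      rw [← e, hw u ((mem_max hk).2 (a.trans hb))])
    refine Submodule.sum_mem _ fun j _ => ?_
    obtain ⟨u, -, e⟩ := hl (c j)
    rw [← e]
    exact Submodule.smul_mem _ _ (Submodule.subset_span ⟨j, rfl⟩)

omit [Module (Core.PS O ((υ ⊕ Fin g) ⊕ Fin r)) V] [Finite υ] in
theorem in_cl {L : Pl O} (hL : L.Ok S) {Q : Finset ℕ}
    (h1 : ∀ x ∈ L.TT, ∀ w : V, H.t x • w = H.ι (L.r x).trace • w)
    (h2 : ∀ x ∈ L.DD, ∀ w : V, H.d x • w = H.ι (L.r x).det • w)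
    (h3 : ∀ l : ℕ, l.Prime → l ∉ S.T → l ∉ Q → ∀ P : Ideal (𝓞 Qb), P.IsPrime →
      (l : 𝓞 Qb) ∈ P → ∀ s, Inert P s → ∀ x (w : V), H.t (x * s) • w = H.t x • w) :
    In H V (Ty (L.Cl S) Q) := fun w X k o => by
  refine ⟨Loc.cnd_of_cls hL X (fun x hx => ?_) fun x hx => ?_,
    fun l a b c P d e s f => o s fun x => h3 l a b c P d e s f x w⟩
  · rw [← k.t, ← k.ι, Ideal.Quotient.eq, mem_torsionOf_iff, sub_smul, h1 x hx, sub_self]
  · rw [← k.d, ← k.ι, Ideal.Quotient.eq, mem_torsionOf_iff, sub_smul, h2 x hx, sub_self]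

end gen

section tg

variable {O F : Type} [CommRing O] [IsDomain O] [IsDiscreteValuationRing O] [Field F]
  {S : Dat O F} {L : Pl O} {ϖ : O} {Y : Type} [AddCommGroup Y] [Module (Tg O) Y]

theorem mem_mT (hx : Fx S L) (r : ℕ) {p : Tg O} : p ∈ mT L.r ↔ (hkT hx r).π p = 0 :=
  (hx.ok.ker _).symm

theorem sub_act {a b : Tg O} {w : Y} (h : a - b ∈ torsionOf (Tg O) Y w) : a • w = b • w := by
  rwa [mem_torsionOf_iff, sub_smul, sub_eq_zero] at h

theorem gv_of_gm (hx : Fx S L) (hϖ : Irreducible ϖ) {Q : Finset ℕ} {r' : ℕ}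
    (h : Gm ϖ L S.T Q r' Y) (r : ℕ) : Gv (hkT hx r) Y where
  fin w := by
    have := (h w).fin
    refine (Set.finite_range fun x : Tg O ⧸ torsionOf (Tg O) Y w => x.out • w).subset ?_
    rintro _ ⟨b, rfl⟩
    exact ⟨Ideal.Quotient.mk _ b, sub_act (Ideal.Quotient.eq.1 (Ideal.Quotient.mk_out _))⟩
  nil w b hb := by
    have h1 : ∀ p : Tg O, p - cc (ev0 L.r p) ∈ (torsionOf (Tg O) Y w).radical := fun p => by
      induction p using MvPolynomial.induction_on with
      | C o =>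
        rw [show ev0 L.r (MvPolynomial.C o) = o from ev0_cc L.r o]
        exact (sub_self (cc o)).symm ▸ zero_mem _
      | add p q hp hq =>
        have := add_mem hp hq
        rwa [map_add, cc, map_add, show p + q - (MvPolynomial.C (ev0 L.r p) +
          MvPolynomial.C (ev0 L.r q)) = p - cc (ev0 L.r p) + (q - cc (ev0 L.r q)) by
            unfold cc; ring]
      | mul_X p v hp =>
        have h2 : MvPolynomial.X v - cc (ev0 L.r (MvPolynomial.X v)) ∈
            (torsionOf (Tg O) Y w).radical := by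
          rcases v with x | x | i
          · exact (ev0_tt L.r x).symm ▸ (h w).nilt x
          · exact (ev0_dd L.r x).symm ▸ (h w).nild x
          · rw [show ev0 L.r (MvPolynomial.X (.inr (.inr i))) = 0 from ev0_yy L.r i, cc, map_zero,
              sub_zero]
            exact (h w).nily i
        have := add_mem (Ideal.mul_mem_right (MvPolynomial.X v) _ hp)
          (Ideal.mul_mem_left _ (cc (ev0 L.r p)) h2)
        rwa [map_mul, cc, map_mul, show p * MvPolynomial.X v - MvPolynomial.C (ev0 L.r p) *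
          MvPolynomial.C (ev0 L.r (MvPolynomial.X v)) = (p - cc (ev0 L.r p)) * MvPolynomial.X v +
          cc (ev0 L.r p) * (MvPolynomial.X v - cc (ev0 L.r (MvPolynomial.X v))) by
            unfold cc; ring]
    have h2 : ev0 L.r b ∈ Ideal.span {ϖ} := hϖ.maximalIdeal_eq ▸ (hx.ok.ker _).1 hb
    obtain ⟨e, he⟩ := Ideal.mem_span_singleton'.1 h2
    have h3 : cc (ev0 L.r b) ∈ (torsionOf (Tg O) Y w).radical := by
      rw [← he, cc, map_mul]
      exact Ideal.mul_mem_left _ _ (h w).nil0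
    simpa using add_mem (h1 b) h3
  tf w := ⟨(h w).t1, (h w).tc, (h w).tm, (h w).d1, (h w).dm, (h w).opn⟩

end tg

section box

variable {O F : Type} [CommRing O] [Field F] {S : Dat O F} {r a : ℕ} {T : Type} [CommRing T]

/-- the group ring of the frames -/
abbrev BR (T : Type) [CommRing T] (a n : ℕ) : Type := GR T PUnit.{1} (Gp (Fin a) n)

/-- functions on the group of frames -/
abbrev BX (T : Type) [CommRing T] (a n : ℕ) (Y : Type) [AddCommGroup Y] [Module T Y] : Type :=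
  Box (Gp (Fin a) n) (1 : PUnit.{1} →* Module.End T Y)

/-- the group elements -/
def th (T : Type) [CommRing T] (a n : ℕ) : Gp (Fin a) n →* BR T a n :=
  (og T).comp (MonoidHom.inr _ _)

open Classical in
/-- the frames -/
def frm (T : Type) [CommRing T] (n : ℕ) (ε : Fin a → ℕ × Fin 2 × Fin 2) (l : ℕ) : M2 (BR T a n) :=
  1 + Matrix.of fun p p' => ∑ k, if ε k = (l, p, p') then th T a n (ge n k) - 1 else 0

theorem frm_eps {n : ℕ} {ε : Fin a → ℕ × Fin 2 × Fin 2} (h : Function.Injective ε) (j : Fin a) :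
    (frm T n ε (ε j).1 - 1) (ε j).2.1 (ε j).2.2 = th T a n (ge n j) - 1 := by
  rw [frm, add_sub_cancel_left, Matrix.of_apply, Finset.sum_eq_single j, if_pos rfl]
  · exact fun k _ hk => if_neg fun e => hk (h e)
  · simp

theorem aug_th {n : ℕ} (z : Gp (Fin a) n) : aug T _ _ (th T a n z) = 1 := aug_og _

theorem frm_aug (n : ℕ) (ε : Fin a → ℕ × Fin 2 × Fin 2) (l : ℕ) :
    (frm T n ε l).map (aug T _ _) = 1 := by
  rw [← map_one' (aug T PUnit.{1} (Gp (Fin a) n))]
  ext p p'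
  rw [frm, Matrix.map_apply, Matrix.map_apply, Matrix.add_apply, map_add, Matrix.of_apply, map_sum,
    Finset.sum_eq_zero, add_zero]
  intro k _
  split_ifs
  · rw [map_sub, aug_th, map_one, sub_self]
  · exact map_zero _

/-- the symbols with frames -/
def Hk.box (H : Hk S r T) (n : ℕ) (ε : Fin a → ℕ × Fin 2 × Fin 2)
    (hε : ∀ j, (ε j).1 ∈ S.T ∧ ε j ≠ (S.l0, 0, 0)) : Hk S r (BR T a n) where
  ι := (inc T _ _).comp H.ι
  π := H.π.comp (aug T _ _)
  t g := inc T _ _ (H.t g)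
  d g := inc T _ _ (H.d g)
  al := frm T n ε
  y i := inc T _ _ (H.y i)
  alg c := by rw [RingHom.comp_apply, RingHom.comp_apply, aug_inc, H.alg]
  ht g := by rw [RingHom.comp_apply, aug_inc, H.ht]
  hd g := by rw [RingHom.comp_apply, aug_inc, H.hd]
  one l := by rw [RingHom.coe_comp, ← Matrix.map_map, frm_aug, map_one']
  off l hl := by
    ext1 p p'
    rw [frm, Matrix.add_apply, Matrix.of_apply, Finset.sum_eq_zero, add_zero]
    exact fun k _ => if_neg fun e => hl (by have := (hε k).1; rwa [e] at this)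
  fr := by
    rw [frm, Matrix.add_apply, Matrix.of_apply, Finset.sum_eq_zero, add_zero, Matrix.one_apply_eq]
    exact fun k _ => if_neg (hε k).2
  hy i := by rw [RingHom.comp_apply, aug_inc, H.hy]
  h10 := H.h10
  lam := H.lam
  opn := H.opn

variable {n : ℕ} {Y : Type} [AddCommGroup Y] [Module T Y]

theorem th_smul (z : Gp (Fin a) n) (w : BX T a n Y) (z' : Gp (Fin a) n) :
    (th T a n z • w) z' = w (z' * z) := og_smul (1, z) w z'

theorem inc_eq {c c' : T} {w : BX T a n Y} (h : ∀ z, c • w z = c' • w z) :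
    inc T PUnit.{1} (Gp (Fin a) n) c • w = inc T PUnit.{1} (Gp (Fin a) n) c' • w := funext fun z => by rw [inc_smul, inc_smul, h]

theorem inc_mem {c : T} {w : BX T a n Y} (h : ∀ z, c ∈ torsionOf T Y (w z)) :
    inc T _ _ c ∈ torsionOf (BR T a n) (BX T a n Y) w :=
  funext fun z => (inc_smul c w z).trans (h z)

theorem gv_box [CharP F 2] {H : Hk S r T} (h : Gv H Y) (n : ℕ) (ε : Fin a → ℕ × Fin 2 × Fin 2)
    (hε : ∀ j, (ε j).1 ∈ S.T ∧ ε j ≠ (S.l0, 0, 0)) : Gv (H.box n ε hε) (BX T a n Y) where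
  fin w := by
    have := fun z => (h.fin (w z)).to_subtype
    refine (Set.finite_range fun (c : ∀ z z' : Gp (Fin a) n,
      Set.range fun b : T => b • w (z * z')) => (show BX T a n Y from
        fun z => ∑ z', (c z z' : Y))).subset ?_
    rintro _ ⟨b, rfl⟩
    obtain ⟨c, rfl⟩ := gr_sum b
    refine ⟨fun z z' => ⟨_, c (1, z'), rfl⟩, funext fun z => ?_⟩
    change _ = ((∑ γ, inc T _ _ (c γ) * og T γ) • w) z
    rw [Finset.sum_smul, box_sum, Fintype.sum_prod_type, Fintype.sum_unique]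
    refine Finset.sum_congr rfl fun z' _ => ?_
    rw [mul_smul, inc_smul, og_smul]
    rfl
  nil w b hb := by
    have h1 : ∀ c, H.π c = 0 → inc T _ _ c ∈ (torsionOf (BR T a n) (BX T a n Y) w).radical :=
      fun c hc => by
        choose k hk using fun z => h.nil (w z) c hc
        refine ⟨∑ z, k z, ?_⟩
        rw [← map_pow]
        exact inc_mem fun z => Ideal.pow_mem_of_pow_mem _ (hk z)
          (Finset.single_le_sum (fun _ _ => Nat.zero_le _) (Finset.mem_univ z))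
    have h2 : (2 : BR T a n) ∈ (torsionOf (BR T a n) (BX T a n Y) w).radical := by
      rw [← map_ofNat (inc T PUnit.{1} (Gp (Fin a) n)) 2]
      exact h1 2 ((map_ofNat _ 2).trans (CharP.cast_eq_zero F 2))
    have h3 : ∀ γ, og T γ - 1 ∈ (torsionOf (BR T a n) (BX T a n Y) w).radical := fun γ => by
      refine Ideal.mem_radical_of_pow_mem (m := 2 ^ n) ((Ideal.span_singleton_le_iff_mem _).2 h2 ?_)
      rw [← Ideal.Quotient.eq_zero_iff_mem, map_pow, map_sub, map_one, pow_two_pow (two_zero _),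
        ← map_pow, ← map_pow, show γ ^ 2 ^ n = 1 from Prod.ext rfl (gp_pow γ.2), map_one, map_one,
        sub_self]
    have h4 : ∀ b : BR T a n, b - inc T _ _ (aug T _ _ b) ∈
        (torsionOf (BR T a n) (BX T a n Y) w).radical := fun b => by
      induction b using gr_ind with
      | h1 c γ =>
        rw [map_mul, aug_inc, aug_og, mul_one, ← mul_sub_one]
        exact Ideal.mul_mem_left _ _ (h3 γ)
      | h2 x y hx hy =>
        rw [map_add, map_add, add_sub_add_comm]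
        exact add_mem hx hy
    simpa using add_mem (h4 b) (h1 _ hb)
  tf w := by
    choose U hU hU' using fun z => (h.tf (w z)).opn
    refine ⟨?_, fun x y => ?_, fun x y => ?_, ?_, fun x y => ?_, ⨅ z, U z, ?_, fun u hu x => ?_⟩
    · have := inc_mem fun z => (h.tf (w z)).t1
      rwa [map_sub, map_ofNat] at this
    · have := inc_mem fun z => (h.tf (w z)).tc x y
      rwa [map_sub] at this
    · have := inc_mem fun z => (h.tf (w z)).tm x y
      rwa [map_sub, map_add, map_mul, map_mul] at this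
    · have := inc_mem fun z => (h.tf (w z)).d1
      rwa [map_sub, map_one] at this
    · have := inc_mem fun z => (h.tf (w z)).dm x y
      rwa [map_sub, map_mul] at this
    · rw [Subgroup.coe_iInf]
      exact isOpen_iInter_of_finite hU
    · have := inc_mem fun z => hU' z u (Subgroup.mem_iInf.1 hu z) x
      rwa [map_sub] at this

theorem aug_surj : Function.Surjective (aug T PUnit.{1} (Gp (Fin a) n)) := fun c => ⟨_, aug_inc c⟩

theorem cmp_triv {υ : Type} [Finite υ] {g : ℕ} {C C₀ : Cl S} {Φ Φ₀ : Fam S υ g} {H : Hk S r T}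
    (hal : ∀ l, H.al l = 1) (ε : Fin a → ℕ × Fin 2 × Fin 2)
    (hε : ∀ j, (ε j).1 ∈ S.T ∧ ε j ≠ (S.l0, 0, 0))
    (h : ∀ (A : Type) [CommRing A] (Z : Obj S A), C₀ A Z → C A Z ∧ Φ A Z = Φ₀ A Z)
    [m : Module (Core.PS O ((υ ⊕ Fin g) ⊕ Fin r)) Y] (hc : Cmp (H.G C₀ Φ₀) Y) :
    @Cmp _ _ _ _ ((H.box n ε hε).G C Φ) (Triv PUnit.{1} (Gp (Fin a) n) T Y) _ _ m := fun v => by
  obtain ⟨_, ⟨A, _, X, φ, c, k, s, rfl⟩, e⟩ := hc v
  have e1 : ∀ t, (φ.comp (aug T PUnit.{1} (Gp (Fin a) n))) (inc T _ _ t) = φ t := fun t =>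
    congrArg φ (aug_inc t)
  refine ⟨_, ⟨A, _, X, φ.comp (aug T _ _), (h A X c).1, ⟨fun o => (e1 _).trans (k.ι o),
    fun x => (e1 _).trans (k.t x), fun x => (e1 _).trans (k.d x), fun l => ?_,
    fun b => k.π _⟩, s.comp aug_surj, rfl⟩, fun f t ht => e f (aug T _ _ t) ?_⟩
  · change (frm T n ε l).map (φ ∘ aug T _ _) = _
    rw [← Matrix.map_map, frm_aug, ← k.al, hal]
  · rw [mem_gr] at ht ⊢
    refine Eq.trans ?_ ht
    have e2 : (fun i => (φ.comp (aug T PUnit.{1} (Gp (Fin a) n))) ((H.box n ε hε).y i)) =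
        fun i => φ (H.y i) := funext fun i => e1 _
    rw [Hk.ev, Hk.ev, e2, (h A X c).2]

end box

end Vale.Agent.P022D.As
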