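import Vale.Agent.P022D.As.Defs3
import Vale.Agent.P022D.As.Pt
import Vale.Agent.P022D.CA.Cpl

/-!
# P022D, assembly: row SY0 (the action of the power series ring at the base level)
-/

set_option linter.all false

open IsLocalRing Filter NumberField

noncomputable section

namespace Vale.Agent.P022D.As

open Vale.Agent.P022 Vale.Agent.P022D.R
open Vale.Agent.P022D.Core (io y1 Coef)
open Vale.Agent.P027M.S (Inert mx)
open Vale.Agent.P022D.Sel (M2 Sc Tan)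
open Vale.Agent.P022D.Loc (Pl Ix Kil)

section
variable {O F : Type} [CommRing O] [IsLocalRing O] [Field F] {S : Dat O F} {L : Pl O}

theorem ev0_cc (r : GQ →* M2 O) (c : O) : ev0 r (cc c) = c := MvPolynomial.eval₂Hom_C _ _ c
theorem ev0_tt (r : GQ →* M2 O) (g : GQ) : ev0 r (tt g) = (r g).trace :=
  MvPolynomial.eval₂Hom_X' _ _ _
theorem ev0_dd (r : GQ →* M2 O) (g : GQ) : ev0 r (dd g) = (r g).det :=
  MvPolynomial.eval₂Hom_X' _ _ _
theorem ev0_yy (r : GQ →* M2 O) (i : ℕ) : ev0 r (yy i) = 0 := MvPolynomial.eval₂Hom_X' _ _ _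

theorem tg_ext {A : Type} [CommRing A] {φ ψ : Tg O →+* A} (h1 : ∀ c, φ (cc c) = ψ (cc c))
    (h2 : ∀ g, φ (tt g) = ψ (tt g)) (h3 : ∀ g, φ (dd g) = ψ (dd g))
    (h4 : ∀ i, φ (yy i) = ψ (yy i)) : φ = ψ := by
  refine MvPolynomial.ringHom_ext h1 ?_
  rintro (g | g | i)
  exacts [h2 g, h3 g, h4 i]

theorem red_tr (hL : L.Ok S) (g : GQ) : S.red (L.r g).trace = (mx S.rb g).trace := by
  rw [← hL.lift g]; exact AddMonoidHom.map_trace S.red (L.r g)

theorem red_det (hL : L.Ok S) (g : GQ) : S.red (L.r g).det = (mx S.rb g).det := by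
  rw [← hL.lift g]; exact S.red.map_det _

/-- the residue map of a canonical object -/
theorem Can.res0 (hL : L.Ok S) {a : Ideal (Tg O)} {X : Obj S (Tg O ⧸ a)} (h : Can a X)
    (t : Tg O) : X.π (Ideal.Quotient.mk a t) = S.red (ev0 L.r t) := by
  have e : X.π.comp (Ideal.Quotient.mk a) = S.red.comp (ev0 L.r) := by
    refine tg_ext (fun c => ?_) (fun g => ?_) (fun g => ?_) fun i => ?_ <;>
      rw [RingHom.comp_apply, RingHom.comp_apply]
    · rw [← h.io, X.alg, ev0_cc]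
    · rw [← h.tr, Loc.obj_tr, ev0_tt, red_tr hL]
    · rw [← h.det, Loc.obj_det, ev0_dd, red_det hL]
    · rw [h.y, ev0_yy, map_zero]
  exact RingHom.congr_fun e t

/-- the symbols without frames and diamond operators -/
def hkT (hF : Fx S L) : Hk S 0 (Tg O) where
  ι := MvPolynomial.C
  π := S.red.comp (ev0 L.r)
  t := tt
  d := dd
  al _ := 1
  y _ := 0
  alg c := congrArg S.red (ev0_cc L.r c)
  ht g := (congrArg S.red (ev0_tt L.r g)).trans (red_tr hF.ok g)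
  hd g := (congrArg S.red (ev0_dd L.r g)).trans (red_det hF.ok g)
  one _ := map_one' _
  off _ _ := rfl
  fr := rfl
  hy _ := map_zero _
  h10 := h10_of_dh hF.ok.dh
  lam := hF.lam
  opn := hF.ok.dh.opn

theorem Can.ctT (hF : Fx S L) {a : Ideal (Tg O)} {X : Obj S (Tg O ⧸ a)} (h : Can a X) :
    Ct (hkT hF) X (Ideal.Quotient.mk a) :=
  ⟨fun c => (h.io c).symm, fun g => (h.tr g).symm, fun g => (h.det g).symm,
    fun l => (map_one' _).trans (h.al l).symm, h.res0 hF.ok⟩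

theorem exists_tr {τ : Type} {g : ℕ} {C : Cl S} {κ : Crd S τ} {Φ : Fam S τ g} (hU : Univ C κ Φ)
    (s : GQ) : ∃ f, ∀ (A : Type) [CommRing A] (X : Obj S A), C A X → Φ A X f = (X.ρ s).trace := by
  obtain ⟨f, hf⟩ := hU.gen (MvPolynomial.X (Sum.inl s, 0, 0) + MvPolynomial.X (Sum.inl s, 1, 1))
  refine ⟨f, fun A _ X c => ?_⟩
  rw [hf A X c, map_add, ev_X, ev_X, Matrix.trace_fin_two]
  rfl

theorem exists_det {τ : Type} {g : ℕ} {C : Cl S} {κ : Crd S τ} {Φ : Fam S τ g} (hU : Univ C κ Φ)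
    (s : GQ) : ∃ f, ∀ (A : Type) [CommRing A] (X : Obj S A), C A X → Φ A X f = (X.ρ s).det := by
  obtain ⟨f, hf⟩ := hU.gen (MvPolynomial.X (Sum.inl s, 0, 0) * MvPolynomial.X (Sum.inl s, 1, 1) -
    MvPolynomial.X (Sum.inl s, 0, 1) * MvPolynomial.X (Sum.inl s, 1, 0))
  refine ⟨f, fun A _ X c => ?_⟩
  rw [hf A X c, map_sub, map_mul, map_mul, ev_X, ev_X, ev_X, ev_X, Matrix.det_fin_two]
  rfl

theorem exists_ent {τ : Type} {g : ℕ} {C : Cl S} {κ : Crd S τ} {Φ : Fam S τ g} (hU : Univ C κ Φ)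
    (s : GQ) (i j : Fin 2) :
    ∃ f, ∀ (A : Type) [CommRing A] (X : Obj S A), C A X → Φ A X f = X.ρ s i j := by
  obtain ⟨f, hf⟩ := hU.gen (MvPolynomial.X (Sum.inl s, i, j))
  refine ⟨f, fun A _ X c => ?_⟩
  rw [hf A X c, ev_X]
  rfl

end

/-- row SY0 -/
theorem sy0 (hG : GI) (hO : OBJ) (hM : MAP) : SY0 := by
  classical
  intro O F _ _ _ _ _ _ ϖ S L β τ ι _ _ κ g D Φ hϖ hF hK hU
  haveI := Coef.cpl (O := O)
  obtain ⟨-, -, -, hpk, -⟩ := hG O F ϖ S L hϖ hF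
  obtain ⟨hom, ty⟩ := hM O F ϖ S L hF
  have ex := hO O F ϖ S L hϖ hF ∅ 0
  let R : Ideal (Tg O) → Subring (Core.PS O (Ix τ L ⊕ Fin g) × Tg O) := fun a =>
    if h : ∃ X : Obj S (Tg O ⧸ a), Can a X then gr (Φ _ h.choose) (Ideal.Quotient.mk a) else ⊤
  have of : ∀ a ∈ Gi ϖ L S.T ∅ 0, ∀ X : Obj S (Tg O ⧸ a), Can a X →
      ∀ f t, (f, t) ∈ R a ↔ Φ _ X f = Ideal.Quotient.mk a t := by
    intro a ha X hX f t
    have h := ex a ha
    have e := hU.nat _ _ h.choose X _ (ty _ _ a _ ha.2 h.choose_spec) (ty _ _ a X ha.2 hX)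
      (hom a a le_rfl _ X h.choose_spec hX) f
    rw [Ideal.Quotient.factor_eq, RingHom.id_apply] at e
    simp only [R, dif_pos h, mem_gr, e]
  choose ft hft using exists_tr hU
  choose fd hfd using exists_det hU
  choose fe hfe using exists_ent hU
  let μ : Tg O →+* Core.PS O (Ix τ L ⊕ Fin g) :=
    MvPolynomial.eval₂Hom MvPowerSeries.C (Sum.elim ft (Sum.elim fd fun _ => 0))
  have μc : ∀ o, μ (cc o) = MvPowerSeries.C o := fun o => MvPolynomial.eval₂Hom_C _ _ o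
  have μt : ∀ s, μ (tt s) = ft s := fun s => MvPolynomial.eval₂Hom_X' _ _ _
  have μd : ∀ s, μ (dd s) = fd s := fun s => MvPolynomial.eval₂Hom_X' _ _ _
  have μy : ∀ i, μ (yy i) = 0 := fun s => MvPolynomial.eval₂Hom_X' _ _ _
  haveI : Finite F := (ex _ (hpk 0)).choose.finF
  choose Xk hXk using exists_ptO L.r hF.ok.ker hF.ok.lift hF.ok.dh hF.lam hF.ok.cont
  have cXk : ∀ k, Ty (L.Cl S) ∅ _ (Xk k) := fun k => ⟨(hXk k).cnd hF.ok, (hXk k).unr hF.unr ∅⟩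
  obtain ⟨x, -, hx, -⟩ := exists_x hU L.r hF.ok.ker hF.ok.lift hF.ok.dh hF.lam Xk hXk cXk 0
  have hres : ∀ a ∈ Gi ϖ L S.T ∅ 0, ∀ X : Obj S (Tg O ⧸ a), Can a X → ∀ f,
      f ∈ maximalIdeal (Core.PS O (Ix τ L ⊕ Fin g)) ↔ X.π (Φ _ X f) = 0 := by
    intro a ha X hX f
    rw [hU.res _ X (ty _ _ a X ha.2 hX), hF.ok.ker, CA.Cpl.mem_max_iff]
  refine ⟨⟨R, μ, x.comp (io O _ 0), fun s => Matrix.of (fe s), ?_, ?_, ?_, ?_, μc, ?_, ?_, ?_, ?_,
    ?_⟩, of⟩
  · intro a ha f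
    obtain ⟨X, hX⟩ := ex a ha
    obtain ⟨t, ht⟩ := Ideal.Quotient.mk_surjective (Φ _ X f)
    exact ⟨t, (of a ha X hX f t).2 ht.symm⟩
  · intro a ha t
    obtain ⟨X, hX⟩ := ex a ha
    rw [of a ha X hX, map_zero, eq_comm, Ideal.Quotient.eq_zero_iff_mem]
  · rintro a ha b hb hab ⟨f, t⟩ h
    obtain ⟨X, hX⟩ := ex a ha
    obtain ⟨Y, hY⟩ := ex b hb
    rw [of a ha X hX] at h
    rw [of b hb Y hY, ← hU.nat _ _ X Y _ (ty _ _ a X ha.2 hX) (ty _ _ b Y hb.2 hY)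
      (hom a b hab X Y hX hY) f, h]
    rfl
  · intro a ha t
    obtain ⟨X, hX⟩ := ex a ha
    have c := ty _ _ a X ha.2 hX
    rw [of a ha X hX]
    have e : (Φ _ X).comp μ = Ideal.Quotient.mk a := by
      refine tg_ext (fun o => ?_) (fun s => ?_) (fun s => ?_) fun i => ?_ <;>
        rw [RingHom.comp_apply]
      · rw [μc, hU.cst _ X c, hX.io]
      · rw [μt, hft s _ X c, hX.tr]
      · rw [μd, hfd s _ X c, hX.det]
      · rw [μy, map_zero, eq_comm, Ideal.Quotient.eq_zero_iff_mem]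
        exact ha.2.yz i (Nat.zero_le i)
    exact RingHom.congr_fun e t
  · intro a ha
    obtain ⟨X, hX⟩ := ex a ha
    obtain ⟨k, hk⟩ := X.nil
    refine ⟨k, fun f hf => ?_⟩
    rw [of a ha X hX, map_zero, ← Ideal.mem_bot, ← hk]
    have h1 : maximalIdeal (Core.PS O (Ix τ L ⊕ Fin g)) ≤ (RingHom.ker X.π).comap (Φ _ X) :=
      fun u hu => (hres a ha X hX u).1 hu
    exact Ideal.le_comap_pow _ k (Ideal.pow_right_mono h1 k hf)
  · intro a ha f t h
    obtain ⟨X, hX⟩ := ex a ha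
    rw [of a ha X hX] at h
    rw [hres a ha X hX, h, hX.res0 hF.ok, hF.ok.ker]
    rfl
  · intro a ha f hf
    obtain ⟨X, hX⟩ := ex a ha
    have c := ty _ _ a X ha.2 hX
    rw [of a ha X hX, map_zero]
    exact (hK _ X c.1 (Φ _ X) (hU.cst _ X c) (hU.crd _ X c)).eqs hf
  · intro k f t h
    obtain ⟨X, hX⟩ := ex _ (hpk k)
    rw [of _ (hpk k) X hX] at h
    have hm : maximalIdeal O ^ (k + 1) = Ideal.span {ϖ ^ (k + 1)} := by
      rw [hϖ.maximalIdeal_eq, Ideal.span_singleton_pow]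
    let u : Tg O ⧸ pk ϖ L.r k →+* O ⧸ maximalIdeal O ^ (k + 1) :=
      Ideal.Quotient.lift _ ((Ideal.Quotient.mk _).comp (ev0 L.r)) fun p hp =>
        Ideal.Quotient.eq_zero_iff_mem.2 (hm ▸ hp)
    have hu : Hom X (Xk k) u := by
      refine (hX.ctT hF).hom ((hXk k).ct (hkT hF) (ev0 L.r) (ev0_cc _) (ev0_tt _) (ev0_dd _)
        (fun _ => map_one' _) fun _ => rfl) fun p => ?_
      obtain ⟨p, rfl⟩ := Ideal.Quotient.mk_surjective p
      exact ((hXk k).pi _).trans (hX.res0 hF.ok p).symm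
    have e := hU.nat _ _ X (Xk k) u (ty _ _ _ X (hpk k).2 hX) (cXk k) hu f
    rw [h, ← hx] at e
    rw [← Ideal.mem_span_singleton, ← hm]
    exact Ideal.Quotient.eq.1 e.symm
  · intro a ha
    obtain ⟨X, hX⟩ := ex a ha
    refine ⟨X, hX, fun s i j t ht => ?_⟩
    rw [of a ha X hX, ht]
    exact hfe s i j _ X (ty _ _ a X ha.2 hX)

end Vale.Agent.P022D.As
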