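import Vale.Agent.P022D.As.TwB
import Vale.Agent.P022D.As.Bas
import Vale.Agent.P022D.As.Glue

/-!
# P022D, assembly: the choice of the auxiliary primes
-/

set_option linter.all false

noncomputable section

namespace Vale.Agent.P022D.As.Tw

open IsLocalRing Filter NumberField
open Vale.Agent.P022 Vale.Agent.P022.C Vale.Agent.P022D.R
open Vale.Agent.P027M.S (Inert mx)
open Vale.Agent.P022D.Sel (M2 Dh Tan IsDec)
open Vale.Agent.P022D.Core (Coef io y1)
open Vale.Agent.P022D.Twq (Lv BigP Good TWQ)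
open Vale.Agent.P022D.Loc (Pl)
open Ideal (torsionOf)

/-- the new variables are sent to zero -/
def kc (O σ : Type) [CommRing O] (r : ℕ) : Core.PS O (σ ⊕ Fin r) →+* Core.PS O σ :=
  (MvPowerSeries.killCompl (R := O) (Function.Embedding.inl : σ ↪ σ ⊕ Fin r)).toRingHom

theorem kc_io {O σ : Type} [CommRing O] (r : ℕ) (f : Core.PS O σ) : kc O σ r (io O σ r f) = f :=
  MvPowerSeries.killCompl_rename_app f

theorem ext_kc {O σ A : Type} [CommRing O] [Finite σ] [CommRing A] {r : ℕ}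
    {Φ : MvPowerSeries σ O →+* A} {m : Ideal A} {n : ℕ} (hn : m ^ n = ⊥)
    (hΦ : ∀ s, Φ (MvPowerSeries.X s) ∈ m) (u : Core.PS O (σ ⊕ Fin r)) :
    ext Φ (fun _ : Fin r => 0) u = Φ (kc O σ r u) := by
  have : IsHausdorff m A := ⟨fun x hx => by
    have := hx n
    rwa [hn, Submodule.bot_smul, SModEq.bot] at this⟩
  have hy : ∀ i : Fin r, (fun _ : Fin r => (0 : A)) i ∈ m := fun _ => zero_mem _
  have e2 : ∀ s, ext Φ (fun _ : Fin r => 0) (MvPowerSeries.X s) =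
      Sum.elim (fun s => Φ (MvPowerSeries.X s)) (fun _ => 0) s := fun s =>
    evl_X (ext_van hn hΦ hy) s
  have e := NR.ev_ext m (φ := ext Φ fun _ : Fin r => 0) (ψ := Φ.comp (kc O σ r))
    (fun c => by
      rw [ext_C hn hΦ hy]
      exact congrArg Φ (MvPowerSeries.killCompl_C c).symm)
    (fun s => by
      rw [e2]
      rcases s with s | s
      · exact congrArg Φ (MvPowerSeries.killCompl_X (e := Function.Embedding.inl) s).symm
      · refine (map_zero Φ).symm.trans (congrArg Φ (MvPowerSeries.killCompl_X_eq_zero ?_).symm)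
        rintro ⟨_, h⟩
        cases h)
    (fun s => by
      rw [e2]
      rcases s with s | s
      exacts [hΦ s, zero_mem _])
  exact congrArg (fun g : Core.PS O (σ ⊕ Fin r) →+* A => g u) e

theorem good_mono {F R : Type} [Field F] [CommRing R] [IsLocalRing R] {ρ : GQ →* M2 R}
    {ρb : GQ →* GL (Fin 2) F} {n k q : ℕ} {δ : R} {A : Finset ℕ} (h : Good ρ ρb (n + k) δ q)
    (hq : q ∉ A) : Aq ρb A n q := by
  obtain ⟨z, hz⟩ := h.two
  exact ⟨h.prime, hq, (pow_dvd_pow 2 (Nat.le_add_right n k)).trans h.one,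
    ⟨z ^ 2 ^ k, by rw [← pow_mul, ← pow_add, add_comm, hz]⟩, h.reg⟩

variable {O F : Type} [CommRing O] [IsDomain O] [IsDiscreteValuationRing O] [Coef O] [Field F]
  [CharP F 2] {S : Dat O F} {L : Pl O} {ϖ : O} {τ : Type} [Fintype τ] {g g' : ℕ} {κ : Crd S τ}

/-- the annihilator of a module in the unframed ring -/
def an (hx : Fx S L) (Φ : Fam S τ g) (Y : Type) [AddCommGroup Y] [Module (Tg O) Y] :
    Ideal (Rz (L.Cl S) Φ) where
  carrier := {z | ∀ (w : Y) (X : Obj S (Tg O ⧸ torsionOf (Tg O) Y w)) (c : C0 (L.Cl S) _ X),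
    Ct (hkT hx 0) X (Ideal.Quotient.mk _) → evq Φ c z = 0}
  zero_mem' := fun _ _ _ _ => map_zero _
  add_mem' := fun a b w X c h => by rw [map_add, a w X c h, b w X c h, add_zero]
  smul_mem' := fun _ _ a w X c h => by rw [smul_eq_mul, map_mul, a w X c h, mul_zero]

theorem an_iff (hx : Fx S L) (hϖ : Irreducible ϖ) (hC : Closed (L.Cl S)) {Φ : Fam S τ g}
    {Φ' : Fam S τ g'} (hU' : Univ (Ty (L.Cl S) ∅) κ Φ') {ψ : PS O τ g' →+* Rz (L.Cl S) Φ}
    (hψ : ∀ (A : Type) [CommRing A] (X : Obj S A) (c : C0 (L.Cl S) A X) f,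
      evq Φ c (ψ f) = Φ' A X f) {Y : Type} [AddCommGroup Y] [Module (Tg O) Y]
    (hY : Gm ϖ L S.T ∅ 0 Y) {r : ℕ} [Module (Core.PS O ((τ ⊕ Fin g') ⊕ Fin r)) Y]
    (hc : Cp0 hx Φ' r Y) (u : Core.PS O ((τ ⊕ Fin g') ⊕ Fin r)) :
    (∀ w : Y, u • w = 0) ↔ ψ (kc O _ r u) ∈ an hx Φ Y := by
  have hG := dir_G (H := hkT hx r) hU' (hC.ty ∅)
  have ev : ∀ (w : Y) (X : Obj S (Tg O ⧸ torsionOf (Tg O) Y w)) (c : C0 (L.Cl S) _ X),
      (hkT hx r).ev Φ' X (Ideal.Quotient.mk _) u = evq Φ c (ψ (kc O _ r u)) := fun w X c => by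
    obtain ⟨n, hn⟩ := X.nil
    rw [hψ, ← ext_kc hn (X_mem hU' c.1), Hk.ev]
    congr 2
    funext i
    exact Ideal.Quotient.eq_zero_iff_mem.2 ((hY w).yz _ (Nat.zero_le _))
  refine ⟨fun h w X c k => ?_, fun h w => ?_⟩
  · obtain ⟨t, ht⟩ := Ideal.Quotient.mk_surjective (evq Φ c (ψ (kc O _ r u)))
    have e := Cmp.eq hG hc (v := w) (f := u) (t := t)
      ⟨_, _, X, _, c.1, ⟨k.ι, k.t, k.d, k.al, k.π⟩, Ideal.Quotient.mk_surjective, rfl⟩
      (fun t ht => by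
        rw [mem_gr, map_zero, eq_comm, Ideal.Quotient.eq_zero_iff_mem] at ht
        exact ht) (mem_gr.2 ((ev w X c).trans ht.symm))
    rw [← ht, Ideal.Quotient.eq_zero_iff_mem]
    exact e.symm.trans (h w)
  · by_cases hw : w = 0
    · rw [hw, smul_zero]
    obtain ⟨X, a, b, -, e⟩ := (Bas.gv hx hϖ.maximalIdeal_eq hY r).own (Bas.inn hx hY r) hG hc hw
    have c : C0 (L.Cl S) _ X := ⟨a, fun l => (b.al l).symm.trans (map_one' _)⟩
    rw [e u 0 ((ev w X c).trans ((h w X c ⟨b.ι, b.t, b.d, b.al, b.π⟩).trans (map_zero _).symm)),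
      zero_smul]

theorem twm_of (hT : TWQ) (hV : UNIV) : TWM := by
  intro O F _ _ _ hc _ _ _ ϖ S L hx υ _ κ K _ Y _ _ hϖ cl dec loc gm pi det big
  classical
  have := hc.cpl
  have := Rl.charZero_of_coef O
  have hk := hx.ok.ker
  have hm := hϖ.maximalIdeal_eq
  have t0 : 0 ∈ S.T := by rw [hx.ok.hT]; exact Finset.mem_insert_self _ _
  have t2 : 2 ∈ S.T := by
    rw [hx.ok.hT]; exact Finset.mem_insert_of_mem (Finset.mem_insert_self _ _)
  choose X hX using exists_ptO L.r hk hx.ok.lift hx.ok.dh hx.lam hx.ok.cont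
  have cX : ∀ k, Ty (L.Cl S) ∅ _ (X k) := fun k => ⟨(hX k).cnd hx.ok, (hX k).unr hx.unr ∅⟩
  have ne : ∃ (A : Type) (_ : CommRing A) (Z : Obj S A), Ty (L.Cl S) ∅ A Z := ⟨_, _, X 0, cX 0⟩
  have ne0 : ∃ (A : Type) (_ : CommRing A) (Z : Obj S A), C0 (L.Cl S) A Z :=
    ⟨_, _, X 0, cX 0, (hX 0).α⟩
  -- the first universal ring
  obtain ⟨r0, δ0, -, h0⟩ := hT F O O S.red S.red (RingHom.id O) L.r S.rb L.H S.T L.D ∅ hx.ok.dh
    t0 t2 dec ⟨fun c h => by
      by_contra k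
      exact h ((hk c).2 k), hk, fun _ => rfl, fun s => (hx.ok.lift s).symm, fun k => by
      refine ⟨((Ideal.Quotient.mk (maximalIdeal O ^ k)).mapMatrix.toMonoidHom.comp
        L.r).toHomUnits.ker, by rw [ker_set]; exact hx.ok.cont k, fun u hu i j => ?_⟩
      have e : (L.r u).map (Ideal.Quotient.mk (maximalIdeal O ^ k)) = 1 := Units.ext_iff.1 hu
      exact Ideal.Quotient.eq.1 (congrFun (congrFun (e.trans
        (map_one' (Ideal.Quotient.mk (maximalIdeal O ^ k))).symm) i) j), hx.unr,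
      fun z => ⟨z, Subalgebra.algebraMap_mem _ z, by rw [sub_self]; exact zero_mem _⟩⟩
    Set.finite_empty (fun _ h => h.elim)
  obtain ⟨q0, -, h0, -⟩ := h0 0 ∅
  obtain ⟨Φ, hU, -⟩ := hV O F υ S L.D (2 * r0 + 1) (L.Cl S) κ hk cl loc ne (tan_empty h0)
  have := loc_Rz (Φ := Φ) ne0
  have := (baseP (O := O) (τ := υ) (g := 2 * r0 + 1)).cpl
  have := Dh.complete_quot (Kr (C0 (L.Cl S)) Φ)
  obtain ⟨lb, x, ρ, lv, hρ, xt, xd⟩ := exists_lv hk cl hU L.r hx.ok.lift hx.ok.dh hx.lam X hX cX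
  have tr : ∀ (A : Type) [CommRing A] (Z : Obj S A) (c : C0 (L.Cl S) A Z) s,
      evq Φ c (ρ s).trace = (Z.ρ s).trace := fun A _ Z c s => by
    rw [← hρ A Z c]
    exact AddMonoidHom.map_trace (evq Φ c) (ρ s)
  have dt : ∀ (A : Type) [CommRing A] (Z : Obj S A) (c : C0 (L.Cl S) A Z) s,
      evq Φ c (ρ s).det = (Z.ρ s).det := fun A _ Z c s => by
    rw [← hρ A Z c]
    exact (evq Φ c).map_det (ρ s)
  -- the primes
  have hp : ∀ J, ∃ p : Ideal (Rz (L.Cl S) Φ), an hx Φ (Y J) ≤ p ∧ BigP S.red ρ p := fun J => by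
    obtain ⟨_, b1, -, -, b4, b5, b6, -⟩ :=
      bas O F ϖ S L hx υ (2 * r0 + 1) 0 κ Φ hϖ cl ne hU (Y J) (gm J)
    have := base O ((υ ⊕ Fin (2 * r0 + 1)) ⊕ Fin 0)
    obtain ⟨p, p1, p2, p3⟩ := big J (Core.PS O ((υ ⊕ Fin (2 * r0 + 1)) ⊕ Fin 0)) b4
      (fun u hu w => (b6 w).imp fun k h => h _ (Ideal.pow_mem_pow hu k)) b5
    have e := an_iff hx hϖ cl hU (ψ := Ideal.Quotient.mk _) (fun _ _ _ _ _ => rfl) (gm J) b1
    let ψ := (Ideal.Quotient.mk (Kr (C0 (L.Cl S)) Φ)).comp (kc O _ 0)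
    have sj : Function.Surjective ψ := Ideal.Quotient.mk_surjective.comp
      fun f => ⟨_, kc_io 0 f⟩
    have k1 : RingHom.ker ψ ≤ p := fun u hu => p2 (Module.mem_annihilator.2 ((e u).2 (by
      rw [show Ideal.Quotient.mk _ (kc O _ 0 u) = 0 from hu]
      exact zero_mem _)))
    have k2 : an hx Φ (Y J) ≤ p.map ψ := fun z hz => by
      obtain ⟨u, rfl⟩ := sj z
      exact Ideal.mem_map_of_mem ψ (p2 (Module.mem_annihilator.2 ((e u).2 hz)))
    refine ⟨p.map ψ, k2, Ideal.map_isPrime_of_surjective sj k1, fun c h => k2 fun w Z c' k => ?_,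
      ?_, fun s => ?_⟩
    · obtain ⟨a, rfl⟩ := Ideal.mem_span_singleton'.1 (hm ▸ (hk c).1 h)
      refine (hU.cst _ Z c'.1 _).trans ((k.ι _).symm.trans (Ideal.Quotient.eq_zero_iff_mem.2 ?_))
      change (MvPolynomial.C (a * ϖ) : Tg O) • w = 0
      rw [map_mul, mul_smul]
      exact (congrArg _ (pi J w)).trans (smul_zero _)
    · rw [← dim_comap ψ sj, Ideal.comap_map_of_surjective ψ sj,
        sup_eq_left.2 (show Ideal.comap ψ ⊥ ≤ p from k1)]
      exact p3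
    · obtain ⟨n, hn, h⟩ := det J s
      refine ⟨n, hn, k2 fun w Z c' k => ?_⟩
      rw [map_sub, map_pow, dt, ← k.d, map_one, ← map_pow, sub_eq_zero, ← map_one
        (Ideal.Quotient.mk (torsionOf (Tg O) (Y J) w)), Ideal.Quotient.eq]
      change (dd s ^ n - 1 : Tg O) • w = 0
      rw [sub_smul, h, one_smul, sub_self]
  choose p p1 p2 using hp
  obtain ⟨r, δ, d1, d2⟩ := hT F O (Rz (L.Cl S) Φ) S.red lb x ρ S.rb L.H S.T L.D (Set.range p)
    hx.ok.dh t0 t2 dec lv (Set.finite_range p) (by rintro _ ⟨J, rfl⟩; exact p2 J)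
  obtain ⟨v, hv⟩ := krull (⊥ : Ideal O) (z := ∏ i, x (δ i))
    (Finset.prod_ne_zero_iff.2 fun i _ => (d1 i).1)
  choose k hk' using fun J => krull (p J) (z := ∏ i, δ i) fun h => by
    have := (p2 J).prime
    obtain ⟨i, -, hi⟩ := Ideal.IsPrime.prod_mem_iff.1 h
    exact (d1 i).2 _ ⟨J, rfl⟩ hi
  obtain ⟨N, hN⟩ := (Set.finite_range k).bddAbove
  refine ⟨r, fun n₀ A => ?_⟩
  choose q q1 q2 q3 using fun n => d2 (n + n₀ + (N + v)) A
  obtain ⟨Φ₀, U0, h1⟩ := hV O F υ S L.D (2 * r + 1) (L.Cl S) κ hk cl loc ne (tan_empty (q2 0))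
  choose Ψ h2 h3 using fun n => h1 _ (q2 n)
  obtain ⟨ψ, s1, s2⟩ := exists_psi hk cl ne0 hU U0
  have xm : ∀ z ∈ maximalIdeal (Rz (L.Cl S) Φ), x z ∈ maximalIdeal O := fun z hz =>
    (hk _).1 ((lv.comp z).trans ((lv.ker z).2 hz))
  refine ⟨q, Φ₀, Ψ, U0, fun n => ⟨q1 n, fun i => good_mono (q3 n i).2.2 fun h =>
    (Finset.mem_union.1 h).elim (q3 n i).1 (q3 n i).2.1, h2 n, h3 n⟩, fun φ hφ =>
    ⟨⟨v, fun n h => hv ?_⟩, fun D hD J _ hc => ?_⟩⟩
  · refine prod_out _ (fun i => x ((q n i : Rz (L.Cl S) Φ) * (ρ (φ n i)).trace ^ 2 -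
      ((q n i : Rz (L.Cl S) Φ) + 1) ^ 2 * (ρ (φ n i)).det)) _ (fun i => ?_) ?_
    · obtain ⟨u, hu⟩ := (q3 n i).2.2.dq _ (hφ n i)
      refine ⟨Units.map x.toMonoidHom u, Ideal.mem_sup_right ?_⟩
      have := map_pow_max x xm v _ (Ideal.pow_le_pow_right (by omega) hu)
      rwa [map_sub, map_mul x (u : Rz (L.Cl S) Φ)] at this
    · refine Ideal.mem_sup_right ?_
      rw [hm, Ideal.span_singleton_pow, Ideal.mem_span_singleton]
      simp only [Dq, map_prod, map_sub, map_mul, map_pow, map_add, map_natCast, map_one, ev0_t,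
        ev0_d, xt, xd] at h ⊢
      exact h
  · have := base O ((υ ⊕ Fin (2 * r + 1)) ⊕ Fin r)
    have sj : Function.Surjective (ψ.comp (kc O _ r)) := s1.comp fun f => ⟨_, kc_io r f⟩
    have := (p2 J).prime
    refine ⟨(p J).comap (ψ.comp (kc O _ r)), Ideal.comap_isPrime _ _,
      (dim_comap _ sj _).symm ▸ (p2 J).dim,
      fun u hu => p1 J ((an_iff hx hϖ cl U0 s2 (gm J) hc u).1 hu), k J, fun n h => hk' J ?_⟩
    refine prod_out _ (fun i => (q n i : Rz (L.Cl S) Φ) * (ρ (φ n i)).trace ^ 2 -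
      ((q n i : Rz (L.Cl S) Φ) + 1) ^ 2 * (ρ (φ n i)).det) _ (fun i => ?_) ?_
    · have : k J ≤ N := hN ⟨J, rfl⟩
      exact ((q3 n i).2.2.dq _ (hφ n i)).imp fun u hu =>
        Ideal.mem_sup_right (Ideal.pow_le_pow_right (by omega) hu)
    · have e : ψ (D n) = ∏ i, ((q n i : Rz (L.Cl S) Φ) * (ρ (φ n i)).trace ^ 2 -
          ((q n i : Rz (L.Cl S) Φ) + 1) ^ 2 * (ρ (φ n i)).det) := evq_ext fun B _ Z c => by
        rw [s2, hD n B Z c.1]
        simp only [map_prod, map_sub, map_mul, map_pow, map_add, map_natCast, map_one, tr B Z c,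
          dt B Z c]
      obtain ⟨a, ha, b, hb, e'⟩ := Submodule.mem_sup.1 h
      have e2 := congrArg (ψ.comp (kc O _ r)) e'
      rw [map_add, RingHom.comp_apply ψ _ (io O _ r _), kc_io, e] at e2
      rw [← e2]
      exact add_mem (Ideal.mem_sup_left ha)
        (Ideal.mem_sup_right (map_pow_max _ (max_of_surj _ sj) _ b hb))

end Vale.Agent.P022D.As.Tw
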