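import Vale.Agent.P022D.As.Box
import Vale.Agent.P022D.As.Cov
import Vale.Agent.P022D.Dh.Alg

/-!
# P022D, assembly: compactness for the unframed objects of level zero
-/

set_option linter.all false

noncomputable section

namespace Vale.Agent.P022D.As.Tw

open IsLocalRing Filter
open Vale.Agent.P022 Vale.Agent.P022.C Vale.Agent.P022D.R
open Vale.Agent.P027M.S (Inert mx)
open Vale.Agent.P022D.Sel (M2)
open Vale.Agent.P022D.Core (Coef)

theorem cpt {R : Type} [CommRing R] (m : Ideal R) [IsPrecomplete m R]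
    (hm : ∀ k, Finite (R ⧸ m ^ k)) (𝒮 : Set (Set R)) (hne : 𝒮.Nonempty)
    (h1 : ∀ s ∈ 𝒮, s.Nonempty) (h2 : ∀ s ∈ 𝒮, ∀ t ∈ 𝒮, ∃ u ∈ 𝒮, u ⊆ s ∧ u ⊆ t)
    (h3 : ∀ s ∈ 𝒮, ∃ k, ∀ a ∈ s, ∀ b, a - b ∈ m ^ k → b ∈ s) : ∃ z, ∀ s ∈ 𝒮, z ∈ s := by
  have : Nonempty 𝒮 := hne.to_subtype
  obtain ⟨U, hU⟩ := exists_ultra (α := 𝒮) fun a b => by
    obtain ⟨u, h, p, q⟩ := h2 _ a.2 _ b.2
    exact ⟨⟨u, h⟩, p, q⟩
  choose x hx using fun s : 𝒮 => h1 _ s.2
  obtain ⟨y, hy⟩ := ulim_adic U x m hm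
  refine ⟨y, fun s hs => ?_⟩
  obtain ⟨k, hk⟩ := h3 s hs
  obtain ⟨p, a, b⟩ := ((hU ⟨s, hs⟩).and (hy k)).exists
  exact hk _ (a (hx p)) _ b

theorem hom_of_graph {P T : Type} [CommRing P] [CommRing T] (Γ : Subring (P × T))
    (h1 : ∀ f, ∃ t, (f, t) ∈ Γ) (h2 : ∀ t, ((0 : P), t) ∈ Γ → t = 0) :
    ∃ ψ : P →+* T, ∀ f, (f, ψ f) ∈ Γ := by
  choose l hl using h1
  have u : ∀ f t, (f, t) ∈ Γ → l f = t := fun f t h =>
    sub_eq_zero.1 (h2 _ (by simpa using Γ.sub_mem (hl f) h))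
  exact ⟨⟨⟨⟨l, u 1 1 Γ.one_mem⟩, fun a b => u _ _ (Γ.mul_mem (hl a) (hl b))⟩, u 0 0 Γ.zero_mem,
    fun a b => u _ _ (Γ.add_mem (hl a) (hl b))⟩, hl⟩

theorem fin_pow (P : Type) [CommRing P] [h : PA.Base P] (k : ℕ) :
    Finite (P ⧸ maximalIdeal P ^ k) := by
  have : Finite (P ⧸ maximalIdeal P) := h.fin
  exact Ideal.finite_quotient_pow (IsNoetherian.noetherian _) k

theorem dim_comap {P R : Type} [CommRing P] [CommRing R] (ψ : P →+* R)
    (h : Function.Surjective ψ) (p : Ideal R) :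
    ringKrullDim (P ⧸ p.comap ψ) = ringKrullDim (R ⧸ p) := by
  have e : RingHom.ker ((Ideal.Quotient.mk p).comp ψ) = p.comap ψ := by
    rw [← RingHom.comap_ker, Ideal.mk_ker]
  rw [← e]
  exact ringKrullDim_eq_of_ringEquiv
    (RingHom.quotientKerEquivOfSurjective (Ideal.Quotient.mk_surjective.comp h))

variable {O F : Type} [CommRing O] [Field F] {S : Dat O F}

/-- the unframed objects of `C` which are unramified outside `T` -/
def C0 (C : Cl S) : Cl S := fun A _ X => Ty C ∅ A X ∧ ∀ l, X.α l = 1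

theorem closed_C0 {C : Cl S} (h : Closed C) : Closed (C0 C) where
  push A B _ _ X Y u k hX := ⟨(h.ty ∅).push A B X Y u k hX.1, fun l => by
    rw [← k.α, hX.2, map_one']⟩
  pull A B B' _ _ _ X Y Y' u u' k k' i hY hY' :=
    ⟨(h.ty ∅).pull A B B' X Y Y' u u' k k' i hY.1 hY'.1, fun l => mat_inj i
      (by rw [k.α, hY.2, map_one']) (by rw [k'.α, hY'.2, map_one'])⟩

theorem src {C : Cl S} (h : Closed C) {A B : Type} [CommRing A] [CommRing B] {X : Obj S A}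
    {Y : Obj S B} (a : C A X) (b : C B Y) : ∃ (E : Type) (_ : CommRing E) (Z : Obj S E)
      (u : E →+* A) (u' : E →+* B), C E Z ∧ Hom Z X u ∧ Hom Z Y u' := by
  obtain ⟨Z, u, u', -, c, d, e⟩ := exists_can X Y (RingHom.ker X.ev ⊓ RingHom.ker Y.ev)
    fun w => Iff.rfl
  exact ⟨_, _, Z, u, u', h.pull _ _ _ Z X Y u u' c d e a b, c, d⟩

theorem cptX {R : Type} [CommRing R] (m : Ideal R) [IsPrecomplete m R]
    (hm : ∀ k, Finite (R ⧸ m ^ k)) {C : Cl S} (hC : Closed C)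
    (ne : ∃ (A : Type) (_ : CommRing A) (X : Obj S A), C A X)
    (s : ∀ (A : Type) [CommRing A], Obj S A → Set R)
    (h1 : ∀ (A : Type) [CommRing A] (X : Obj S A), C A X → (s A X).Nonempty)
    (h2 : ∀ (A B : Type) [CommRing A] [CommRing B] (Z : Obj S A) (X : Obj S B) (u : A →+* B),
      C A Z → C B X → Hom Z X u → s A Z ⊆ s B X)
    (h3 : ∀ (A : Type) [CommRing A] (X : Obj S A), C A X →
      ∃ k, ∀ a ∈ s A X, ∀ b, a - b ∈ m ^ k → b ∈ s A X) :
    ∃ z, ∀ (A : Type) [CommRing A] (X : Obj S A), C A X → z ∈ s A X := by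
  obtain ⟨z, hz⟩ := cpt m hm
    {t | ∃ (A : Type) (_ : CommRing A) (X : Obj S A), C A X ∧ t = s A X}
    (by
      obtain ⟨A, _, X, h⟩ := ne
      exact ⟨_, A, _, X, h, rfl⟩)
    (by
      rintro _ ⟨A, _, X, h, rfl⟩
      exact h1 A X h)
    (by
      rintro _ ⟨A, _, X, h, rfl⟩ _ ⟨B, _, Y, h', rfl⟩
      obtain ⟨E, _, Z, u, u', a, b, c⟩ := src hC h h'
      exact ⟨_, ⟨E, _, Z, a, rfl⟩, h2 _ _ _ _ u a h b, h2 _ _ _ _ u' a h' c⟩)
    (by
      rintro _ ⟨A, _, X, h, rfl⟩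
      exact h3 A X h)
  exact ⟨z, fun A _ X h => hz _ ⟨A, _, X, h, rfl⟩⟩

/-- the common kernel on a class -/
def Kr {τ : Type} {g : ℕ} (C : Cl S) (Φ : Fam S τ g) : Ideal (PS O τ g) where
  carrier := {f | ∀ (A : Type) [CommRing A] (X : Obj S A), C A X → Φ A X f = 0}
  zero_mem' := fun _ _ _ _ => map_zero _
  add_mem' := fun ha hb A _ X h => by rw [map_add, ha A X h, hb A X h, add_zero]
  smul_mem' := fun c f hf A _ X h => by rw [smul_eq_mul, map_mul, hf A X h, mul_zero]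

/-- the entries of an unframed object are generated by the traces -/
theorem ev_mem [CharP F 2] (h10 : mx S.rb S.g1 1 0 ≠ 0) (hlam : S.red S.lam = mx S.rb S.g1 0 1)
    {A : Type} [CommRing A] (X : Obj S A) (hα : ∀ l, X.α l = 1) (A' : Subring A)
    (hι : ∀ c, X.ι c ∈ A') (ht : ∀ g, (X.ρ g).trace ∈ A') (w : W O) : X.ev w ∈ A' := by
  have := X.fin
  have hd : ∀ g, (X.ρ g).det ∈ A' := fun g => by
    have e := tr_mul X.ρ (S.g0 * g) g
    rw [mul_inv_cancel_right] at e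
    have hu : IsUnit (X.ρ S.g0).trace := X.loc _ (by
      have : X.π (X.ρ S.g0).trace = (mx S.rb S.g0).trace := by
        rw [← X.res]
        exact AddMonoidHom.map_trace X.π (X.ρ S.g0)
      rw [this, Matrix.trace_fin_two, ← CharTwo.sub_eq_add]
      exact sub_ne_zero.2 S.dne)
    obtain ⟨n, hn, e'⟩ := isOfFinOrder_iff_pow_eq_one.1 (isOfFinOrder_of_finite hu.unit)
    have e2 : (X.ρ S.g0).trace ^ n = 1 := by
      have := congrArg Units.val e'
      rwa [Units.val_pow_eq_pow_val, IsUnit.unit_spec] at this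
    obtain ⟨n, rfl⟩ := Nat.exists_eq_succ_of_ne_zero hn.ne'
    have e3 : (X.ρ g).det = ((X.ρ (S.g0 * g)).trace * (X.ρ g).trace -
        (X.ρ (S.g0 * g * g)).trace) * (X.ρ S.g0).trace ^ n := by
      rw [pow_succ] at e2
      linear_combination (-(X.ρ S.g0).trace ^ n) * e - (X.ρ g).det * e2
    rw [e3]
    exact mul_mem (sub_mem (mul_mem (ht _) (ht _)) (ht _)) (pow_mem (ht _) _)
  let H : Hk S 0 A' :=
    { ι := X.ι.codRestrict A' hι, π := X.π.comp A'.subtype, t := fun g => ⟨_, ht g⟩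
      d := fun g => ⟨_, hd g⟩, al := fun _ => 1, y := fun i => 0, alg := X.alg
      ht := fun g => by
        rw [← X.res]
        exact AddMonoidHom.map_trace X.π (X.ρ g)
      hd := fun g => by
        rw [← X.res]
        exact X.π.map_det (X.ρ g)
      one := fun _ => map_one' _, off := fun _ _ => rfl, fr := rfl, hy := fun _ => map_zero _
      h10 := h10, lam := hlam
      opn := by
        have e : {g | S.rb g = 1} = {g | ((Units.coeHom _).comp S.rb) g = 1} :=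
          Set.ext fun g => Units.val_eq_one.symm
        rw [e]
        exact opn_of_le X.ρ _ X.opn fun g hg => by
          change mx S.rb g = 1
          rw [← X.res, hg, map_one'] }
  have c : Ct H X A'.subtype := ⟨fun _ => rfl, fun _ => rfl, fun _ => rfl,
    fun l => (map_one' _).trans (hα l).symm, fun _ => rfl⟩
  obtain ⟨I, Z, u, -, -, b, -, -, e, -⟩ := c.pull c
  obtain ⟨v, hv⟩ := Ideal.Quotient.mk_surjective (Z.ev w)
  rw [← b.ev, ← hv, e]
  exact v.2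

variable [IsDomain O] [IsDiscreteValuationRing O] [Coef O] {τ : Type} [Fintype τ] {g g' : ℕ}
  {C : Cl S} {κ : Crd S τ} {Φ : Fam S τ g} {Φ' : Fam S τ g'}

instance baseP : PA.Base (PS O τ g) := base O (τ ⊕ Fin g)

theorem mem_max (hk : ∀ c, S.red c = 0 ↔ c ∈ maximalIdeal O) (f : PS O τ g) :
    f ∈ maximalIdeal (PS O τ g) ↔ S.red (MvPowerSeries.constantCoeff f) = 0 := by
  rw [hk, mem_maximalIdeal, mem_maximalIdeal, mem_nonunits_iff, mem_nonunits_iff,
    MvPowerSeries.isUnit_iff_constantCoeff]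

theorem pow_ker (hk : ∀ c, S.red c = 0 ↔ c ∈ maximalIdeal O) (hU : Univ C κ Φ) {A : Type}
    [CommRing A] {X : Obj S A} (c : C A X) :
    ∃ k, ∀ f ∈ maximalIdeal (PS O τ g) ^ k, Φ A X f = 0 := by
  obtain ⟨n, hn⟩ := X.nil
  have h1 : maximalIdeal (PS O τ g) ≤ (RingHom.ker X.π).comap (Φ A X) := fun f hf => by
    rw [Ideal.mem_comap, RingHom.mem_ker, hU.res A X c]
    exact (mem_max hk f).1 hf
  refine ⟨n, fun f hf => ?_⟩
  have := Ideal.le_comap_pow _ n (Ideal.pow_right_mono h1 n hf)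
  rwa [hn, Ideal.mem_comap, Ideal.mem_bot] at this

variable (hk : ∀ c, S.red c = 0 ↔ c ∈ maximalIdeal O) (hC : Closed C)
  (ne : ∃ (A : Type) (_ : CommRing A) (X : Obj S A), C0 C A X) (hU : Univ (Ty C ∅) κ Φ)
include hk hC ne hU

theorem chev (k : ℕ) : ∃ (A : Type) (_ : CommRing A) (X : Obj S A), C0 C A X ∧
    ∀ f, Φ A X f = 0 → f ∈ Kr (C0 C) Φ ⊔ maximalIdeal (PS O τ g) ^ k := by
  by_contra h
  push Not at h
  have := (baseP (O := O) (τ := τ) (g := g)).cpl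
  obtain ⟨z, hz⟩ := cptX (maximalIdeal (PS O τ g)) (fin_pow _) (closed_C0 hC) ne
    (fun A _ X => {f | Φ A X f = 0 ∧ f ∉ Kr (C0 C) Φ ⊔ maximalIdeal (PS O τ g) ^ k})
    (fun A _ X c => h A _ X c)
    (fun A B _ _ Z X u a b e f hf => ⟨by rw [← hU.nat A B Z X u a.1 b.1 e, hf.1, map_zero], hf.2⟩)
    (fun A _ X c => by
      obtain ⟨n, hn⟩ := pow_ker hk hU c.1
      refine ⟨n + k, fun a ha b hb => ⟨?_, fun e => ha.2 ?_⟩⟩
      · have := hn _ (Ideal.pow_le_pow_right (by omega) hb)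
        rwa [map_sub, ha.1, zero_sub, neg_eq_zero] at this
      · have := add_mem e (Ideal.mem_sup_right (Ideal.pow_le_pow_right (Nat.le_add_left k n) hb))
        rwa [add_sub_cancel] at this)
  obtain ⟨A, _, X, c⟩ := ne
  exact (hz A X c).2 (Ideal.mem_sup_left fun B _ Y c' => (hz B Y c').1)

theorem transfer (hU' : Univ (Ty C ∅) κ Φ') (f' : PS O τ g') :
    ∃ f, ∀ (A : Type) [CommRing A] (X : Obj S A), C0 C A X → Φ A X f = Φ' A X f' := by
  have := (baseP (O := O) (τ := τ) (g := g)).cpl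
  refine cptX (maximalIdeal (PS O τ g)) (fin_pow _) (closed_C0 hC) ne
    (fun A _ X => {f | Φ A X f = Φ' A X f'}) (fun A _ X c => ?_)
    (fun A B _ _ Z X u a b e f hf => ?_) fun A _ X c => ?_
  · obtain ⟨w, hw⟩ := hU'.rng A X c.1 f'
    obtain ⟨f, hf⟩ := hU.gen w
    exact ⟨f, (hf A X c.1).trans hw.symm⟩
  · change _ = _
    rw [← hU.nat A B Z X u a.1 b.1 e, ← hU'.nat A B Z X u a.1 b.1 e]
    exact congrArg u hf
  · obtain ⟨n, hn⟩ := pow_ker hk hU c.1
    refine ⟨n, fun a ha b hb => ?_⟩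
    have := hn _ hb
    rw [map_sub, sub_eq_zero] at this
    exact this.symm.trans ha

end Vale.Agent.P022D.As.Tw
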