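import Vale.Agent.P022D.As.TwA
import Vale.Agent.P022D.As.Pt
import Vale.Agent.P022D.Twq.Defs

/-!
# P022D, assembly: the unframed ring of level zero
-/

set_option linter.all false

noncomputable section

namespace Vale.Agent.P022D.As.Tw

open IsLocalRing Filter NumberField
open Vale.Agent.P022 Vale.Agent.P022.C Vale.Agent.P022D.R
open Vale.Agent.P027M.S (Inert mx)
open Vale.Agent.P022D.Sel (M2 Dh Tan IsDec)
open Vale.Agent.P022D.Core (Coef)
open Vale.Agent.P022D.Twq (Lv BigP Good TWQ)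

theorem krull {R : Type} [CommRing R] [IsLocalRing R] [IsNoetherianRing R] (I : Ideal R) {z : R}
    (h : z ∉ I) : ∃ k, z ∉ I ⊔ maximalIdeal R ^ k := by
  by_contra c
  push Not at c
  have h0 := Ideal.iInf_pow_smul_eq_bot_of_isLocalRing (M := R ⧸ I) (maximalIdeal R)
    (maximalIdeal.isMaximal R).ne_top
  refine h (Ideal.Quotient.eq_zero_iff_mem.1 ?_)
  rw [← Submodule.mem_bot R, ← h0, Submodule.mem_iInf]
  intro k
  obtain ⟨a, ha, b, hb, rfl⟩ := Submodule.mem_sup.1 (c k)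
  rw [map_add, Ideal.Quotient.eq_zero_iff_mem.2 ha, zero_add]
  have : Ideal.Quotient.mk I b = b • (1 : R ⧸ I) := by
    rw [Algebra.smul_def, mul_one]
    rfl
  rw [this]
  exact Submodule.smul_mem_smul hb Submodule.mem_top

theorem prod_out {R ι : Type} [CommRing R] [Fintype ι] (I : Ideal R) (a δ : ι → R)
    (h : ∀ i, ∃ u : Rˣ, a i - u * δ i ∈ I) (h' : ∏ i, a i ∈ I) : ∏ i, δ i ∈ I := by
  choose u hu using h
  have e : Ideal.Quotient.mk I (∏ i, a i) =
      Ideal.Quotient.mk I (((∏ i, u i : Rˣ) : R) * ∏ i, δ i) := by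
    rw [Units.coe_prod, ← Finset.prod_mul_distrib, map_prod, map_prod]
    exact Finset.prod_congr rfl fun i _ => Ideal.Quotient.eq.2 (hu i)
  rw [Ideal.Quotient.eq_zero_iff_mem.2 h', eq_comm, Ideal.Quotient.eq_zero_iff_mem] at e
  exact (Ideal.unit_mul_mem_iff_mem I (Units.isUnit _)).1 e

theorem map_pow_max {R T : Type} [CommRing R] [CommRing T] [IsLocalRing R] [IsLocalRing T]
    (ψ : R →+* T) (h : ∀ z ∈ maximalIdeal R, ψ z ∈ maximalIdeal T) (k : ℕ) :
    ∀ z ∈ maximalIdeal R ^ k, ψ z ∈ maximalIdeal T ^ k := fun z hz =>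
  Ideal.le_comap_pow ψ k (Ideal.pow_right_mono (show _ ≤ (maximalIdeal T).comap ψ from h) k hz)

theorem max_of_surj {R T : Type} [CommRing R] [CommRing T] [IsLocalRing R] [IsLocalRing T]
    (ψ : R →+* T) (h : Function.Surjective ψ) : ∀ z ∈ maximalIdeal R, ψ z ∈ maximalIdeal T :=
  fun z hz => by
    have := IsLocalHom.of_surjective ψ h
    exact fun e => hz ((isUnit_map_iff ψ z).1 e)

variable {O F : Type} [CommRing O] [Field F] {S : Dat O F}

theorem tan_empty {ρ : GQ →* GL (Fin 2) F} {T Q : Finset ℕ} {D : ℕ → Set GQ} {N : ℕ}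
    (h : Tan ρ T Q D N) : Tan ρ T ∅ D N := fun Z hZ => h Z fun z hz =>
  ⟨(hZ z hz).coc, (hZ z hz).opn, fun l a b _ => (hZ z hz).unr l a b (Finset.notMem_empty l),
    (hZ z hz).loc, (hZ z hz).zero⟩

variable {τ : Type} {g g' : ℕ} {C : Cl S} {κ : Crd S τ} {Φ : Fam S τ g} {Φ' : Fam S τ g'}

/-- the unframed ring -/
abbrev Rz (C : Cl S) (Φ : Fam S τ g) : Type := PS O τ g ⧸ Kr (C0 C) Φ

/-- its values on the objects -/
def evq (Φ : Fam S τ g) {A : Type} [CommRing A] {X : Obj S A} (c : C0 C A X) : Rz C Φ →+* A :=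
  Ideal.Quotient.lift _ (Φ A X) fun _ hf => hf A X c

theorem evq_mk {A : Type} [CommRing A] {X : Obj S A} (c : C0 C A X) (f : PS O τ g) :
    evq Φ c (Ideal.Quotient.mk _ f) = Φ A X f := rfl

theorem evq_inj {z : Rz C Φ}
    (h : ∀ (A : Type) [CommRing A] (X : Obj S A) (c : C0 C A X), evq Φ c z = 0) : z = 0 := by
  obtain ⟨f, rfl⟩ := Ideal.Quotient.mk_surjective z
  exact Ideal.Quotient.eq_zero_iff_mem.2 h

theorem evq_ext {z z' : Rz C Φ}
    (h : ∀ (A : Type) [CommRing A] (X : Obj S A) (c : C0 C A X), evq Φ c z = evq Φ c z') :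
    z = z' := sub_eq_zero.1 (evq_inj fun A _ X c => by rw [map_sub, h, sub_self])

theorem exists_hom {P : Type} [CommRing P] (e : ∀ (A : Type) [CommRing A], Obj S A → (P →+* A))
    (h : ∀ p, ∃ f, ∀ (A : Type) [CommRing A] (X : Obj S A), C0 C A X → Φ A X f = e A X p) :
    ∃ ψ : P →+* Rz C Φ, ∀ (A : Type) [CommRing A] (X : Obj S A) (c : C0 C A X) p,
      evq Φ c (ψ p) = e A X p := by
  let Γ : Subring (P × Rz C Φ) :=
    { carrier := {v | ∀ (A : Type) [CommRing A] (X : Obj S A) (c : C0 C A X),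
        evq Φ c v.2 = e A X v.1}
      mul_mem' := fun a b A _ X c => by
        rw [Prod.snd_mul, Prod.fst_mul, map_mul, map_mul, a A X c, b A X c]
      one_mem' := fun A _ X c => by rw [Prod.snd_one, Prod.fst_one, map_one, map_one]
      add_mem' := fun a b A _ X c => by
        rw [Prod.snd_add, Prod.fst_add, map_add, map_add, a A X c, b A X c]
      zero_mem' := fun A _ X c => by rw [Prod.snd_zero, Prod.fst_zero, map_zero, map_zero]
      neg_mem' := fun a A _ X c => by rw [Prod.snd_neg, Prod.fst_neg, map_neg, map_neg, a A X c] }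
  obtain ⟨ψ, hψ⟩ := hom_of_graph Γ (fun p => by
    obtain ⟨f, hf⟩ := h p
    exact ⟨Ideal.Quotient.mk _ f, hf⟩) fun t ht => evq_inj fun A _ X c =>
      (ht A X c).trans (map_zero _)
  exact ⟨ψ, fun A _ X c p => hψ p A X c⟩

theorem exists_rho (hU : Univ (Ty C ∅) κ Φ) : ∃ ρ : GQ →* M2 (Rz C Φ),
    ∀ (A : Type) [CommRing A] (X : Obj S A) (c : C0 C A X) s, (ρ s).map (evq Φ c) = X.ρ s := by
  obtain ⟨e, he⟩ := exists_hom (C := C) (Φ := Φ) (fun A _ X => X.ev) fun w => by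
    obtain ⟨f, hf⟩ := hU.gen w
    exact ⟨f, fun A _ X c => hf A X c.1⟩
  let ρ : GQ → M2 (Rz C Φ) := fun s => Matrix.of fun i j => e (MvPolynomial.X (Sum.inl s, i, j))
  have h : ∀ (A : Type) [CommRing A] (X : Obj S A) (c : C0 C A X) s,
      (ρ s).map (evq Φ c) = X.ρ s := fun A _ X c s => by
    ext i j
    exact (he A X c _).trans (ev_X X _ i j)
  have inj : ∀ M N : M2 (Rz C Φ), (∀ (A : Type) [CommRing A] (X : Obj S A) (c : C0 C A X),
      M.map (evq Φ c) = N.map (evq Φ c)) → M = N := fun M N k => by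
    ext i j
    exact evq_ext fun A _ X c => congrFun (congrFun (k A X c) i) j
  exact ⟨⟨⟨ρ, inj _ _ fun A _ X c => by rw [h, map_one, map_one']⟩, fun a b => inj _ _
    fun A _ X c => by rw [Matrix.map_mul, h, h, h, map_mul]⟩, h⟩

variable [IsDomain O] [IsDiscreteValuationRing O] [Coef O] [Fintype τ]
  (hk : ∀ c, S.red c = 0 ↔ c ∈ maximalIdeal O) (hC : Closed C)
  (ne : ∃ (A : Type) (_ : CommRing A) (X : Obj S A), C0 C A X) (hU : Univ (Ty C ∅) κ Φ)
include ne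

theorem loc_Rz : IsLocalRing (Rz C Φ) := by
  obtain ⟨A, _, X, c⟩ := ne
  have : Nontrivial (Rz C Φ) := (X.π.comp (evq Φ c)).domain_nontrivial
  exact IsLocalRing.of_surjective' (Ideal.Quotient.mk _) Ideal.Quotient.mk_surjective

include hk hC hU

theorem chevq [IsLocalRing (Rz C Φ)] (k : ℕ) : ∃ (A : Type) (_ : CommRing A) (X : Obj S A)
    (c : C0 C A X), ∀ z, evq Φ c z = 0 → z ∈ maximalIdeal (Rz C Φ) ^ k := by
  obtain ⟨A, _, X, c, h⟩ := chev hk hC ne hU k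
  refine ⟨A, _, X, c, fun z hz => ?_⟩
  obtain ⟨f, rfl⟩ := Ideal.Quotient.mk_surjective z
  obtain ⟨a, ha, b, hb, rfl⟩ := Submodule.mem_sup.1 (h f hz)
  rw [map_add, Ideal.Quotient.eq_zero_iff_mem.2 ha, zero_add]
  exact map_pow_max _ (max_of_surj _ Ideal.Quotient.mk_surjective) k b hb

theorem exists_psi (hU' : Univ (Ty C ∅) κ Φ') : ∃ ψ : PS O τ g' →+* Rz C Φ,
    Function.Surjective ψ ∧ ∀ (A : Type) [CommRing A] (X : Obj S A) (c : C0 C A X) f,
      evq Φ c (ψ f) = Φ' A X f := by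
  obtain ⟨ψ, h⟩ := exists_hom (C := C) (Φ := Φ) Φ' (transfer hk hC ne hU hU')
  refine ⟨ψ, fun z => ?_, h⟩
  obtain ⟨f, rfl⟩ := Ideal.Quotient.mk_surjective z
  obtain ⟨f', hf⟩ := transfer hk hC ne hU' hU f
  exact ⟨f', evq_ext fun A _ X c => (h A X c f').trans (hf A X c)⟩

omit ne in
theorem exists_lv [CharP F 2] [IsLocalRing (Rz C Φ)] (r : GQ →* M2 O)
    (lift : ∀ s, (r s).map S.red = mx S.rb s) {H : Subgroup GQ} (dh : Dh S.rb H)
    (lam : S.red S.lam = mx S.rb S.g1 0 1) (X : ∀ k : ℕ, Obj S (O ⧸ maximalIdeal O ^ (k + 1)))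
    (hX : ∀ k, PtO r _ (X k)) (hc : ∀ k, Ty C ∅ _ (X k)) :
    ∃ (lb : Rz C Φ →+* F) (x : Rz C Φ →+* O) (ρ : GQ →* M2 (Rz C Φ)),
      Lv S.red lb x ρ S.rb S.T ∧
      (∀ (A : Type) [CommRing A] (Y : Obj S A) (c : C0 C A Y) s, (ρ s).map (evq Φ c) = Y.ρ s) ∧
      (∀ s, x (ρ s).trace = (r s).trace) ∧ ∀ s, x (ρ s).det = (r s).det := by
  have c0 : ∀ k, C0 C _ (X k) := fun k => ⟨hc k, (hX k).α⟩
  have ne : ∃ (A : Type) (_ : CommRing A) (X : Obj S A), C0 C A X := ⟨_, _, _, c0 0⟩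
  have := (inferInstance : Coef O).cpl
  obtain ⟨ρ, hρ⟩ := exists_rho hU
  obtain ⟨x1, -, h1, -⟩ := exists_x hU r hk lift dh lam X hX hc 0
  let x : Rz C Φ →+* O := Ideal.Quotient.lift _ (x1.comp (Core.io O _ 0)) fun f hf =>
    eq_of_mk fun k => by rw [RingHom.comp_apply, h1, hf _ _ (c0 k), map_zero]
  have hx : ∀ k z, Ideal.Quotient.mk _ (x z) = evq Φ (c0 k) z := fun k z => by
    obtain ⟨f, rfl⟩ := Ideal.Quotient.mk_surjective z
    exact h1 k f
  have tr : ∀ (A : Type) [CommRing A] (Y : Obj S A) (c : C0 C A Y) s,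
      evq Φ c (ρ s).trace = (Y.ρ s).trace := fun A _ Y c s => by
    rw [← hρ A Y c]
    exact AddMonoidHom.map_trace (evq Φ c) (ρ s)
  have dt : ∀ (A : Type) [CommRing A] (Y : Obj S A) (c : C0 C A Y) s,
      evq Φ c (ρ s).det = (Y.ρ s).det := fun A _ Y c s => by
    rw [← hρ A Y c]
    exact (evq Φ c).map_det (ρ s)
  have al : ∀ (A : Type) [CommRing A] (Y : Obj S A) (c : C0 C A Y) o,
      evq Φ c (algebraMap O _ o) = Y.ι o := fun A _ Y c o => hU.cst A Y c.1 o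
  let lb : Rz C Φ →+* F := S.red.comp x
  have hl : ∀ z, lb z = (X 0).π (evq Φ (c0 0) z) := fun z => by
    rw [← hx, (hX 0).pi]
    rfl
  have sj : Function.Surjective lb := fun a => by
    obtain ⟨o, rfl⟩ := S.surj a
    exact ⟨algebraMap O _ o, by rw [hl, al, (X 0).alg]⟩
  refine ⟨lb, x, ρ, ⟨fun c h => ?_, fun z => ?_, fun _ => rfl, fun s => ?_, fun k => ?_,
    fun l a b P c d u e => ?_, fun z => ?_⟩, hρ, fun s => eq_of_mk fun k => ?_,
    fun s => eq_of_mk fun k => ?_⟩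
  · by_contra k
    exact h ((hk c).2 k)
  · rw [← eq_maximalIdeal (RingHom.ker_isMaximal_of_surjective lb sj), RingHom.mem_ker]
  · rw [← (X 0).res, ← hρ _ _ (c0 0), Matrix.map_map]
    ext i j
    exact (hl _).symm
  · obtain ⟨A, _, Y, c, h⟩ := chevq hk hC ne hU k
    refine ⟨Y.ρ.toHomUnits.ker, by rw [ker_set]; exact Y.opn, fun u hu i j => h _ ?_⟩
    have e : Y.ρ u = 1 := Units.ext_iff.1 hu
    have e' := congrFun (congrFun ((hρ A Y c u).trans (e.trans (map_one' (evq Φ c)).symm)) i) j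
    rw [Matrix.sub_apply, map_sub, sub_eq_zero]
    exact e'
  · ext i j
    exact evq_ext fun A _ Y c' => congrFun (congrFun ((hρ A Y c' u).trans
      ((c'.1.2 l a b (Finset.notMem_empty l) P c d u e).trans (map_one' (evq Φ c')).symm)) i) j
  · obtain ⟨A, _, Y, c, h⟩ := chevq hk hC ne hU 2
    obtain ⟨f, rfl⟩ := Ideal.Quotient.mk_surjective z
    obtain ⟨w, hw⟩ := hU.rng A Y c.1 f
    obtain ⟨y, hy, e⟩ := ev_mem (h10_of_dh dh) lam Y c.2
      ((Algebra.adjoin O (Set.range fun s => (ρ s).trace)).toSubring.map (evq Φ c))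
      (fun o => ⟨_, Subalgebra.algebraMap_mem _ o, al A Y c o⟩)
      (fun s => ⟨_, Algebra.subset_adjoin ⟨s, rfl⟩, tr A Y c s⟩) w
    exact ⟨y, hy, h _ (by rw [map_sub, e, evq_mk, hw, sub_self])⟩
  · rw [hx, tr, (hX k).t]
  · rw [hx, dt, (hX k).d]

end Vale.Agent.P022D.As.Tw
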