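import Vale.Agent.P022D.As.Tw
import Vale.Agent.P022D.Twq.Main

/-!
# P022D, assembly: closed form of the choice of the auxiliary primes
-/

namespace Vale.Agent.P022D.As

theorem twm : TWM := Tw.twm_of Twq.twq R.univ

end Vale.Agent.P022D.As
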